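import Vale.Agent.P366Z.St0.Sk

/-!
# P366Z, block STEP0: the factor before the bubble is added
-/

open MeasureTheory Metric Filter Topology Set
open scoped ContDiff ENNReal
open Vale.Agent.P366.Stmt

noncomputable section

namespace Vale.Agent.P366Z.St0.Asm

variable {n : ℕ} {g : Field n} {F : E n → ℝ} {q C R m : ℝ}

theorem small {K : Set (E n)} (hK : IsCompact K) {a b : E n → ℝ} (ha : Continuous a)
    (hb : Continuous b) (h : ∀ x ∈ K, 0 < a x) :
    ∃ t₀ > (0 : ℝ), ∀ t, 0 ≤ t → t ≤ t₀ → ∀ x ∈ K, 0 < a x + t * b x := by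
  obtain ⟨c, c0, hc⟩ := hK.exists_forall_le' ha.continuousOn (a := 0) h
  obtain ⟨M, hM⟩ := hK.exists_bound_of_continuousOn hb.continuousOn
  refine ⟨c / (2 * (|M| + 1)), by positivity, fun t t0 t1 x hx => ?_⟩
  have h1 := hc x hx
  have h2 : |b x| ≤ |M| := (hM x hx).trans (le_abs_self M)
  have h3 : t * (2 * (|M| + 1)) ≤ c := (le_div_iff₀ (by positivity)).1 t1
  have h4 : t * (-|M|) ≤ t * b x :=
    mul_le_mul_of_nonneg_left (by linarith [neg_abs_le (b x)]) t0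
  linarith

theorem pd_lin {u w : E n → ℝ} (hu : Smooth u) (hw : Smooth w) (s t : ℝ) (i : Fin n) (x : E n) :
    pd i (fun y => s * u y + t * w y) x = s * pd i u x + t * pd i w x := by
  rw [pd_add ((hu.diff x).const_mul s) ((hw.diff x).const_mul t), pd_const_mul, pd_const_mul]

theorem sm_lin {u w : E n → ℝ} (hu : Smooth u) (hw : Smooth w) (s t : ℝ) :
    Smooth fun y => s * u y + t * w y :=
  ContDiff.add (ContDiff.mul contDiff_const hu) (ContDiff.mul contDiff_const hw)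

theorem ip_lin {u w : E n → ℝ} (hu : Smooth u) (hw : Smooth w) (s t : ℝ) (x : E n) :
    ip g (fun y => s * u y + t * w y) F x = s * ip g u F x + t * ip g w F x :=
  ip_of_pd_add fun i => pd_lin hu hw s t i x

theorem cl_lin (hg : Met g) {u w : E n → ℝ} (hu : Smooth u) (hw : Smooth w) (s t : ℝ) (x : E n) :
    cl g (fun y => s * u y + t * w y) x = s * cl g u x + t * cl g w x := by
  unfold cl
  rw [hg.lap_lin (hu.c2 x) (hw.c2 x)]
  ring

theorem cont_cl (hg : Met g) {u : E n → ℝ} (hu : Smooth u) : Continuous (cl g u) :=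
  (continuous_const.mul (hg.sm_lap hu).cont).add (hg.sm_scal.cont.mul hu.cont)

theorem lt_of_le (hB : Bs g F q C R m) {x : E n} (hx : F x < 1) : ‖x‖ < R := by
  by_contra h
  linarith [hB.far x (not_lt.1 h)]

theorem ip_bd (hB : Bs g F q C R m) : ∃ M ≥ (0 : ℝ), ∀ (u : E n → ℝ) (e : ℝ) (x : E n),
    Smooth u → ‖x‖ ≤ R → ‖fderiv ℝ u x‖ ≤ e → ip g u F x ≤ M * e := by
  have hc : Continuous fun x => ∑ i, |gr g F i x| :=
    continuous_finsetSum _ fun i _ => (hB.met.sm_gr hB.ext.1 i).cont.abs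
  obtain ⟨M, hM⟩ := (isCompact_closedBall (0 : E n) R).exists_bound_of_continuousOn
    hc.continuousOn
  refine ⟨|M|, abs_nonneg _, fun u e x hu hx he => ?_⟩
  have e0 : 0 ≤ e := (norm_nonneg _).trans he
  have h1 : ∑ i, |gr g F i x| ≤ |M| :=
    ((le_abs_self _).trans (hM x (by simpa using hx))).trans (le_abs_self M)
  rw [ip_eq_gr]
  calc ∑ i, pd i u x * gr g F i x ≤ ∑ i, e * |gr g F i x| :=
        Finset.sum_le_sum fun i _ => (le_abs_self _).trans (by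
          rw [abs_mul]
          exact mul_le_mul_of_nonneg_right ((abs_pd_le (hu.diff x) i).trans he) (abs_nonneg _))
    _ = (∑ i, |gr g F i x|) * e := by rw [← Finset.mul_sum, mul_comm]
    _ ≤ |M| * e := mul_le_mul_of_nonneg_right h1 e0

/-- the factor before the bubble is added -/
structure Pre (g : Field n) (F : E n → ℝ) (ρ η m : ℝ) (v : E n → ℝ) (β : ℝ) : Prop where
  sm : Smooth v
  bd : ∀ x, 3 / 4 ≤ v x ∧ v x ≤ 3 / 2
  lo : ∀ x, 0 ≤ F x → 1 - η ≤ v x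
  pos : ∀ x, 0 ≤ F x → ‖x‖ ≤ 2 * ρ → 0 < cl (gc g ρ) v x
  nn : ∀ x, 2 * ρ ≤ ‖x‖ → lap (gc g ρ) v x ≤ 0
  zero : ∀ x, 4 * ρ ≤ ‖x‖ → lap (gc g ρ) v x = 0
  dir : ∀ x, F x = 0 → ip g v F x < 0
  asy : Asy v 1 β
  mass : 2 * β ≤ m + η

theorem fe_out (hn : 3 ≤ n) {ρ : ℝ} (hρ : 0 < ρ) (hG : Met (gc g ρ)) (hf : Flat (gc g ρ) (2 * ρ))
    {x : E n} (hx : 2 * ρ ≤ ‖x‖) : fe g ρ x = 0 := by
  unfold fe
  rw [hf.scal_eq' (by omega) hG hx, cut_zero hρ hx]
  ring

theorem pre (hM : CUTM) (hU : USOL) (hW : WT) (hA : ASY) (hB : Bs g F q C R m) {η : ℝ}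
    (hη : 0 < η) : ∃ ρ₀ : ℝ, ∀ ρ ≥ ρ₀, ∃ v β, Pre g F ρ η m v β := by
  obtain ⟨K, K0, c, c0, ρW, hw⟩ := hW n g F q C R m hB
  obtain ⟨M, M0, hM'⟩ := ip_bd hB
  obtain ⟨C', -, hc⟩ := hM n q C hB.C0
  have R0 : 0 < R := by linarith [hB.R1]
  obtain ⟨d, d0, d1, d2⟩ : ∃ d > (0 : ℝ), d * K ≤ 1 / 8 ∧ d * K ≤ η / 4 := by
    refine ⟨min (1 / 8) (η / 4) / K, by positivity, ?_, ?_⟩ <;> rw [div_mul_cancel₀ _ K0.ne']
    exacts [min_le_left _ _, min_le_right _ _]
  obtain ⟨e, e0, e1, e2, e3⟩ : ∃ e > (0 : ℝ), e ≤ 1 / 8 ∧ e ≤ η / 2 ∧ M * e < d * c := by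
    refine ⟨min (min (1 / 8) (η / 2)) (d * c / (M + 1)), by positivity,
      (min_le_left _ _).trans (min_le_left _ _), (min_le_left _ _).trans (min_le_right _ _), ?_⟩
    have h1 : min (min (1 / 8) (η / 2)) (d * c / (M + 1)) * (M + 1) ≤ d * c :=
      (le_div_iff₀ (by positivity)).1 (min_le_right _ _)
    have h2 : 0 < min (min (1 / 8) (η / 2)) (d * c / (M + 1)) := by positivity
    linarith
  obtain ⟨ρU, hu⟩ := hU n g F q C R m hB R e e0
  refine ⟨max R (max ρW ρU), fun ρ hρ => ?_⟩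
  have r1 : R ≤ ρ := (le_max_left _ _).trans hρ
  obtain ⟨w, βw, w1, w2, w3, w4, w5, w6, w7, w8, w9⟩ :=
    hw ρ (((le_max_left _ _).trans (le_max_right _ _)).trans hρ)
  obtain ⟨u, βu, u1, u2, u3, u4, u5, u6⟩ :=
    hu ρ (((le_max_right _ _).trans (le_max_right _ _)).trans hρ)
  obtain ⟨g1, g2, -, -, -⟩ := hc g R ρ hB.met hB.af R0 r1
  have hγ := one_lt_gam hB.dim
  have lu : ∀ x, 2 * ρ ≤ ‖x‖ → lap (gc g ρ) u x = 0 := fun x hx => by
    have h := u4 x
    rw [fe_out hB.dim (by linarith) g1 g2 hx, zero_mul] at h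
    exact (mul_eq_zero.1 h).resolve_left (by positivity)
  have dw : ∀ x, |d * w x| ≤ d * K := fun x => by
    rw [abs_mul, abs_of_pos d0]; exact mul_le_mul_of_nonneg_left (w2 x) d0.le
  refine ⟨fun x => 1 * u x + d * w x, 1 * βu + d * βw, sm_lin u1 w1 _ _, fun x => ?_,
    fun x hx => ?_, fun x hx hx' => ?_, fun x hx => ?_, fun x hx => ?_, fun x hx => ?_, ?_, ?_⟩
  · have h1 := abs_le.1 (u2 x)
    have h2 := abs_le.1 (dw x)
    constructor <;> linarith [h1.1, h1.2, h2.1, h2.2]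
  · have h1 := abs_le.1 (u2 x)
    have h2 := mul_nonneg d0.le (w3 x hx)
    linarith [h1.1]
  · rw [cl_lin g1 u1 w1]
    have s0 : 0 ≤ cut ρ x * scal g x := mul_nonneg (cut_nonneg _ _) (hB.sc x hx)
    have h1 : cl (gc g ρ) u x = cut ρ x * scal g x * u x := by
      have := u4 x
      unfold fe at this
      unfold cl
      linarith
    have h2 : cl (gc g ρ) w x = -(4 * gam n) * lap (gc g ρ) w x + fe g ρ x * w x +
        cut ρ x * scal g x * w x := by
      unfold cl fe; ring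
    have h3 := abs_le.1 (u2 x)
    have h4 : 0 ≤ cut ρ x * scal g x * u x := mul_nonneg s0 (by linarith [h3.1])
    have h5 : 0 ≤ cut ρ x * scal g x * w x := mul_nonneg s0 (w3 x hx)
    have h6 : 0 < d * cl (gc g ρ) w x := mul_pos d0 (by linarith [w4 x hx hx'])
    linarith
  · rw [g1.lap_lin (u1.c2 x) (w1.c2 x), lu x hx]
    linarith [mul_nonneg d0.le (neg_nonneg.2 (w5 x hx))]
  · rw [g1.lap_lin (u1.c2 x) (w1.c2 x), lu x (by linarith), w6 x hx]
    ring
  · have hx' : ‖x‖ ≤ R := (lt_of_le hB (by linarith)).le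
    rw [ip_lin u1 w1]
    have h1 := hM' u e x u1 hx' (u3 x hx')
    have h2 := mul_le_mul_of_nonneg_left (w7 x hx) d0.le
    linarith
  · have := (hA n u w 1 0 βu βw hB.dim u1 w1 u5).2.2.1 1 d w8
    simpa only [mul_zero, add_zero, mul_one] using this
  · have := mul_le_mul_of_nonneg_left w9 d0.le
    linarith

end Vale.Agent.P366Z.St0.Asm
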