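import Vale.Agent.P366Z.St0.Sk

/-!
# P366Z, block STEP0: extension of the data, connectedness of the open exterior domain
-/

open MeasureTheory Metric Filter Topology Set Matrix
open scoped ContDiff ENNReal
open Vale.Agent.P366.Stmt

noncomputable section

namespace Vale.Agent.P366Z.St0

namespace ExtA

variable {n : ℕ} {F : E n → ℝ} {x : E n}

theorem fd_ne (hF : Smooth F) (h : ∃ i, pd i F x ≠ 0) : fderiv ℝ F x ≠ 0 := fun k =>
  h.elim fun i hi => hi (by rw [pd_eq (hF.diff x), k]; rfl)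

theorem ex_dir (h : fderiv ℝ F x ≠ 0) : ∃ v, 0 < fderiv ℝ F x v := by
  obtain ⟨v, hv⟩ : ∃ v, fderiv ℝ F x v ≠ 0 := by
    by_contra k
    push Not at k
    exact h (ContinuousLinearMap.ext k)
  rcases hv.lt_or_gt with k | k
  · exact ⟨-v, by rw [map_neg]; exact neg_pos.2 k⟩
  · exact ⟨v, k⟩

theorem mono (hF : Smooth F) {v : E n} (h : 0 < fderiv ℝ F x v) : ∃ r > (0 : ℝ), ∃ T > (0 : ℝ),
    ∀ y ∈ ball x r, StrictMonoOn (fun t : ℝ => F (y + t • v)) (Icc 0 T) := by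
  have c1 : Continuous fun y => fderiv ℝ F y v :=
    (ContDiff.continuous_fderiv hF (by simp)).clm_apply continuous_const
  obtain ⟨r, hr, h1⟩ := Metric.eventually_nhds_iff.1 (c1.continuousAt.eventually (lt_mem_nhds h))
  refine ⟨r / 2, by positivity, r / 2 / (‖v‖ + 1), by positivity, fun y hy => ?_⟩
  have d : ∀ t : ℝ, HasDerivAt (fun t : ℝ => F (y + t • v)) (fderiv ℝ F (y + t • v) v) t :=
    fun t => (hF.diff _).hasFDerivAt.comp_hasDerivAt t
      (by simpa using ((hasDerivAt_id t).smul_const v).const_add y)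
  refine strictMonoOn_of_deriv_pos (convex_Icc _ _)
    (fun t _ => (d t).continuousAt.continuousWithinAt) fun t ht => ?_
  rw [(d t).deriv]
  rw [interior_Icc] at ht
  refine h1 ((dist_triangle _ y _).trans_lt ?_)
  have k1 : dist (y + t • v) y = t * ‖v‖ := by
    rw [dist_eq_norm, add_sub_cancel_left, norm_smul, Real.norm_of_nonneg ht.1.le]
  have k2 := (lt_div_iff₀ (by positivity)).1 ht.2
  have k3 : dist y x < r / 2 := hy
  have k4 := ht.1
  nlinarith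

theorem loc (hF : Smooth F) (h0 : 0 ≤ F x) (h : F x = 0 → ∃ i, pd i F x ≠ 0) :
    ∃ W ∈ 𝓝 x, ∃ z, ∀ y ∈ W, 0 < F y →
      ∃ S ⊆ {x | 0 < F x}, IsPreconnected S ∧ y ∈ S ∧ z ∈ S := by
  have o : IsOpen {x | 0 < F x} := isOpen_lt continuous_const hF.cont
  rcases h0.lt_or_eq with h0 | h0
  · obtain ⟨δ, hδ, h1⟩ := Metric.isOpen_iff.1 o x h0
    exact ⟨_, ball_mem_nhds x hδ, x, fun y hy _ =>
      ⟨_, h1, (convex_ball x δ).isPreconnected, hy, mem_ball_self hδ⟩⟩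
  · obtain ⟨v, hv⟩ := ex_dir (fd_ne hF (h h0.symm))
    obtain ⟨r, hr, T, hT, hm⟩ := mono hF hv
    have h1 : 0 < F (x + T • v) := by
      simpa [← h0] using hm x (mem_ball_self hr) ⟨le_rfl, hT.le⟩ ⟨hT.le, le_rfl⟩ hT
    obtain ⟨δ, hδ, h2⟩ := Metric.isOpen_iff.1 o _ h1
    refine ⟨ball x (min r δ), ball_mem_nhds x (lt_min hr hδ), x + T • v, fun y hy h3 =>
      ⟨(fun t : ℝ => y + t • v) '' Icc 0 T ∪ ball (x + T • v) δ, union_subset ?_ h2,
        IsPreconnected.union (y + T • v) ⟨T, ⟨hT.le, le_rfl⟩, rfl⟩ ?_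
          (isPreconnected_Icc.image _ (by fun_prop)) (convex_ball _ _).isPreconnected,
        Or.inl ⟨0, ⟨le_rfl, hT.le⟩, by simp⟩, Or.inr (mem_ball_self hδ)⟩⟩
    · rintro _ ⟨t, ht, rfl⟩
      have k := (hm y (ball_subset_ball (min_le_left _ _) hy)).monotoneOn ⟨le_rfl, hT.le⟩ ht ht.1
      simp only [zero_smul, add_zero] at k
      exact h3.trans_le k
    · rw [mem_ball, dist_add_right]
      exact ball_subset_ball (min_le_right _ _) hy

theorem clo (hF : Smooth F) (h0 : 0 ≤ F x) (h : F x = 0 → ∃ i, pd i F x ≠ 0) :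
    x ∈ closure {x | 0 < F x} := by
  rcases h0.lt_or_eq with h0 | h0
  · exact subset_closure h0
  · by_contra k
    refine fd_ne hF (h h0.symm) (IsLocalMax.fderiv_eq_zero ?_)
    filter_upwards [isClosed_closure.isOpen_compl.mem_nhds k] with y hy
    rw [← h0]
    exact not_lt.1 fun k => hy (subset_closure k)

theorem pos_ev {g : Field n} (hc : ∀ i j, Continuous fun x => g x i j)
    (hs : ∀ x i j, g x i j = g x j i) (h : (mat g x).PosDef) : ∀ᶠ y in 𝓝 x, (mat g y).PosDef := by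
  have c1 : Continuous fun z : E n × (Fin n → ℝ) => z.2 ⬝ᵥ mat g z.1 *ᵥ z.2 := by
    simp only [dotProduct, mulVec, mat]
    have := fun i j => (hc i j).comp (continuous_fst (Y := Fin n → ℝ))
    fun_prop
  have k := (isCompact_sphere (0 : Fin n → ℝ) 1).eventually_forall_of_forall_eventually
    (x₀ := x) (P := fun y ξ => 0 < ξ ⬝ᵥ mat g y *ᵥ ξ) fun ξ hξ =>
      c1.continuousAt.eventually (lt_mem_nhds (h.dotProduct_mulVec_pos (x := ξ) fun e => by
        simp [e] at hξ))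
  refine k.mono fun y hy => PosDef.of_dotProduct_mulVec_pos (Matrix.ext fun i j => hs y j i)
    fun ξ hξ => ?_
  have h1 := norm_pos_iff.2 hξ
  have h2 := hy (‖ξ‖⁻¹ • ξ) (by simp [norm_smul, h1.ne'])
  rw [mulVec_smul, smul_dotProduct, dotProduct_smul, smul_eq_mul, smul_eq_mul] at h2
  exact (mul_pos_iff_of_pos_left (inv_pos.2 h1)).1 ((mul_pos_iff_of_pos_left (inv_pos.2 h1)).1 h2)

theorem unif {ι : Type} [Fintype ι] {p : ℝ} {f : ι → E n → ℝ} (h : ∀ i, BigO p (f i)) :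
    ∃ C₀ R₀ : ℝ, ∀ C ≥ C₀, ∀ i x, R₀ ≤ ‖x‖ → |f i x| ≤ C * ‖x‖ ^ (-p) := by
  choose C R h using h
  obtain ⟨C₀, hC⟩ := (finite_range C).bddAbove
  obtain ⟨R₀, hR⟩ := (finite_range R).bddAbove
  refine ⟨C₀, R₀ + 1, fun C' hC' i x hx => (h i x ?_).trans
    (mul_le_mul_of_nonneg_right ((hC ⟨i, rfl⟩).trans hC') (Real.rpow_nonneg (norm_nonneg x) _))⟩
  exact (hR ⟨i, rfl⟩).trans_lt ((lt_add_one _).trans_le hx)

theorem mc_ev {g g' : Field n} {F' : E n → ℝ} (e : g =ᶠ[𝓝 x] g') (e' : F =ᶠ[𝓝 x] F') :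
    mc g F x = mc g' F' x := by
  have h1 : ∀ i j, pd i (pd j F) x = pd i (pd j F') x := fun i j => pd_congr (pd_congr_ev e' j) i
  simp only [mc, trS, tr, hess, nrm, covNorm, up_of_eq e.eq_of_nhds, chr_of_ev e, pd_congr e', h1]

theorem flx_congr {W W' : Fin n → E n → ℝ} {r : ℝ} (hr : 0 ≤ r)
    (h : ∀ i x, ‖x‖ = r → W i x = W' i x) : flx W r = flx W' r := by
  unfold flx sphInt sph
  refine congrArg (fun t => r ^ (n - 1) * t / _) (integral_congr_ae (ae_of_all _ fun θ => ?_))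
  refine Finset.sum_congr rfl fun i _ => ?_
  rw [h i _ (by rw [norm_smul, norm_eq_of_mem_sphere, mul_one, Real.norm_of_nonneg hr])]

end ExtA

open ExtA

theorem conn : CONN := by
  intro n F ⟨hF, h1, h2, _⟩ u v hu hv hc ⟨a, ha⟩ ⟨b, hb⟩
  obtain ⟨x, hx, k1, k2⟩ := isPreconnected_closed_iff.1 h2.isPreconnected
    (closure ({x | 0 < F x} ∩ u)) (closure ({x | 0 < F x} ∩ v)) isClosed_closure isClosed_closure
    (fun x hx => by
      rw [← closure_union, ← inter_union_distrib_left, inter_eq_left.2 hc]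
      exact clo hF hx (h1 x))
    ⟨a, le_of_lt (b := F a) ha.1, subset_closure ha⟩
    ⟨b, le_of_lt (b := F b) hb.1, subset_closure hb⟩
  obtain ⟨W, hW, z, h⟩ := loc hF hx (h1 x)
  obtain ⟨y, y1, y2⟩ := mem_closure_iff_nhds.1 k1 W hW
  obtain ⟨y', y1', y2'⟩ := mem_closure_iff_nhds.1 k2 W hW
  obtain ⟨S, s1, s2, s3, s4⟩ := h y y1 y2.1
  obtain ⟨S', s1', s2', s3', s4'⟩ := h y' y1' y2'.1
  obtain ⟨w, w1, w2⟩ := (s2.union z s4 s4' s2') u v hu hv ((union_subset s1 s1').trans hc)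
    ⟨y, Or.inl s3, y2.2⟩ ⟨y', Or.inr s3', y2'.2⟩
  exact ⟨w, union_subset s1 s1' w1, w2⟩

theorem ext : EXT := by
  intro n D m hn ⟨q, hq, hA⟩ hE hs hm
  obtain ⟨sF, hz, hc, R, hR⟩ := D.dom
  obtain ⟨R₀, r1, r2⟩ : ∃ R₀ : ℝ, 1 ≤ R₀ ∧ R < R₀ :=
    ⟨max 1 (R + 1), le_max_left _ _, (lt_add_one R).trans_le (le_max_right _ _)⟩
  obtain ⟨F, hF⟩ : ∃ F : E n → ℝ, ∀ x, F x = D.F x + (1 - cut R₀ x) := ⟨_, fun _ => rfl⟩
  have sF' : Smooth F := funext hF ▸ ContDiff.add sF (contDiff_const.sub (sm_cut R₀))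
  have f1 : ∀ x, D.F x ≤ F x := fun x => by
    rw [hF]
    linarith [cut_le_one R₀ x]
  have f2 : ∀ x : E n, ‖x‖ ≤ R₀ → F x = D.F x := fun x hx => by rw [hF, cut_one hx]; ring
  have f3 : ∀ x, D.F x ≤ 0 → ‖x‖ < R₀ := fun x hx =>
    (not_lt.1 fun k => (hR x k).not_ge hx).trans_lt r2
  have f4 : ∀ x, 0 ≤ F x → 0 ≤ D.F x := fun x hx => by
    by_contra k
    exact k (f2 x (f3 x (not_le.1 k).le).le ▸ hx)
  have f5 : ∀ x, F x = 0 → F =ᶠ[𝓝 x] D.F := fun x hx => by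
    filter_upwards [(isOpen_lt continuous_norm continuous_const).mem_nhds
      (f3 x ((f1 x).trans hx.le))] with y hy using f2 y (le_of_lt hy)
  have f6 : ∀ x : E n, 2 * R₀ ≤ ‖x‖ → 1 ≤ F x := fun x hx => by
    rw [hF, cut_zero (by linarith) hx]
    linarith [hR x (show R < ‖x‖ by linarith)]
  obtain ⟨s, s0, s1⟩ : ∃ s > (0 : ℝ), ∀ x, -(2 * s) < F x → (mat D.g x).PosDef := by
    have k1 : IsCompact {x | ¬ (mat D.g x).PosDef} := by
      refine (isCompact_closedBall (0 : E n) R₀).of_isClosed_subset ?_ fun x hx => ?_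
      · exact isClosed_compl_iff.2 (isOpen_iff_mem_nhds.2 fun x hx =>
          pos_ev (fun i j => (D.smooth i j).1.cont) (fun x i j => (D.symm x i j).1) hx)
      · exact mem_closedBall_zero_iff.2 (f3 x (not_lt.1 fun k => hx (D.pos x k.le))).le
    obtain ⟨c, c0, c1⟩ := k1.exists_forall_le' (f := fun x => -F x) sF'.cont.neg.continuousOn
      (a := 0) fun x hx => neg_pos.2 (not_le.1 fun k => hx (D.pos x (f4 x k)))
    refine ⟨c / 2, by positivity, fun x hx => ?_⟩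
    by_contra k
    linarith [c1 x k]
  obtain ⟨χ, hχ⟩ : ∃ χ : E n → ℝ, ∀ x, χ x = Real.smoothTransition (F x / s + 2) :=
    ⟨_, fun _ => rfl⟩
  have sχ : Smooth χ := funext hχ ▸
    Real.smoothTransition.contDiff.comp ((ContDiff.div_const sF' s).add contDiff_const)
  obtain ⟨g, hg⟩ : ∃ g : Field n, ∀ x i j, g x i j = χ x * D.g x i j + (1 - χ x) * eu n x i j :=
    ⟨_, fun _ _ _ => rfl⟩
  have g1 : ∀ x, 0 ≤ F x → g =ᶠ[𝓝 x] D.g := fun x hx => by
    filter_upwards [sF'.cont.continuousAt.eventually (lt_mem_nhds ((neg_neg_of_pos s0).trans_le hx))]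
      with y hy
    have k : χ y = 1 := by
      rw [hχ]
      refine Real.smoothTransition.one_of_one_le ?_
      have := (le_div_iff₀ s0).2 (show -1 * s ≤ F y by linarith)
      linarith
    funext i j
    rw [hg, k]
    ring
  have g2 : ∀ x, 0 ≤ F x → ∀ i j, (fun y => g y i j) =ᶠ[𝓝 x] fun y => D.g y i j :=
    fun x hx i j => (g1 x hx).mono fun y hy => by simp only [hy]
  have hM : Met g := by
    refine ⟨fun i j => ?_, fun x i j => by rw [hg, hg, (D.symm x i j).1, met_eu.sy x i j],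
      fun x => ?_⟩
    · rw [funext fun x => hg x i j]
      exact (ContDiff.mul sχ (D.smooth i j).1).add ((contDiff_const.sub sχ).mul (met_eu.sm i j))
    · have k : mat g x = χ x • mat D.g x + (1 - χ x) • mat (eu n) x := Matrix.ext (hg x)
      have k0 : 0 ≤ χ x := hχ x ▸ Real.smoothTransition.nonneg _
      have k1 : χ x ≤ 1 := hχ x ▸ Real.smoothTransition.le_one _
      rw [k]
      rcases k0.lt_or_eq with k2 | k2
      · refine ((s1 x (not_le.1 fun k3 => k2.ne' ?_)).smul k2).add_posSemidef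
          ((met_eu.pos x).posSemidef.smul (sub_nonneg.2 k1))
        rw [hχ]
        refine Real.smoothTransition.zero_of_nonpos ?_
        have := (div_le_iff₀ s0).2 (show F x ≤ -2 * s by linarith)
        linarith
      · simpa [← k2] using met_eu.pos x
  obtain ⟨C₁, R₁, a1⟩ := unif fun t : Fin n × Fin n => (hA t.1 t.2 t.1 t.1).1
  obtain ⟨C₂, R₂, a2⟩ := unif fun t : Fin n × Fin n × Fin n => (hA t.1 t.2.1 t.2.2 t.1).2.1
  obtain ⟨C₃, R₃, a3⟩ := unif fun t : Fin n × Fin n × Fin n × Fin n =>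
    (hA t.1 t.2.1 t.2.2.1 t.2.2.2).2.2.1
  obtain ⟨C, c0, c1, c2, c3⟩ : ∃ C : ℝ, 1 ≤ C ∧ C₁ ≤ C ∧ C₂ ≤ C ∧ C₃ ≤ C :=
    ⟨max (max 1 C₁) (max C₂ C₃), by simp, by simp, by simp, by simp⟩
  obtain ⟨P, p0, p1, p2, p3⟩ : ∃ P : ℝ, 2 * R₀ ≤ P ∧ R₁ ≤ P ∧ R₂ ≤ P ∧ R₃ ≤ P :=
    ⟨max (max (2 * R₀) R₁) (max R₂ R₃), by simp, by simp, by simp, by simp⟩
  have f7 : ∀ x : E n, P ≤ ‖x‖ → 0 ≤ F x := fun x hx => zero_le_one.trans (f6 x (p0.trans hx))
  refine ⟨g, F, q, C, P, ⟨hn, hM, hq, one_pos.trans_le c0, by linarith, fun x hx i j k l => ?_, ?_,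
    ⟨sF', fun x hx => ?_, ?_, R, fun x hx => (hR x hx).trans_le (f1 x)⟩,
    fun x hx => f6 x (p0.trans hx), ?_, fun x hx => ?_, fun x hx => ?_⟩,
    fun x hx => f2 x (f3 x hx).le ▸ hx, fun x hx => hx.trans (f1 x),
    fun x hx => (g1 x (hx.trans (f1 x))).eq_of_nhds⟩
  · have e := g2 x (f7 x hx) i j
    rw [(g1 x (f7 x hx)).eq_of_nhds, pd_congr e, pd_congr (pd_congr_ev e k),
      show q + 2 = q + 1 + 1 by ring]
    exact ⟨a1 C c1 (i, j) x (p1.trans hx), a2 C c2 (i, j, k) x (p2.trans hx),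
      a3 C c3 (i, j, k, l) x (p3.trans hx)⟩
  · refine Tendsto.congr' ?_ hE
    filter_upwards [eventually_ge_atTop P] with r hr
    refine flx_congr (by linarith) fun i x hx => ?_
    simp only [yv, pd_congr (g2 x (f7 x (hx ▸ hr)) _ _)]
  · simp only [pd_congr (f5 x hx)]
    exact hz x ((f5 x hx).eq_of_nhds.symm.trans hx)
  · rwa [show {x | 0 ≤ F x} = {x | 0 ≤ D.F x} from
      Set.ext fun x => ⟨f4 x, fun hx => le_trans hx (f1 x)⟩]
  · obtain ⟨x, hx⟩ := D.bdry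
    by_contra k
    push Not at k
    refine fd_ne sF (hz x hx) (IsLocalMin.fderiv_eq_zero (Eventually.of_forall fun y => ?_))
    rw [hx]
    exact f4 y (k y)
  · rw [scal_of_ev (g1 x hx)]
    exact hs x (f4 x hx)
  · rw [mc_ev (g1 x hx.ge) (f5 x hx)]
    exact hm x ((f5 x hx).eq_of_nhds.symm.trans hx)

end Vale.Agent.P366Z.St0
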