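import Vale.Agent.P366Z.St0.Asm1

/-!
# P366Z, block STEP0: the assembly
-/

open MeasureTheory Metric Filter Topology Set
open scoped ContDiff ENNReal
open Vale.Agent.P366.Stmt

noncomputable section

namespace Vale.Agent.P366Z.St0

namespace Asm

variable {n : ℕ} {g : Field n} {F : E n → ℝ} {q C R m : ℝ}

theorem mc_of_ev {g' : Field n} {x : E n} (e : g =ᶠ[𝓝 x] g') : mc g F x = mc g' F x := by
  have e0 : g x = g' x := e.eq_of_nhds
  unfold mc trS tr nrm covNorm hess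
  simp only [up_of_eq e0, chr_of_ev e]

theorem comp_out (hB : Bs g F q C R m) (r : ℝ) : IsCompact {x | 0 ≤ F x ∧ ‖x‖ ≤ r} :=
  (isCompact_closedBall (0 : E n) r).of_isClosed_subset
    ((isClosed_le continuous_const hB.ext.1.cont).inter (isClosed_le continuous_norm
      continuous_const)) fun x hx => by simpa using hx.2

theorem comp_bd (hB : Bs g F q C R m) : IsCompact {x | F x = 0} :=
  (isCompact_closedBall (0 : E n) R).of_isClosed_subset
    (isClosed_eq hB.ext.1.cont continuous_const) fun x hx => by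
      have : F x = 0 := hx
      simpa using (lt_of_le hB (by linarith : F x < 1)).le

/-- the factor after the bubble is added -/
structure Fac (g : Field n) (F : E n → ℝ) (ρ η m δ : ℝ) (U : E n → ℝ) (β t : ℝ) : Prop where
  sm : Smooth U
  bd : ∀ x, 1 / 2 ≤ U x ∧ U x ≤ 2
  lo : ∀ x, 0 ≤ F x → 1 - η ≤ U x
  pos : ∀ x, 0 ≤ F x → 0 < cl (gc g ρ) U x
  t0 : 0 ≤ t
  tδ : 2 * t ≤ δ
  out : ∀ x, 4 * ρ ≤ ‖x‖ → lap (gc g ρ) U x = -(t * src n x)
  dir : ∀ x, F x = 0 → ip g U F x < 0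
  asy : Asy U 1 β
  mass : 2 * β ≤ m + 2 * η

theorem fin (hb : BUB) (hA : ASY) (hB : Bs g F q C R m) {η ρ δ β : ℝ} {v : E n → ℝ} (hη : 0 < η)
    (hδ : 0 < δ) (hρ : 0 < ρ) (g1 : Met (gc g ρ)) (g2 : Flat (gc g ρ) (2 * ρ))
    (hv : Pre g F ρ η m v β) : ∃ U β' t, Fac g F ρ η m δ U β' t := by
  obtain ⟨b1, -, b3, b4, -, -⟩ := hb n hB.dim
  obtain ⟨t₁, t10, h1⟩ := small (comp_out hB (2 * ρ)) (cont_cl g1 hv.sm) (cont_cl g1 b1)
    fun x hx => hv.pos x hx.1 hx.2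
  obtain ⟨t₂, t20, h2⟩ := small (comp_bd hB) (hB.met.sm_ip hv.sm hB.ext.1).cont.neg
    (hB.met.sm_ip b1 hB.ext.1).cont.neg fun x hx => neg_pos.2 (hv.dir x hx)
  have n2 := nm2_pos hB.dim
  have nn : (0 : ℝ) < n * (n - 2) := mul_pos (by linarith) n2
  obtain ⟨t, t0, t1, t2, t3, t4, t5⟩ : ∃ t > (0 : ℝ), t ≤ t₁ ∧ t ≤ t₂ ∧ t ≤ 1 / 2 ∧ t ≤ η / 2 ∧
      t ≤ δ / (2 * (n * (n - 2))) :=
    ⟨min (min t₁ t₂) (min (min (1 / 2) (η / 2)) (δ / (2 * (n * (n - 2))))), by positivity,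
      (min_le_left _ _).trans (min_le_left _ _), (min_le_left _ _).trans (min_le_right _ _),
      ((min_le_right _ _).trans (min_le_left _ _)).trans (min_le_left _ _),
      ((min_le_right _ _).trans (min_le_left _ _)).trans (min_le_right _ _),
      (min_le_right _ _).trans (min_le_right _ _)⟩
  have hγ := one_lt_gam hB.dim
  have tb : ∀ x, 0 ≤ t * bub n x ∧ t * bub n x ≤ 1 / 2 := fun x =>
    ⟨mul_nonneg t0.le (b4 x).1.le, (mul_le_of_le_one_right t0.le (b4 x).2.1).trans t3⟩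
  have lb : ∀ x, 2 * ρ ≤ ‖x‖ → lap (gc g ρ) (bub n) x = -(n * (n - 2) * src n x) := fun x hx => by
    rw [g2.lap_eq' (by linarith [hB.dim]) g1 b1 hx, (b4 x).2.2.2.2.1]
  refine ⟨fun x => 1 * v x + t * bub n x, 1 * β + t * 1, t * (n * (n - 2)), sm_lin hv.sm b1 _ _,
    fun x => ?_, fun x hx => ?_, fun x hx => ?_, by positivity, ?_, fun x hx => ?_,
    fun x hx => ?_, ?_, ?_⟩
  · constructor <;> linarith [(hv.bd x).1, (hv.bd x).2, (tb x).1, (tb x).2]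
  · linarith [hv.lo x hx, (tb x).1]
  · rw [cl_lin g1 hv.sm b1, one_mul]
    rcases le_total ‖x‖ (2 * ρ) with h | h
    · exact h1 t t0.le t1 x ⟨hx, h⟩
    · unfold cl
      rw [g2.scal_eq' (by linarith [hB.dim]) g1 h, lb x h]
      have a1 : 0 ≤ 4 * gam n * -lap (gc g ρ) v x :=
        mul_nonneg (by positivity) (neg_nonneg.2 (hv.nn x h))
      have a2 : 0 < t * (4 * gam n * (n * (n - 2) * src n x)) :=
        mul_pos t0 (mul_pos (by positivity) (mul_pos nn (b4 x).2.2.1))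
      linarith
  · have := (le_div_iff₀ (by positivity)).1 t5
    linarith
  · rw [g1.lap_lin (hv.sm.c2 x) (b1.c2 x), hv.zero x hx, lb x (by linarith)]
    ring
  · rw [ip_lin hv.sm b1]
    have := h2 t t0.le t2 x hx
    simp only [Pi.neg_apply] at this
    linarith
  · have := (hA n v (bub n) 1 0 β 1 hB.dim hv.sm b1 hv.asy).2.2.1 1 t b3
    simpa only [mul_zero, add_zero, mul_one] using this
  · linarith [hv.mass]

theorem qd {U s : E n → ℝ} {G : Field n} (hG : Met G) (hU : Smooth U) (hs : Smooth s) {r t A : ℝ}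
    (h1 : ∀ x, 1 / 2 ≤ U x) (h2 : ∀ x, r ≤ ‖x‖ → lap G U x = -(t * s x))
    (h3 : ∀ x, |s x| ≤ 1) (h4 : ∀ x, ‖fderiv ℝ s x‖ ≤ A) (h5 : ∀ x, ‖fderiv ℝ U x‖ ≤ A) :
    ∃ C, ∀ x, ‖fderiv ℝ (fun y => lap G U y / U y) x‖ ≤ C := by
  have U0 : ∀ x, U x ≠ 0 := fun x => by linarith [h1 x] |> (ne_of_gt : (0 : ℝ) < U x → _)
  have sQ : Smooth fun y => lap G U y / U y := ContDiff.div (hG.sm_lap hU) hU U0
  obtain ⟨K, -, hK⟩ := bdd_of_out (ContDiff.continuous_fderiv sQ (by simp)) (R := r)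
    (C := |t| * (4 * A + 2 * A)) fun x hx => by
      have e : (fun y => lap G U y / U y) =ᶠ[𝓝 x] fun y => -t * (s y * (U y)⁻¹) := by
        filter_upwards [(isOpen_lt continuous_const continuous_norm).mem_nhds hx] with y hy
        rw [h2 y (le_of_lt hy)]; ring
      have d := ((hs.diff x).hasFDerivAt.mul
        ((hasDerivAt_inv (U0 x)).comp_hasFDerivAt x (hU.diff x).hasFDerivAt)).const_mul (-t)
      rw [(d.congr_of_eventuallyEq e).fderiv, norm_smul, Real.norm_eq_abs, abs_neg]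
      refine mul_le_mul_of_nonneg_left ((norm_add_le _ _).trans ?_) (abs_nonneg _)
      have i1 : (U x)⁻¹ ≤ 2 := by
        rw [inv_le_comm₀ (by linarith [h1 x]) two_pos]; linarith [h1 x]
      have i0 : 0 ≤ (U x)⁻¹ := inv_nonneg.2 (by linarith [h1 x])
      have A0 : 0 ≤ A := (norm_nonneg _).trans (h4 x)
      rw [norm_smul, norm_smul, norm_smul, Real.norm_eq_abs, Real.norm_eq_abs, Real.norm_eq_abs,
        abs_neg, ← inv_pow, abs_of_nonneg (sq_nonneg (U x)⁻¹), Function.comp_apply, abs_of_nonneg i0]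
      refine add_le_add ?_ (mul_le_mul i1 (h4 x) (norm_nonneg _) zero_le_two)
      have i2 : (U x)⁻¹ ^ 2 ≤ 4 := by nlinarith
      exact (mul_le_of_le_one_left (by positivity) (h3 x)).trans
        (mul_le_mul i2 (h5 x) (norm_nonneg _) (by norm_num))
  exact ⟨K, hK⟩

theorem gn_ne (hG : Met g) {x : E n} (h : ∃ i, pd i F x ≠ 0) : gn g F x ≠ 0 := by
  obtain ⟨i, hi⟩ := h
  exact (Real.sqrt_pos.2 (hG.up_pos x (ξ := fun j => pd j F x) fun h => hi (congrFun h i))).ne'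

theorem ok (h0 : MC0) (hL : COLL) (hb : BUB) (hA : ASY) (hB : Bs g F q C R m) {η ρ δ β t : ℝ}
    {U : E n → ℝ} (hδ : 0 < δ) (hρ : R ≤ ρ) (g1 : Met (gc g ρ)) (g2 : Flat (gc g ρ) (2 * ρ))
    (g3 : ∀ x, ‖x‖ < ρ → gc g ρ =ᶠ[𝓝 x] g) (hU : Fac g F ρ η m δ U β t) :
    ∃ s h, Bg.Ok ⟨gc g ρ, F, U, fun y => lap (gc g ρ) U y / U y, 4 * ρ, s, h, δ⟩ := by
  obtain ⟨-, b2, -, b4, ⟨A, b5⟩, -⟩ := hb n hB.dim
  have U0 : ∀ x, 0 < U x := fun x => by linarith [(hU.bd x).1]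
  have hγ := one_lt_gam hB.dim
  have R1 := hB.R1
  obtain ⟨s, s0, h, h0', hc⟩ := hL n (gc g ρ) U F g1 hU.sm U0 hB.ext.1 ⟨R, hB.far⟩ fun x hx => by
    have e := g3 x ((lt_of_le hB (by linarith : F x < 1)).trans_le hρ)
    have k := gn_ne g1 (hB.ext.2.1 x hx)
    refine ⟨k, ?_⟩
    rw [h0 n _ U F x g1 hU.sm U0 hB.ext.1 k, mc_of_ev e, ip_of_eq e.eq_of_nhds]
    have a1 : U x ^ (2 * gam n) * mc g F x ≤ 0 :=
      mul_nonpos_of_nonneg_of_nonpos (Real.rpow_pos_of_pos (U0 x) _).le (hB.mc0 x hx)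
    have a2 : 2 * gam n * U x ^ (2 * gam n - 1) * ip g U F x / gn (gc g ρ) F x < 0 :=
      div_neg_of_neg_of_pos (mul_neg_of_pos_of_neg
        (mul_pos (by positivity) (Real.rpow_pos_of_pos (U0 x) _)) (hU.dir x hx))
        (lt_of_le_of_ne (gn_nonneg _ _ _) k.symm)
    linarith
  obtain ⟨z, hz⟩ := hB.deep
  obtain ⟨A', hA'⟩ := (hA n U U 1 1 β β hB.dim hU.sm hU.sm hU.asy).1.2
  refine ⟨min s (min (-F z) (1 / 2)), h, hB.dim, g1, g2.mono (by linarith), by linarith, hB.ext.1,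
    hU.sm, lt_min s0 (lt_min (by linarith) (by norm_num)), h0', hδ, fun x hx => ?_, ⟨z, ?_⟩, hU.bd,
    fun x => ?_, fun x hx => ?_, fun x hx => ?_, ?_, fun x hx => hc x (hx.trans (min_le_left _ _))⟩
  · have h1 : min s (min (-F z) (1 / 2)) ≤ 1 / 2 := (min_le_right _ _).trans (min_le_right _ _)
    have h2 := hB.far x (by have : 4 * ρ ≤ ‖x‖ := hx; linarith)
    show min s (min (-F z) (1 / 2)) < F x
    linarith
  · have h1 : min s (min (-F z) (1 / 2)) ≤ -F z := (min_le_right _ _).trans (min_le_left _ _)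
    show F z ≤ -min s (min (-F z) (1 / 2))
    linarith
  · exact (div_mul_cancel₀ _ (U0 x).ne').symm
  · have h1 := hU.pos x hx
    show 4 * gam n * (lap (gc g ρ) U x / U x) < scal (gc g ρ) x
    rw [← mul_div_assoc, div_lt_iff₀ (U0 x)]
    unfold cl at h1
    linarith
  · have hx' : 4 * ρ ≤ ‖x‖ := hx
    show -(δ * ‖x‖ ^ (-(n + 2) : ℝ)) ≤ lap (gc g ρ) U x / U x ∧ lap (gc g ρ) U x / U x ≤ 0
    have a1 : 0 ≤ t * src n x := mul_nonneg hU.t0 (b4 x).2.2.1.le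
    rw [hU.out x hx']
    refine ⟨?_, div_nonpos_of_nonpos_of_nonneg (by linarith) (U0 x).le⟩
    rw [le_div_iff₀ (U0 x)]
    have a2 := mul_le_mul_of_nonneg_left ((b4 x).2.2.2.2.2 (by linarith)) hU.t0
    have a3 : 0 ≤ ‖x‖ ^ (-(n + 2) : ℝ) := Real.rpow_nonneg (norm_nonneg _) _
    have a4 := mul_le_mul_of_nonneg_right hU.tδ a3
    have a5 := mul_le_mul_of_nonneg_left (hU.bd x).1 (mul_nonneg hδ.le a3)
    linarith
  · exact qd g1 hU.sm b2 (A := max A A') (fun x => (hU.bd x).1) hU.out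
      (fun x => abs_le.2 ⟨by linarith [(b4 x).2.2.1], (b4 x).2.2.2.1⟩)
      (fun x => (b5 x).trans (le_max_left _ _)) fun x => (hA' x).trans (le_max_right _ _)

theorem pw {a η p : ℝ} (h0 : 0 ≤ η) (h1 : η ≤ 1 / 8) (ha : 1 - η ≤ a) (p0 : 0 ≤ p) (p4 : p ≤ 4) :
    1 - 4 * η ≤ a ^ p := by
  have h2 : (1 - η) ^ p ≤ a ^ p := Real.rpow_le_rpow (by linarith) ha p0
  have h3 : (1 - η) ^ ((4 : ℕ) : ℝ) ≤ (1 - η) ^ p :=
    Real.rpow_le_rpow_of_exponent_ge (by linarith) (by linarith) (by simpa using p4)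
  rw [Real.rpow_natCast] at h3
  have h4 := one_add_mul_le_pow (a := -η) (by linarith) 4
  rw [← sub_eq_add_neg] at h4
  push_cast at h4
  linarith

end Asm

open Asm in
theorem asm (hE : EXT) (hC : CMP) (hM : CUTM) (hU : USOL) (hW : WT) (h0 : MC0) (hL : COLL)
    (hb : BUB) (hA : ASY) : STEP0 := by
  intro n D m η hn h1 h2 h3 h4 hη
  obtain ⟨g, F, q, C, R, hB, f1, f2, f3⟩ := hE n D m hn h1 h2 h3 h4
  obtain ⟨κ, κ0, κ1, κ2⟩ : ∃ κ > (0 : ℝ), κ ≤ 1 / 8 ∧ κ ≤ η / 8 :=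
    ⟨min (1 / 8) (η / 8), by positivity, min_le_left _ _, min_le_right _ _⟩
  obtain ⟨e, e0, he⟩ := hC n κ κ0
  obtain ⟨C', C0, hc⟩ := hM n q C hB.C0
  obtain ⟨ρ₀, hp⟩ := pre hM hU hW hA hB κ0
  have q0 : 0 < q := by
    have : (3 : ℝ) ≤ n := by exact_mod_cast hn
    linarith [hB.q0]
  have lim : ∀ᶠ r : ℝ in atTop, max C C' * r ^ (-q) ≤ e := by
    have := (tendsto_rpow_neg_atTop q0).const_mul (max C C')
    rw [mul_zero] at this
    exact this.eventually (ge_mem_nhds e0)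
  obtain ⟨ρ₁, hρ₁⟩ := eventually_atTop.1 lim
  obtain ⟨ρ, r0, r1, r2⟩ : ∃ ρ, ρ₀ ≤ ρ ∧ ρ₁ ≤ ρ ∧ R ≤ ρ :=
    ⟨max ρ₀ (max ρ₁ R), le_max_left _ _, (le_max_left _ _).trans (le_max_right _ _),
      (le_max_right _ _).trans (le_max_right _ _)⟩
  have R1 := hB.R1
  obtain ⟨v, β, hv⟩ := hp ρ r0
  obtain ⟨g1, g2, g3, g4, g5⟩ := hc g R ρ hB.met hB.af (by linarith) r2
  refine ⟨4 * ρ, fun δ hδ => ?_⟩
  obtain ⟨U, β', t, hF⟩ := fin hb hA hB κ0 hδ (by linarith) g1 g2 hv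
  obtain ⟨s, h, hO⟩ := ok h0 hL hb hA hB hδ r2 g1 g2 g5 hF
  refine ⟨_, β', hO, le_rfl, le_rfl, hF.asy, by linarith [hF.mass], f1, fun x hx ξ => ?_⟩
  show (1 - η) * (dens D.g x * covNorm D.g (fun i _ => ξ i) x) ≤
    U x ^ (2 * gam n) * covNorm (gc g ρ) (fun i _ => ξ i) x * dens (gc g ρ) x
  have e1 : covNorm D.g (fun i _ => ξ i) x = covNorm g (fun i _ => ξ i) x := by
    unfold covNorm; simp only [up_of_eq (f3 x hx)]
  have a0 : 0 ≤ dens g x * covNorm g (fun i _ => ξ i) x :=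
    mul_nonneg (dens_nonneg _ _) (Real.sqrt_nonneg _)
  have a1 : (1 - κ) * (dens g x * covNorm g (fun i _ => ξ i) x) ≤
      covNorm (gc g ρ) (fun i _ => ξ i) x * dens (gc g ρ) x := by
    rcases le_total ‖x‖ ρ with k | k
    · have e2 : covNorm (gc g ρ) (fun i _ => ξ i) x = covNorm g (fun i _ => ξ i) x := by
        unfold covNorm; simp only [up_of_eq (g4 x k)]
      rw [e2, dens_of_eq (g4 x k)]
      nlinarith
    · have k1 := hρ₁ ‖x‖ (r1.trans k)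
      have k2 : 0 ≤ ‖x‖ ^ (-q) := Real.rpow_nonneg (norm_nonneg _) _
      exact he g (gc g ρ) x hB.met g1
        (fun i j => ((hB.af x (r2.trans k) i j i i).1.trans
          (mul_le_mul_of_nonneg_right (le_max_left _ _) k2)).trans k1)
        (fun i j => ((g3 x (r2.trans k) i j i i).1.trans
          (mul_le_mul_of_nonneg_right (le_max_right _ _) k2)).trans k1) ξ
  have a2 := pw κ0.le κ1 (hF.lo x (f2 x hx)) (p := 2 * gam n) (by linarith [one_lt_gam hn])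
    (by linarith [gam_le hn])
  rw [← dens_of_eq (f3 x hx), e1, mul_assoc]
  calc (1 - η) * (dens g x * covNorm g (fun i _ => ξ i) x)
      ≤ (1 - 4 * κ) * (1 - κ) * (dens g x * covNorm g (fun i _ => ξ i) x) :=
        mul_le_mul_of_nonneg_right (by nlinarith) a0
    _ ≤ _ := by
        rw [mul_assoc]
        exact mul_le_mul a2 a1 (mul_nonneg (by linarith) a0) (by linarith)

end Vale.Agent.P366Z.St0
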