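import Vale.Agent.P366Z.St0.Sk

/-!
# P366Z, block STEP0: the weighted mean curvature, the collar, the bubble
-/

open MeasureTheory Metric Filter Topology Set
open scoped ContDiff ENNReal
open Vale.Agent.P366.Stmt

noncomputable section

namespace Vale.Agent.P366Z.St0

namespace Mc0

variable {n : ℕ} {g : Field n} {F : E n → ℝ} {x : E n}

theorem mc_eq (g : Field n) (F : E n → ℝ) (x : E n) : mc g F x = (tr g (hess g F) x -
    ∑ i, ∑ j, hess g F x i j * (gr g F i x / gn g F x) * (gr g F j x / gn g F x)) / gn g F x := rfl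

theorem ip_ne (h : gn g F x ≠ 0) : ip g F F x ≠ 0 := fun e => h (by rw [gn, e, Real.sqrt_zero])

theorem diff_gn (hg : Met g) (hF : Smooth F) (h : gn g F x ≠ 0) : DifferentiableAt ℝ (gn g F) x :=
  ((hg.sm_ip hF hF).diff x).sqrt (ip_ne h)

theorem pd_gn (hg : Met g) (hF : Smooth F) (h : gn g F x ≠ 0) (k : Fin n) :
    pd k (gn g F) x = (∑ i, hess g F x k i * gr g F i x) / gn g F x := by
  have h1 := pd_comp (φ := Real.sqrt) (Real.hasDerivAt_sqrt (ip_ne h)) ((hg.sm_ip hF hF).diff x) k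
  rw [hg.pd_ip (hF.c2 x) (hF.c2 x)] at h1
  refine h1.trans ?_
  show 1 / (2 * gn g F x) * _ = _
  field_simp
  ring

theorem cont_gn (hg : Met g) (hF : Smooth F) : Continuous (gn g F) := (hg.sm_ip hF hF).cont.sqrt

theorem sq_rpow {r : ℝ} (hr : 0 ≤ r) (p : ℝ) : (r ^ 2) ^ p = r ^ (2 * p) := by
  rw [Real.rpow_mul hr, Real.rpow_two]

theorem mv {p t : ℝ} (hp : p ≤ 0) (ht : 0 < t) : |(1 + t) ^ p - t ^ p| ≤ -p * t ^ (p - 1) := by
  have h0 : 0 < t⁻¹ := inv_pos.2 ht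
  have e : (1 + t) ^ p = t ^ p * (1 + t⁻¹) ^ p := by
    rw [← Real.mul_rpow ht.le (by positivity), mul_add, mul_one, mul_inv_cancel₀ ht.ne', add_comm]
  have h1 : (1 + t⁻¹) ^ p ≤ 1 := Real.rpow_le_one_of_one_le_of_nonpos (by linarith) hp
  have h2 : 1 + p * t⁻¹ ≤ (1 + t⁻¹) ^ p := by
    rw [Real.rpow_def_of_pos (by positivity)]
    have h3 := Real.add_one_le_exp (Real.log (1 + t⁻¹) * p)
    have h4 := Real.log_le_sub_one_of_pos (show 0 < 1 + t⁻¹ by positivity)
    nlinarith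
  have h5 : 0 < t ^ p := Real.rpow_pos_of_pos ht p
  rw [e, Real.rpow_sub_one ht.ne', abs_le, div_eq_mul_inv]
  constructor <;> nlinarith [mul_nonneg (neg_nonneg.2 hp) (mul_pos h5 h0).le]

theorem hd (p : ℝ) {t : ℝ} (ht : 0 < 1 + t) :
    HasDerivAt (fun s : ℝ => (1 + s) ^ p) (p * (1 + t) ^ (p - 1)) t := by
  simpa using ((hasDerivAt_id t).const_add 1).rpow_const (p := p) (Or.inl ht.ne')

theorem sm (p : ℝ) : Smooth fun y : E n => (1 + ‖y‖ ^ 2) ^ p :=
  Smooth.rpow (f := fun y => 1 + ‖y‖ ^ 2) (contDiff_const.add contDiff_normSq)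
    (fun y => by positivity) p

theorem pd_b (p : ℝ) (x : E n) (i : Fin n) :
    pd i (fun y : E n => (1 + ‖y‖ ^ 2) ^ p) x = 2 * p * (1 + ‖x‖ ^ 2) ^ (p - 1) * x i := by
  rw [pd_comp (φ := fun s : ℝ => (1 + s) ^ p) (f := fun y => ‖y‖ ^ 2) (hd p (by positivity))
    ((contDiff_normSq (m := 1)).differentiable one_ne_zero x), pd_normSq]
  ring

theorem lap_b (p : ℝ) (x : E n) : lap (eu n) (fun y : E n => (1 + ‖y‖ ^ 2) ^ p) x =
    p * (1 + ‖x‖ ^ 2) ^ (p - 2) * (2 * n * (1 + ‖x‖ ^ 2) + 4 * ‖x‖ ^ 2 * (p - 1)) := by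
  have h0 : 0 < 1 + ‖x‖ ^ 2 := by positivity
  have h1 : deriv (fun s : ℝ => (1 + s) ^ p) =ᶠ[𝓝 (‖x‖ ^ 2)] fun s => p * (1 + s) ^ (p - 1) := by
    filter_upwards [(isOpen_lt continuous_const (continuous_const.add continuous_id)).mem_nhds h0]
      with s hs
    exact (hd p hs).deriv
  rw [lap_eu_sq (φ := fun s : ℝ => (1 + s) ^ p)
    ((contDiffAt_const.add contDiffAt_id).rpow_const_of_ne h0.ne'), h1.deriv_eq, h1.eq_of_nhds,
    ((hd (p - 1) h0).const_mul p).deriv, show p - 1 - 1 = p - 2 by ring,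
    show p - 1 = p - 2 + 1 by ring, Real.rpow_add_one h0.ne']
  ring

theorem asy (hn : 3 ≤ n) : Asy (bub n) 0 1 := by
  have h2 := nm2_pos hn
  refine ⟨n * n, 1, fun x hx => ⟨?_, fun i => ?_⟩⟩
  · have h1 := mv (p := (2 - n : ℝ) / 2) (t := ‖x‖ ^ 2) (by linarith) (by positivity)
    rw [sq_rpow (norm_nonneg x), sq_rpow (norm_nonneg x),
      show 2 * ((2 - n : ℝ) / 2) = 2 - n by ring] at h1
    rw [sub_zero, one_mul]
    refine h1.trans (mul_le_mul (by nlinarith) (Real.rpow_le_rpow_of_exponent_le hx (by linarith))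
      (by positivity) (by positivity))
  · have h1 := mv (p := (2 - n : ℝ) / 2 - 1) (t := ‖x‖ ^ 2) (by linarith) (by positivity)
    rw [sq_rpow (norm_nonneg x), sq_rpow (norm_nonneg x),
      show 2 * ((2 - n : ℝ) / 2 - 1) = -n by ring,
      show 2 * ((2 - n : ℝ) / 2 - 1 - 1) = -n - 1 - 1 by ring] at h1
    have h3 : |x i| ≤ ‖x‖ := PiLp.norm_apply_le x i
    have h0 : 0 < ‖x‖ := by linarith
    have h4 : ‖x‖ ^ (-n - 1 - 1 : ℝ) * ‖x‖ ≤ ‖x‖ ^ (-n : ℝ) := by
      rw [← Real.rpow_add_one h0.ne']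
      exact Real.rpow_le_rpow_of_exponent_le hx (by linarith)
    have e : pd i (bub n) x + (n - 2) * 1 * x i * ‖x‖ ^ (-n : ℝ) = -((n - 2) *
        (((1 + ‖x‖ ^ 2) ^ ((2 - n : ℝ) / 2 - 1) - ‖x‖ ^ (-n : ℝ)) * x i)) := by
      rw [show bub n = fun y : E n => (1 + ‖y‖ ^ 2) ^ ((2 - n : ℝ) / 2) from rfl, pd_b]
      ring
    rw [e, abs_neg, abs_mul, abs_mul, abs_of_pos h2]
    have h5 := mul_le_mul h1 h3 (abs_nonneg _) (le_trans (abs_nonneg _) h1)
    rw [mul_assoc] at h5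
    have h6 := mul_le_mul (show -((2 - n : ℝ) / 2 - 1) ≤ n by linarith) h4 (by positivity)
      (by positivity)
    rw [mul_assoc]
    exact mul_le_mul (by linarith) (h5.trans h6) (by positivity) (by positivity)

theorem grad (hn : 3 ≤ n) (x : E n) : ‖fderiv ℝ (src n) x‖ ≤ n + 2 := by
  have h2 := nm2_pos hn
  refine abs_le_of_sq_le_sq' ?_ (by positivity) |>.2
  rw [show src n = fun y : E n => (1 + ‖y‖ ^ 2) ^ (-(n + 2 : ℝ) / 2) from rfl,
    norm_fderiv_sq ((sm _).diff x)]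
  simp only [pd_b, mul_pow, ← Finset.mul_sum, ← norm_sq_eq]
  have h0 : 0 < 1 + ‖x‖ ^ 2 := by positivity
  have h1 : (1 + ‖x‖ ^ 2) ^ (-(n + 2 : ℝ) / 2 - 1) ≤ (1 + ‖x‖ ^ 2)⁻¹ := by
    rw [← Real.rpow_neg_one]
    exact Real.rpow_le_rpow_of_exponent_le (by nlinarith) (by linarith)
  have h3 : (1 + ‖x‖ ^ 2)⁻¹ ^ 2 * ‖x‖ ^ 2 ≤ 1 := by
    rw [inv_pow, inv_mul_le_iff₀ (by positivity)]
    nlinarith [sq_nonneg (‖x‖ ^ 2), sq_nonneg ‖x‖]
  have h4 := (mul_le_mul_of_nonneg_right (pow_le_pow_left₀ (by positivity) h1 2)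
    (sq_nonneg ‖x‖)).trans h3
  calc _ = (n + 2 : ℝ) ^ 2 * (((1 + ‖x‖ ^ 2) ^ (-(n + 2 : ℝ) / 2 - 1)) ^ 2 * ‖x‖ ^ 2) := by ring
    _ ≤ _ := mul_le_of_le_one_right (by positivity) h4

end Mc0

open Mc0

theorem mc0 : MC0 := by
  intro n g U F x hg hU h0 hF h
  have e : nuF g U F = fun i y => U y ^ (2 * gam n) / gn g F y * gr g F i y :=
    funext fun i => funext fun y => (div_mul_eq_mul_div _ _ _).symm
  have d1 := (hU.rpow h0 (2 * gam n)).diff x
  have e2 : ∑ k, (∑ i, hess g F x k i * gr g F i x) * gr g F k x = gn g F x ^ 2 *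
      ∑ i, ∑ j, hess g F x i j * (gr g F i x / gn g F x) * (gr g F j x / gn g F x) := by
    simp only [Finset.mul_sum, Finset.sum_mul]
    exact Finset.sum_congr rfl fun i _ => Finset.sum_congr rfl fun j _ => by field_simp
  have e3 : ∀ k, pd k (fun y => U y ^ (2 * gam n) / gn g F y) x * gr g F k x =
      2 * gam n * U x ^ (2 * gam n - 1) / gn g F x * (pd k U x * gr g F k x) -
        U x ^ (2 * gam n) / gn g F x ^ 3 * ((∑ i, hess g F x k i * gr g F i x) * gr g F k x) :=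
    fun k => by
      rw [pd_div d1 (diff_gn hg hF h) h, pd_rpow (hU.diff x) (h0 x).ne', pd_gn hg hF h]
      field_simp
  have d2 : DifferentiableAt ℝ (fun y => U y ^ (2 * gam n) / gn g F y) x := by
    simp only [div_eq_mul_inv]
    exact d1.fun_mul ((diff_gn hg hF h).fun_inv h)
  rw [e, hg.dv_smul d2 fun i => (hg.sm_gr hF i).diff x,
    show dv g (gr g F) x = _ from hg.lap_eq_tr (hF.c2 x), mc_eq, ip_eq_gr]
  simp only [e3, Finset.sum_sub_distrib, ← Finset.mul_sum, e2]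
  field_simp
  ring

theorem coll : COLL := by
  rintro n g U F hg hU h0 hF ⟨R, hR⟩ h
  have hc : ContinuousOn (dv g (nuF g U F)) {x | gn g F x ≠ 0} := by
    have c0 := (cont_gn hg hF).continuousOn (s := {x | gn g F x ≠ 0})
    have c1 : ∀ i, ContinuousOn (fun x => gr g F i x / gn g F x) {x | gn g F x ≠ 0} := fun i =>
      (hg.sm_gr hF i).cont.continuousOn.div c0 fun _ hx => hx
    have c2 : Continuous (tr g (hess g F)) := continuous_finsetSum _ fun i _ =>
      continuous_finsetSum _ fun j _ => (hg.sm_up i j).cont.mul (hg.sm_hess hF i j).cont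
    have c3 : ContinuousOn (mc g F) {x | gn g F x ≠ 0} :=
      (c2.continuousOn.sub (continuousOn_finsetSum _ fun i _ => continuousOn_finsetSum _ fun j _ =>
        ((hg.sm_hess hF i j).cont.continuousOn.mul (c1 i)).mul (c1 j))).div c0 fun _ hx => hx
    exact (((hU.rpow h0 _).cont.continuousOn.mul c3).add
      ((((continuous_const.mul (hU.rpow h0 _).cont).mul (hg.sm_ip hU hF).cont).continuousOn).div c0
        fun _ hx => hx)).congr fun x hx => mc0 n g U F x hg hU h0 hF hx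
  have hK : IsCompact {x | |F x| ≤ 1 / 2} := (isCompact_closedBall (0 : E n) R).of_isClosed_subset
    (isClosed_le hF.cont.abs continuous_const) fun x hx => mem_closedBall_zero_iff.2
      (not_lt.1 fun k => by linarith [hR x k.le, (abs_le.1 (show |F x| ≤ 1 / 2 from hx)).2])
  have hS : IsCompact {x | F x = 0} := hK.of_isClosed_subset (isClosed_eq hF.cont continuous_const)
    fun x hx => by simp [show F x = 0 from hx]
  obtain ⟨a, a0, ha⟩ := hS.exists_forall_le' (f := fun x => -dv g (nuF g U F) x) (a := 0)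
    (hc.mono fun x hx => (h x hx).1).neg fun x hx => neg_pos.2 (h x hx).2
  have hW : IsOpen ({x | gn g F x ≠ 0} ∩ dv g (nuF g U F) ⁻¹' Iio (-(a / 2))) :=
    hc.isOpen_inter_preimage (isOpen_ne_fun (cont_gn hg hF) continuous_const) isOpen_Iio
  obtain ⟨s, s0, hs⟩ := (hK.diff hW).exists_forall_le' (f := fun x => |F x|) (a := 0)
    hF.cont.abs.continuousOn fun x hx => abs_pos.2 fun k =>
      hx.2 ⟨(h x k).1, show _ < -(a / 2) by linarith [ha x k]⟩
  refine ⟨min (s / 2) (1 / 2), by positivity, a / 2, by positivity, fun x hx => ?_⟩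
  by_contra k
  have := hs x ⟨hx.trans (min_le_right _ _), fun k' => k ⟨k'.1, le_of_lt k'.2⟩⟩
  linarith [hx.trans (min_le_left _ _)]

theorem bub1 : BUB := by
  intro n hn
  have h2 := nm2_pos hn
  refine ⟨sm _, sm _, asy hn, fun x => ?_, ⟨_, grad hn⟩, fun b β R hR hb => ?_⟩
  · have h0 : 1 ≤ 1 + ‖x‖ ^ 2 := by nlinarith
    refine ⟨Real.rpow_pos_of_pos (by positivity) _,
      Real.rpow_le_one_of_one_le_of_nonpos h0 (by linarith), Real.rpow_pos_of_pos (by positivity) _,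
      Real.rpow_le_one_of_one_le_of_nonpos h0 (by linarith), ?_, fun hx => ?_⟩
    · refine (lap_b _ x).trans ?_
      rw [src, show (2 - n : ℝ) / 2 - 2 = -(n + 2) / 2 by ring]
      ring
    · rw [show (-(n + 2) : ℝ) = 2 * (-(n + 2) / 2) by ring, ← sq_rpow (norm_nonneg x)]
      exact Real.rpow_le_rpow_of_nonpos (by positivity) (by linarith) (by linarith)
  · have e : ∀ x : E n, R < ‖x‖ → b =ᶠ[𝓝 x] fun y => β * ‖y‖ ^ (2 - n : ℝ) := fun x hx => by
      filter_upwards [(isOpen_lt continuous_const continuous_norm).mem_nhds hx] with y hy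
      exact hb y (le_of_lt hy)
    have n0 : ∀ x : E n, R < ‖x‖ → x ≠ 0 := fun x hx => norm_pos_iff.1 (hR.trans hx)
    refine ⟨⟨0, R + 1, fun x hx => ⟨?_, fun i => ?_⟩⟩, fun x hx => ?_⟩
    · rw [hb x (by linarith)]
      simp
    · rw [pd_congr (e x (by linarith)), pd_const_mul, pd_norm_rpow (n0 x (by linarith)),
        show (2 - n : ℝ) - 2 = -n by ring, zero_mul, abs_nonpos_iff]
      ring
    · rw [lap_congr (e x hx), lap_const_mul, lap_eu_rpow (n0 x hx)]
      ring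

end Vale.Agent.P366Z.St0
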