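import Vale.Agent.P366Z.St0.Sk

/-!
# P366Z, block STEP0: the radial barrier
-/

open MeasureTheory Metric Filter Topology Set
open scoped ContDiff
open Vale.Agent.P366.Stmt

noncomputable section

namespace Vale.Agent.P366Z.St0

namespace BarA

theorem anti {f f' : ℝ → ℝ} {a b : ℝ} (hab : a ≤ b)
    (h : ∀ t ∈ Icc a b, HasDerivAt f (f' t) t ∧ f' t ≤ 0) : f b ≤ f a :=
  antitoneOn_of_deriv_nonpos (convex_Icc a b)
    (fun t ht => (h t ht).1.continuousAt.continuousWithinAt)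
    (fun t ht => (h t (interior_subset ht)).1.differentiableAt.differentiableWithinAt)
    (fun t ht => (h t (interior_subset ht)).1.deriv.trans_le (h t (interior_subset ht)).2)
    (left_mem_Icc.2 hab) (right_mem_Icc.2 hab) hab

theorem cst {f f' : ℝ → ℝ} {a b : ℝ} (hab : a ≤ b)
    (h : ∀ t ∈ Icc a b, HasDerivAt f (f' t) t ∧ f' t = 0) : f b = f a :=
  le_antisymm (anti hab fun t ht => ⟨(h t ht).1, (h t ht).2.le⟩) (neg_le_neg_iff.1
    (anti (f := fun t => -f t) hab fun t ht => ⟨(h t ht).1.neg, (neg_eq_zero.2 (h t ht).2).le⟩))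

theorem sq_rpow {r : ℝ} (hr : 0 ≤ r) (a : ℝ) : (r ^ 2) ^ a = r ^ (2 * a) := by
  rw [Real.rpow_mul hr, Real.rpow_two]

/-- the profile -/
structure Pr (N p W s T₀ T : ℝ) (Φ μ μ' : ℝ → ℝ) : Prop where
  sm : ContDiff ℝ ∞ Φ
  d1 : ∀ t, HasDerivAt Φ (-(μ t * t ^ (-N))) t
  d2 : ∀ t, 0 < t → deriv (deriv Φ) t = -(μ' t * t ^ (-N)) + N * μ t * (t ^ (-N) / t)
  zero : ∀ t ≤ s, μ t = 0
  bd : ∀ t, 0 ≤ μ t ∧ μ t ≤ 1
  mono : ∀ t, s ≤ t → 0 ≤ μ' t
  str : ∀ t, s ≤ t → t ≤ T₀ → μ t * (p / 2 * W * t ^ (-p)) ≤ t * μ' t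
  half : ∀ t, 4 * s ≤ t → 1 / 2 ≤ μ t
  le : ∀ t, 0 < t → Φ t ≤ (N - 1)⁻¹ * t ^ (1 - N)
  out : ∀ t, T ≤ t → Φ t = (N - 1)⁻¹ * t ^ (1 - N)

theorem ex_pr {N p W s T₀ T : ℝ} (hN : 1 < N) (hp : 0 < p) (hs : 0 < s) (hW : 0 ≤ W)
    (hw : W * s ^ (-p) ≤ 1) (h1 : 4 * s ≤ T) (h2 : T₀ < T) : ∃ Φ μ μ', Pr N p W s T₀ T Φ μ μ' := by
  let σ : ℝ → ℝ := fun t => Real.smoothTransition ((t / s - 1) / 3)
  let χ : ℝ → ℝ := fun t => Real.smoothTransition ((T - t) / (T - T₀))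
  have s1 : ContDiff ℝ ∞ σ := Real.smoothTransition.contDiff.comp (by fun_prop)
  have c1 : ContDiff ℝ ∞ χ := Real.smoothTransition.contDiff.comp (by fun_prop)
  have s2 : ∀ t, 0 ≤ deriv σ t := fun t => Monotone.deriv_nonneg fun a b h =>
    Real.smoothTransition.monotone (by gcongr)
  have c2 : ∀ t, deriv χ t ≤ 0 := fun t => Antitone.deriv_nonpos fun a b h =>
    Real.smoothTransition.monotone (div_le_div_of_nonneg_right (by linarith) (by linarith))
  have s3 : ∀ t ≤ s, σ t = 0 := fun t h => Real.smoothTransition.zero_of_nonpos (by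
    have := (div_le_one hs).2 h
    linarith)
  have s4 : ∀ t, 4 * s ≤ t → σ t = 1 := fun t h => Real.smoothTransition.one_of_one_le (by
    have := (le_div_iff₀ hs).2 h
    linarith)
  have c3 : ∀ t ≤ T₀, χ t = 1 := fun t h => Real.smoothTransition.one_of_one_le
    ((one_le_div (by linarith)).2 (by linarith))
  have c4 : ∀ t, T ≤ t → χ t = 0 := fun t h => Real.smoothTransition.zero_of_nonpos
    (div_nonpos_of_nonpos_of_nonneg (by linarith) (by linarith))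
  have s5 : ∀ t, 0 ≤ σ t ∧ σ t ≤ 1 := fun t =>
    ⟨Real.smoothTransition.nonneg _, Real.smoothTransition.le_one _⟩
  have c5 : ∀ t, 0 ≤ χ t ∧ χ t ≤ 1 := fun t =>
    ⟨Real.smoothTransition.nonneg _, Real.smoothTransition.le_one _⟩
  let ν : ℝ → ℝ := fun t => 1 - W / 2 * (t ^ (-p) * χ t)
  have n1 : ∀ t, s ≤ t → 1 / 2 ≤ ν t ∧ ν t ≤ 1 := fun t h => by
    have a1 : W * t ^ (-p) ≤ 1 := (mul_le_mul_of_nonneg_left
      (Real.rpow_le_rpow_of_nonpos hs h (by linarith)) hW).trans hw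
    have a2 : 0 ≤ W * t ^ (-p) := mul_nonneg hW (Real.rpow_nonneg (hs.le.trans h) _)
    have a3 := mul_le_mul a1 (c5 t).2 (c5 t).1 zero_le_one
    have a4 := mul_nonneg a2 (c5 t).1
    constructor <;> simp only [ν] <;> linarith
  let μ : ℝ → ℝ := fun t => σ t * ν t
  let μ' : ℝ → ℝ := fun t => deriv σ t * ν t +
    σ t * -(W / 2 * (-p * t ^ (-p - 1) * χ t + t ^ (-p) * deriv χ t))
  have m1 : ∀ t, 0 < t → HasDerivAt μ (μ' t) t := fun t h =>
    (s1.differentiable (by simp) t).hasDerivAt.mul ((((Real.hasDerivAt_rpow_const (.inl h.ne')).mul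
      (c1.differentiable (by simp) t).hasDerivAt).const_mul _).const_sub 1)
  have m0 : ∀ t ≤ s, μ t = 0 := fun t h => by simp only [μ, s3 t h, zero_mul]
  have m2 : ∀ t, 0 ≤ μ t ∧ μ t ≤ 1 := fun t => (le_total t s).elim
    (fun h => by simp [m0 t h]) fun h => ⟨mul_nonneg (s5 t).1 (by linarith [(n1 t h).1]),
      mul_le_one₀ (s5 t).2 (by linarith [(n1 t h).1]) (n1 t h).2⟩
  have m3 : ∀ t, s ≤ t → σ t * (p / 2 * W * t ^ (-p)) * χ t ≤ t * μ' t := fun t h => by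
    have t0 := hs.trans_le h
    have a1 := mul_nonneg t0.le (mul_nonneg (s2 t) (by linarith [(n1 t h).1] : 0 ≤ ν t))
    have a2 := mul_nonneg t0.le (mul_nonneg (s5 t).1 (mul_nonneg hW
      (mul_nonneg (Real.rpow_nonneg t0.le (-p)) (neg_nonneg.2 (c2 t)))))
    have a3 : t * μ' t = t * (deriv σ t * ν t) + σ t * (p / 2 * W * t ^ (-p)) * χ t +
        t * (σ t * (W * (t ^ (-p) * -deriv χ t))) / 2 := by
      simp only [μ', Real.rpow_sub_one t0.ne']
      field_simp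
      ring
    linarith
  let ψ : ℝ → ℝ := fun t => μ t * t ^ (-N)
  have p1 : ContDiff ℝ ∞ ψ := contDiff_iff_contDiffAt.2 fun t => by
    rcases lt_or_ge t s with h | h
    · refine (contDiffAt_const (c := 0)).congr_of_eventuallyEq ?_
      filter_upwards [Iio_mem_nhds h] with u hu
      simp only [ψ, m0 u (le_of_lt hu), zero_mul]
    · have a := fun r => Real.contDiffAt_rpow_const_of_ne (p := r) (n := ∞) (hs.trans_le h).ne'
      exact (s1.contDiffAt.mul (contDiffAt_const.sub (contDiffAt_const.mul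
        ((a _).mul c1.contDiffAt)))).mul (a _)
  let Φ : ℝ → ℝ := fun t => (N - 1)⁻¹ * T ^ (1 - N) - ∫ u in T..t, ψ u
  have f1 : ∀ t, HasDerivAt Φ (-ψ t) t := fun t =>
    (p1.continuous.integral_hasStrictDerivAt T t).hasDerivAt.const_sub _
  have f2 : deriv Φ = fun t => -ψ t := funext fun t => (f1 t).deriv
  have T0 : 0 < T := by linarith
  have g1 : ∀ t, 0 < t → HasDerivAt (fun t => (N - 1)⁻¹ * t ^ (1 - N) - Φ t)
      ((μ t - 1) * t ^ (-N)) t := fun t h => by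
    refine (((Real.hasDerivAt_rpow_const (.inl h.ne')).const_mul _).sub (f1 t)).congr_deriv ?_
    have : N - 1 ≠ 0 := by linarith
    simp only [ψ, sub_sub_cancel_left]
    field_simp
    ring
  have g0 : (N - 1)⁻¹ * T ^ (1 - N) - Φ T = 0 := by simp [Φ]
  have o : ∀ t, T ≤ t → Φ t = (N - 1)⁻¹ * t ^ (1 - N) := fun t h => by
    have := cst h fun u hu => ⟨g1 u (T0.trans_le hu.1), by
      simp only [μ, ν, s4 u (h1.trans hu.1), c4 u hu.1]; ring⟩
    linarith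
  refine ⟨Φ, μ, μ', contDiff_infty_iff_deriv.2 ⟨fun t => (f1 t).differentiableAt, f2 ▸ p1.neg⟩, f1,
    fun t h => ?_, m0, m2, fun t h => ?_, fun t h h' => ?_, fun t h => ?_, fun t h => ?_, o⟩
  · rw [f2, ((m1 t h).fun_mul (Real.hasDerivAt_rpow_const (p := -N) (.inl h.ne'))).fun_neg.deriv,
      Real.rpow_sub_one h.ne']
    ring
  · refine nonneg_of_mul_nonneg_right (le_trans ?_ (m3 t h)) (hs.trans_le h)
    have := Real.rpow_nonneg (hs.le.trans h) (-p)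
    have := (s5 t).1
    have := (c5 t).1
    positivity
  · refine le_trans ?_ (m3 t h)
    rw [c3 t h', mul_one]
    have := Real.rpow_nonneg (hs.le.trans h) (-p)
    exact mul_le_mul_of_nonneg_right (mul_le_of_le_one_right (s5 t).1 (n1 t h).2) (by positivity)
  · simp only [μ, s4 t h, one_mul]
    exact (n1 t (by linarith)).1
  · rcases le_total T t with a | a
    · exact (o t a).le
    · have := anti a fun u hu => ⟨g1 u (h.trans_le hu.1), mul_nonpos_of_nonpos_of_nonneg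
        (sub_nonpos.2 (m2 u).2) (Real.rpow_nonneg (h.le.trans hu.1) _)⟩
      linarith

variable {n : ℕ} {g : Field n} {x : E n}

theorem est (hg : Met g) {a a₁ : ℝ} (h1 : ∀ i j, |up g i j x - eu n x i j| ≤ a)
    (h2 : ∀ j, |bv g j x| ≤ a₁) :
    2 * n - 2 * n * (a + a₁ * ‖x‖) ≤ lap g (fun y => ‖y‖ ^ 2) x ∧
      |ip g (fun y => ‖y‖ ^ 2) (fun y => ‖y‖ ^ 2) x - 4 * ‖x‖ ^ 2| ≤ 4 * ‖x‖ ^ 2 * (n ^ 2 * a) := by
  have c : ∀ i, |x i| ≤ ‖x‖ := fun i => PiLp.norm_apply_le x i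
  have e : ∀ j, (pd j fun y : E n => ‖y‖ ^ 2) = fun y => 2 * y j := fun j => funext (pd_normSq j)
  constructor
  · rw [hg.lap_eq contDiff_normSq.contDiffAt, ← Finset.sum_add_distrib]
    refine le_trans (le_of_eq ?_) (Finset.sum_le_sum (f := fun _ => 2 - 2 * (a + a₁ * ‖x‖))
      fun i _ => ?_)
    · simp only [Finset.sum_const, Finset.card_fin, nsmul_eq_mul]
      ring
    · have k1 := (abs_le.1 (h1 i i)).1
      have k2 := (abs_le.1 ((abs_mul _ _).trans_le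
        (mul_le_mul (h2 i) (c i) (abs_nonneg _) ((abs_nonneg _).trans (h2 i))))).1
      simp only [e, pd_const_mul, pd_coord, mul_ite, mul_one, mul_zero, Finset.sum_ite_eq,
        Finset.mem_univ, if_true, eu] at k1 ⊢
      linarith
  · have k : ip g (fun y => ‖y‖ ^ 2) (fun y => ‖y‖ ^ 2) x - 4 * ‖x‖ ^ 2 =
        ∑ i, ∑ j, (up g i j x - eu n x i j) * (2 * x i) * (2 * x j) := by
      rw [← ip_eu_normSq x]
      simp only [ip, e, up_eu, eu, sub_mul, Finset.sum_sub_distrib]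
    rw [k]
    refine (Finset.abs_sum_le_sum_abs _ _).trans ((Finset.sum_le_sum fun i _ =>
      (Finset.abs_sum_le_sum_abs _ _).trans (Finset.sum_le_sum
        (g := fun _ => a * (2 * ‖x‖) * (2 * ‖x‖)) fun j _ => ?_)).trans_eq ?_)
    · have := (abs_nonneg _).trans (h1 i j)
      simp only [abs_mul, abs_two]
      gcongr
      exacts [h1 i j, c i, c j]
    · simp only [Finset.sum_const, Finset.card_fin, nsmul_eq_mul]
      ring

theorem alg {n μ μ' t τ L I ε : ℝ} (hn : 0 ≤ n) (h1 : 0 ≤ μ) (h2 : 0 ≤ μ') (ht : 0 < t) (hτ : 0 ≤ τ)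
    (hL : 2 * n - ε ≤ L) (hI : |I - 4 * t| ≤ 4 * t * ε) (hε : ε ≤ 1 / 2) :
    -(μ * τ) * L + (-(μ' * τ) + n / 2 * μ * (τ / t)) * I ≤ τ * (μ * (ε * (1 + 2 * n)) - 2 * (t * μ')) := by
  obtain ⟨J, rfl⟩ : ∃ J, I = t * J := ⟨I / t, by field_simp⟩
  obtain ⟨a, b⟩ := abs_le.1 hI
  have j1 : 2 ≤ J := le_of_mul_le_mul_left (by nlinarith) ht
  have j2 : J ≤ 4 + 4 * ε := le_of_mul_le_mul_left (by nlinarith) ht
  rw [show -(μ * τ) * L + (-(μ' * τ) + n / 2 * μ * (τ / t)) * (t * J) =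
    τ * (-(μ * L) - t * μ' * J + n / 2 * μ * J) by field_simp; ring]
  refine mul_le_mul_of_nonneg_left ?_ hτ
  nlinarith [mul_nonneg h1 (sub_nonneg.2 hL), mul_nonneg (mul_nonneg ht.le h2) (sub_nonneg.2 j1),
    mul_nonneg (mul_nonneg hn h1) (sub_nonneg.2 j2)]

end BarA

open BarA

theorem bar_of (hM : MAT) (hS : SCL) : BAR := by
  intro n q C hn hq hC
  obtain ⟨e, e0, K, K0, hK⟩ := hM n
  obtain ⟨e', e0', K', K0', hK'⟩ := hS n
  have n3 : (3 : ℝ) ≤ n := by exact_mod_cast hn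
  obtain ⟨A, hA⟩ : ∃ A, A = (2 * n * (K + K') + n ^ 2 * K) * C := ⟨_, rfl⟩
  have A0 : 0 < A := by rw [hA]; positivity
  obtain ⟨S₀, hS₀⟩ := eventually_atTop.1 (((tendsto_rpow_atTop hq).eventually_ge_atTop
    (C / e + C / e' + 2 * A + A * (1 + 2 * n) / (q / 8))).and (eventually_ge_atTop 1))
  have N1 : 1 < (n : ℝ) / 2 := by linarith
  have β0 : 0 < ((n : ℝ) / 2 - 1)⁻¹ := inv_pos.2 (by linarith)
  have two : (1 : ℝ) ≤ 2 ^ (n - 2 : ℝ) := Real.one_le_rpow one_le_two (by linarith)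
  refine ⟨q / 16 / 2 ^ q, by positivity, ((n : ℝ) / 2 - 1)⁻¹ * 2 ^ (n - 2 : ℝ), by positivity,
    2 * max S₀ 1, by positivity, fun g R₁ R ρ hg ha r1 r2 r3 hf => ?_⟩
  obtain ⟨S, rfl⟩ : ∃ S, R = 2 * S := ⟨R / 2, by ring⟩
  obtain ⟨s2, s1⟩ := hS₀ S (by linarith [le_max_left S₀ 1])
  have S0 : 0 < S := by linarith
  have W0 := Real.rpow_pos_of_pos S0 q
  have pw : ∀ r : ℝ, 0 ≤ r → (r ^ 2) ^ (-(q / 2)) = r ^ (-q) ∧ (r ^ 2) ^ (-(n / 2 : ℝ)) = r ^ (-n : ℝ) ∧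
      (r ^ 2) ^ (1 - n / 2 : ℝ) = r ^ (2 - n : ℝ) := fun r h => by
    simp only [sq_rpow h]
    refine ⟨?_, ?_, ?_⟩ <;> refine congrArg _ ?_ <;> ring
  have w1 : ∀ r, S ≤ r → S ^ q * r ^ (-q) ≤ 1 := fun r h =>
    (mul_le_mul_of_nonneg_left (Real.rpow_le_rpow_of_nonpos S0 h (by linarith)) W0.le).trans_eq
      (by rw [Real.rpow_neg S0.le, mul_inv_cancel₀ W0.ne'])
  obtain ⟨Φ, μ, μ', P⟩ := ex_pr (W := S ^ q) (s := S ^ 2) (T₀ := (2 * ρ) ^ 2) (T := (3 * ρ) ^ 2) N1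
    (half_pos hq) (by positivity) W0.le ((pw S S0.le).1 ▸ w1 S le_rfl) (by nlinarith) (by nlinarith)
  have ps : ∀ t, 0 ≤ μ t * t ^ (-(n / 2 : ℝ)) := fun t => (le_total t (S ^ 2)).elim
    (fun h => by rw [P.zero t h, zero_mul]) fun h =>
      mul_nonneg (P.bd t).1 (Real.rpow_nonneg ((sq_nonneg S).trans h) _)
  have an : ∀ a b, a ≤ b → Φ b ≤ Φ a := fun a b h =>
    anti h fun t _ => ⟨P.d1 t, neg_nonpos.2 (ps t)⟩
  have inn : ∀ t, 0 ≤ t → t ≤ S ^ 2 → Φ t = Φ 0 := fun t h h' =>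
    cst h fun u hu => ⟨P.d1 u, by rw [P.zero u (hu.2.trans h'), zero_mul, neg_zero]⟩
  have pos : ∀ t, 0 < Φ t := fun t => by
    have k : 0 < max t ((3 * ρ) ^ 2) := lt_max_of_lt_right (by nlinarith)
    refine lt_of_lt_of_le ?_ (an t _ (le_max_left t ((3 * ρ) ^ 2)))
    rw [P.out _ (le_max_right _ _)]
    positivity
  have b0 : Φ (‖(0 : E n)‖ ^ 2) = Φ 0 := by simp
  have key : ∀ x : E n, S ≤ ‖x‖ → ‖x‖ ≤ 2 * ρ → lap g (fun y => Φ (‖y‖ ^ 2)) x ≤
      -(μ (‖x‖ ^ 2) * (q / 8 * S ^ q * (‖x‖ ^ (-q) * ‖x‖ ^ (-n : ℝ)))) := fun x h h' => by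
    have x0 := S0.trans_le h
    have y0 := Real.rpow_pos_of_pos x0 (-q)
    have z0 := Real.rpow_pos_of_pos x0 (-n : ℝ)
    have af := ha x (by linarith)
    have sm : ∀ B, B ≤ S ^ q → B * ‖x‖ ^ (-q) ≤ 1 := fun B k =>
      (mul_le_mul_of_nonneg_right k y0.le).trans (w1 _ h)
    have d : ∀ c, 0 < c → C / c ≤ S ^ q → C * ‖x‖ ^ (-q) ≤ c := fun c c0 k => by
      have := sm _ k
      rwa [div_mul_eq_mul_div, div_le_one c0] at this
    have q1 : 0 ≤ C / e := by positivity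
    have q2 : 0 ≤ C / e' := by positivity
    have q3 : 0 ≤ A * (1 + 2 * n) / (q / 8) := by positivity
    obtain ⟨l1, l2⟩ := est hg (hK g x _ hg (by positivity) (d e e0 (by linarith))
      fun i j => (af i j i i).1).1 (hK' g x _ _ _ hg (by positivity) (d e' e0' (by linarith))
        (by positivity) (by positivity) (fun i j => (af i j i i).1) (fun i j k => (af i j k k).2.1)
        fun i j k l => (af i j k l).2.2).2.2
    have e1 : K' * (C * ‖x‖ ^ (-(q + 1))) * ‖x‖ = K' * (C * ‖x‖ ^ (-q)) := by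
      rw [neg_add', Real.rpow_sub_one x0.ne']
      field_simp
    rw [e1] at l1
    have u1 : 0 ≤ n ^ 2 * (K * (C * ‖x‖ ^ (-q))) := by positivity
    have u2 : 0 ≤ 2 * n * (K * (C * ‖x‖ ^ (-q)) + K' * (C * ‖x‖ ^ (-q))) := by positivity
    have u3 : A * ‖x‖ ^ (-q) = 2 * n * (K * (C * ‖x‖ ^ (-q)) + K' * (C * ‖x‖ ^ (-q))) +
        n ^ 2 * (K * (C * ‖x‖ ^ (-q))) := by rw [hA]; ring
    have t1 : S ^ 2 ≤ ‖x‖ ^ 2 := by gcongr
    have u4 := P.str _ t1 (by gcongr)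
    have u5 : A * (1 + 2 * n) ≤ S ^ q * (q / 8) := (div_le_iff₀ (by positivity)).1 (by linarith)
    have u6 := mul_le_mul_of_nonneg_left (mul_le_mul_of_nonneg_right u5 y0.le) (P.bd (‖x‖ ^ 2)).1
    have u7 : 0 ≤ μ (‖x‖ ^ 2) * (q * S ^ q * ‖x‖ ^ (-q)) := mul_nonneg (P.bd _).1 (by positivity)
    rw [hg.lap_comp contDiff_normSq.contDiffAt (P.sm.contDiffAt.of_le (by norm_cast)),
      (P.d1 _).deriv, P.d2 _ (by positivity), (pw _ x0.le).2.1]
    rw [(pw _ x0.le).1] at u4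
    refine (alg (ε := A * ‖x‖ ^ (-q)) (by positivity) (P.bd _).1 (P.mono _ t1) (by positivity) z0.le
      (by linarith) (l2.trans (mul_le_mul_of_nonneg_left (by linarith) (by positivity)))
      (by linarith [sm (2 * A) (by linarith)])).trans ?_
    refine (mul_le_mul_of_nonneg_left (c := -(μ (‖x‖ ^ 2) * (q / 8 * S ^ q * ‖x‖ ^ (-q))))
      (by linarith) z0.le).trans_eq ?_
    ring
  refine ⟨fun y => Φ (‖y‖ ^ 2), ((n : ℝ) / 2 - 1)⁻¹, P.sm.comp contDiff_normSq, fun x h => ?_,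
    fun x => ⟨(pos _).le, an _ _ (by simp)⟩, pos _, ?_, fun x h => ?_, fun x => ?_,
    fun x h h' => ?_, fun x h => ?_, β0.le, le_mul_of_one_le_right β0.le two, ?_⟩
  · rw [b0]
    exact inn _ (sq_nonneg _) (by gcongr; linarith)
  · rw [b0, ← inn _ (sq_nonneg S) le_rfl, Real.mul_rpow zero_le_two S0.le, mul_assoc,
      ← mul_assoc (2 ^ _), ← Real.rpow_add two_pos, sub_add_sub_cancel, sub_self, Real.rpow_zero,
      one_mul, ← (pw S S0.le).2.2]
    exact P.le _ (by positivity)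
  · have x0 : 0 < ‖x‖ := by linarith
    refine (P.le _ (by positivity)).trans ?_
    rw [(pw _ x0.le).2.2]
    exact mul_le_mul_of_nonneg_right (le_mul_of_one_le_right β0.le two) (by positivity)
  · rcases lt_or_ge ‖x‖ S with h | h
    · rw [lap_congr (v := fun _ => Φ 0), lap_const]
      filter_upwards [(isOpen_lt continuous_norm continuous_const).mem_nhds h] with y hy
      exact inn _ (sq_nonneg _) (by gcongr)
    have x0 := S0.trans_le h
    rcases le_or_gt ‖x‖ (2 * ρ) with h' | h'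
    · exact (key x h h').trans (neg_nonpos.2 (mul_nonneg (P.bd _).1 (by positivity)))
    · rw [hf.lap_eq h', lap_eu_sq (P.sm.contDiffAt.of_le (by norm_cast)), (P.d1 _).deriv,
        P.d2 _ (by positivity)]
      have k := mul_nonneg (mul_nonneg (sq_nonneg ‖x‖) (P.mono (‖x‖ ^ 2) (by gcongr)))
        (Real.rpow_nonneg (sq_nonneg ‖x‖) (-(n / 2 : ℝ)))
      refine le_of_eq_of_le ?_ (neg_nonpos.2 (mul_nonneg zero_le_four k))
      field_simp
      ring
  · have x0 : 0 < ‖x‖ := by linarith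
    refine (key x (by linarith) h').trans (neg_le_neg ?_)
    have k := P.half (‖x‖ ^ 2) (by nlinarith)
    rw [← Real.rpow_add x0, Real.mul_rpow zero_le_two S0.le, show -q + -(n : ℝ) = -(n + q) by ring]
    refine le_of_eq_of_le ?_ (mul_le_mul_of_nonneg_right k (by positivity))
    field_simp
    norm_num
  · have : 0 < ‖x‖ := by linarith
    rw [P.out _ (by gcongr; linarith), (pw _ this.le).2.2]
  · refine (lip_of_fderiv (u := Φ ∘ fun y : E n => ‖y‖ ^ 2)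
      (Smooth.diff (P.sm.comp contDiff_normSq)) (K := 2) fun x => ?_).le.elim fun L hL =>
        ⟨L + Φ 0, fun x => ?_, fun x y => (hL.2 x y).trans (by gcongr; linarith [pos 0])⟩
    swap
    · rw [Real.norm_of_nonneg (pos _).le]
      linarith [an 0 _ (sq_nonneg ‖x‖), hL.1]
    · rw [((P.d1 _).comp_hasFDerivAt x (hasStrictFDerivAt_norm_sq x).hasFDerivAt).fderiv,
        norm_smul, norm_neg, Real.norm_of_nonneg (ps _), two_smul]
      have k : ‖innerSL ℝ x + innerSL ℝ x‖ ≤ 2 * ‖x‖ := (norm_add_le _ _).trans_eq (by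
        rw [innerSL_apply_norm]; ring)
      refine (mul_le_mul_of_nonneg_left k (ps _)).trans ?_
      rcases le_total ‖x‖ S with h | h
      · rw [P.zero _ (by gcongr), zero_mul, zero_mul]
        exact zero_le_two
      · have x0 := S0.trans_le h
        have k1 : ‖x‖ ^ (-n : ℝ) * ‖x‖ ≤ 1 := by
          rw [← Real.rpow_add_one x0.ne']
          exact Real.rpow_le_one_of_one_le_of_nonpos (by linarith) (by linarith)
        have k2 := mul_le_mul (P.bd (‖x‖ ^ 2)).2 k1 (by positivity) zero_le_one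
        rw [(pw _ x0.le).2.1]
        linarith

end Vale.Agent.P366Z.St0
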