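import Vale.Agent.P366Z.St0.Sk

/-!
# P366Z, block STEP0: the bubble
-/

open MeasureTheory Metric Filter Topology Set
open scoped ContDiff ENNReal
open Vale.Agent.P366.Stmt

noncomputable section

namespace Vale.Agent.P366Z.St0

namespace Bub

variable {n : ℕ}

theorem mv {p t : ℝ} (hp : p ≤ 0) (ht : 0 < t) : |(1 + t) ^ p - t ^ p| ≤ -p * t ^ (p - 1) := by
  obtain ⟨c, hc, e⟩ := exists_hasDerivAt_eq_slope (fun s : ℝ => s ^ p) (fun s => p * s ^ (p - 1))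
    (show t < 1 + t by linarith)
    (fun s hs => (Real.continuousAt_rpow_const s p
      (Or.inl (by linarith [hs.1] : (0 : ℝ) < s).ne')).continuousWithinAt)
    (fun s hs => Real.hasDerivAt_rpow_const (Or.inl (by linarith [hs.1] : (0 : ℝ) < s).ne'))
  rw [add_sub_cancel_right, div_one] at e
  rw [← e, abs_mul, abs_of_nonpos hp, abs_of_pos (Real.rpow_pos_of_pos (by linarith [hc.1]) _)]
  exact mul_le_mul_of_nonneg_left (Real.rpow_le_rpow_of_nonpos ht hc.1.le (by linarith))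
    (by linarith)

theorem sq_rpow (x : E n) (p : ℝ) : (‖x‖ ^ 2) ^ p = ‖x‖ ^ (2 * p) := by
  rw [Real.rpow_mul (norm_nonneg _), Real.rpow_two]

theorem pos (x : E n) : 0 < 1 + ‖x‖ ^ 2 := by positivity

theorem sm (p : ℝ) : Smooth fun x : E n => (1 + ‖x‖ ^ 2) ^ p :=
  Smooth.rpow (f := fun x : E n => 1 + ‖x‖ ^ 2) (ContDiff.add contDiff_const contDiff_normSq) pos p

theorem pd_b (p : ℝ) (i : Fin n) (x : E n) :
    pd i (fun y : E n => (1 + ‖y‖ ^ 2) ^ p) x = p * (1 + ‖x‖ ^ 2) ^ (p - 1) * (2 * x i) := by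
  rw [pd_rpow (f := fun y : E n => 1 + ‖y‖ ^ 2)
    ((ContDiff.add contDiff_const (contDiff_normSq (m := 1))).differentiable one_ne_zero x)
    (pos x).ne', pd_const_add, pd_normSq]

theorem lap_b (p : ℝ) (x : E n) : lap (eu n) (fun y : E n => (1 + ‖y‖ ^ 2) ^ p) x =
    2 * n * (p * (1 + ‖x‖ ^ 2) ^ (p - 1)) +
      4 * ‖x‖ ^ 2 * (p * ((p - 1) * (1 + ‖x‖ ^ 2) ^ (p - 1 - 1))) := by
  have d : ∀ (a t : ℝ), 0 < 1 + t → HasDerivAt (fun s : ℝ => (1 + s) ^ a) (a * (1 + t) ^ (a - 1)) t :=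
    fun a t ht => by
      simpa using ((hasDerivAt_id t).const_add 1).rpow_const (p := a) (Or.inl ht.ne')
  have h1 : deriv (fun s : ℝ => (1 + s) ^ p) =ᶠ[𝓝 (‖x‖ ^ 2)] fun s => p * (1 + s) ^ (p - 1) := by
    filter_upwards [(isOpen_lt continuous_const (continuous_const.add continuous_id)).mem_nhds
      (pos x)] with s hs
    exact (d p s hs).deriv
  rw [lap_eu_sq (φ := fun s => (1 + s) ^ p)
    ((contDiffAt_const.add contDiffAt_id).rpow_const_of_ne (pos x).ne'), h1.deriv_eq,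
    h1.eq_of_nhds, ((d (p - 1) _ (pos x)).const_mul p).deriv]

theorem coord (x : E n) (i : Fin n) : |x i| ≤ ‖x‖ := by
  simpa using PiLp.norm_apply_le x i

theorem asy (hn : 3 ≤ n) : Asy (bub n) 0 1 := by
  have n3 : (3 : ℝ) ≤ n := by exact_mod_cast hn
  refine ⟨n * n, 1, fun x hx => ⟨?_, fun i => ?_⟩⟩
  · have x0 : 0 < ‖x‖ := by linarith
    have h := mv (p := (2 - n : ℝ) / 2) (by linarith) (pow_pos x0 2)
    rw [sq_rpow, sq_rpow, show 2 * ((2 - n : ℝ) / 2) = 2 - n by ring] at h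
    rw [sub_zero, one_mul]
    exact h.trans (mul_le_mul (by nlinarith)
      (Real.rpow_le_rpow_of_exponent_le hx (by linarith)) (by positivity) (by positivity))
  · have x0 : 0 < ‖x‖ := by linarith
    have h := mv (p := (2 - n : ℝ) / 2 - 1) (by linarith) (pow_pos x0 2)
    rw [sq_rpow, sq_rpow, show 2 * ((2 - n : ℝ) / 2 - 1) = -n by ring] at h
    have e : pd i (bub n) x + (n - 2) * 1 * x i * ‖x‖ ^ (-n : ℝ) =
        -((n - 2) * x i * ((1 + ‖x‖ ^ 2) ^ ((2 - n : ℝ) / 2 - 1) - ‖x‖ ^ (-n : ℝ))) := by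
      unfold bub
      rw [pd_b]; ring
    have k : ‖x‖ * ‖x‖ ^ (2 * ((2 - n : ℝ) / 2 - 1 - 1)) ≤ ‖x‖ ^ (-n : ℝ) := by
      rw [mul_comm, ← Real.rpow_add_one x0.ne']
      exact Real.rpow_le_rpow_of_exponent_le hx (by linarith)
    rw [e, abs_neg, abs_mul, abs_mul, abs_of_nonneg (by linarith : (0 : ℝ) ≤ n - 2)]
    calc _ ≤ (n - 2) * ‖x‖ * (-((2 - n : ℝ) / 2 - 1) * ‖x‖ ^ (2 * ((2 - n : ℝ) / 2 - 1 - 1))) :=
          mul_le_mul (mul_le_mul_of_nonneg_left (coord x i) (by linarith)) h (abs_nonneg _)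
            (mul_nonneg (by linarith) x0.le)
      _ = (n - 2) * (n / 2) * (‖x‖ * ‖x‖ ^ (2 * ((2 - n : ℝ) / 2 - 1 - 1))) := by ring
      _ ≤ _ := mul_le_mul (by nlinarith) k (by positivity) (by positivity)

theorem grad {p : ℝ} (hp : p ≤ 0) (x : E n) :
    ‖fderiv ℝ (fun y : E n => (1 + ‖y‖ ^ 2) ^ p) x‖ ≤ -p := by
  have h := norm_fderiv_sq ((sm p).diff x)
  have e : ∑ i, pd i (fun y : E n => (1 + ‖y‖ ^ 2) ^ p) x ^ 2 =
      (-p * ((1 + ‖x‖ ^ 2) ^ (p - 1) * (2 * ‖x‖))) ^ 2 := by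
    simp only [pd_b, mul_pow, ← Finset.mul_sum, ← norm_sq_eq]
    ring
  have k0 : 0 ≤ (1 + ‖x‖ ^ 2) ^ (p - 1) := (Real.rpow_pos_of_pos (pos x) _).le
  have k : (1 + ‖x‖ ^ 2) ^ (p - 1) * (2 * ‖x‖) ≤ 1 :=
    (mul_le_mul_of_nonneg_left (by nlinarith [sq_nonneg (‖x‖ - 1)] : 2 * ‖x‖ ≤ 1 + ‖x‖ ^ 2)
      k0).trans (by
        rw [← Real.rpow_add_one (pos x).ne', sub_add_cancel]
        exact Real.rpow_le_one_of_one_le_of_nonpos (by linarith [sq_nonneg ‖x‖]) hp)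
  rw [e, sq_eq_sq₀ (norm_nonneg _) (mul_nonneg (by linarith) (by positivity))] at h
  rw [h]
  exact mul_le_of_le_one_right (by linarith) k

theorem out {b : E n → ℝ} {β R : ℝ} (h : ∀ x, R ≤ ‖x‖ → b x = β * ‖x‖ ^ (2 - n : ℝ)) {x : E n}
    (hx : R < ‖x‖) : b =ᶠ[𝓝 x] fun y => β * ‖y‖ ^ (2 - n : ℝ) := by
  filter_upwards [(isOpen_lt continuous_const continuous_norm).mem_nhds hx] with y hy
  exact h y (le_of_lt hy)

end Bub

open Bub in
theorem bub0 : BUB := by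
  intro n hn
  have n3 : (3 : ℝ) ≤ n := by exact_mod_cast hn
  refine ⟨sm _, sm _, asy hn, fun x => ⟨Real.rpow_pos_of_pos (pos x) _, ?_,
    Real.rpow_pos_of_pos (pos x) _, ?_, ?_, fun hx => ?_⟩, ⟨_, grad (by linarith)⟩,
    fun b β R hR h => ⟨⟨0, R + 1, fun x hx => ⟨?_, fun i => ?_⟩⟩, fun x hx => ?_⟩⟩
  · exact Real.rpow_le_one_of_one_le_of_nonpos (by linarith [sq_nonneg ‖x‖]) (by linarith)
  · exact Real.rpow_le_one_of_one_le_of_nonpos (by linarith [sq_nonneg ‖x‖]) (by linarith)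
  · unfold bub src
    have e : (1 + ‖x‖ ^ 2) ^ ((2 - n : ℝ) / 2 - 1) =
        (1 + ‖x‖ ^ 2) ^ (-(n + 2 : ℝ) / 2) * (1 + ‖x‖ ^ 2) := by
      rw [← Real.rpow_add_one (pos x).ne']; congr 1; ring
    rw [lap_b, e, show (2 - n : ℝ) / 2 - 1 - 1 = -(n + 2 : ℝ) / 2 by ring]
    ring
  · have := Real.rpow_le_rpow_of_nonpos (x := ‖x‖ ^ 2) (y := 1 + ‖x‖ ^ 2) (z := -(n + 2 : ℝ) / 2)
      (pow_pos (by linarith) 2) (by linarith) (by linarith)
    rwa [sq_rpow, show 2 * (-(n + 2 : ℝ) / 2) = -(n + 2) by ring] at this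
  · rw [h x (by linarith)]; simp
  · have x0 : x ≠ 0 := norm_pos_iff.1 (by linarith)
    rw [pd_congr (out h (by linarith)), pd_const_mul, pd_norm_rpow x0,
      show (2 - n : ℝ) - 2 = -n by ring, zero_mul]
    exact le_of_eq (abs_eq_zero.2 (by ring))
  · have x0 : x ≠ 0 := norm_pos_iff.1 (by linarith)
    rw [lap_congr (out h hx), lap_const_mul, lap_eu_rpow x0]
    ring

end Vale.Agent.P366Z.St0
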