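import Vale.Agent.P366Z.St0.Sk

/-!
# P366Z, block STEP0: almost capacitary potentials
-/

open MeasureTheory Metric Filter Topology Set
open scoped ContDiff ENNReal
open Vale.Agent.P366.Stmt

noncomputable section

namespace Vale.Agent.P366Z.St0

namespace Cap

variable {n : ℕ} {g : Field n} {F : E n → ℝ}

theorem wt1 (g : Field n) : Wt g fun _ => 1 :=
  ⟨contDiff_const, 1, one_pos, 1, fun x => by simp [lap_const]⟩

theorem ratio {K : Set (E n)} (hK : IsCompact K) {u w : E n → ℝ} (hu : Continuous u)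
    (hw : Continuous w) (h : ∀ x ∈ K, 0 < w x) : ∃ k > (0 : ℝ), ∀ x ∈ K, u x ≤ k * w x := by
  obtain ⟨C, hC⟩ := hK.exists_bound_of_continuousOn
    (hu.continuousOn.div hw.continuousOn fun x hx => (h x hx).ne')
  refine ⟨|C| + 1, by positivity, fun x hx => (div_le_iff₀ (h x hx)).1 ?_⟩
  have h1 : |u x / w x| ≤ C := hC x hx
  linarith [le_abs_self (u x / w x), le_abs_self C]

theorem cpt {R : ℝ} (hR : ∀ x, R ≤ ‖x‖ → 1 ≤ F x) {K : Set (E n)}
    (hK : IsClosed K) (h : ∀ x ∈ K, F x < 1) : IsCompact K :=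
  (isCompact_closedBall (0 : E n) R).of_isClosed_subset hK fun x hx =>
    mem_closedBall_zero_iff.2 (le_of_not_ge fun h1 => (h x hx).not_ge (hR x h1))

theorem collar (hg : Met g) (hF : IsExt F) {R : ℝ} (hR : ∀ x, R ≤ ‖x‖ → 1 ≤ F x) :
    ∃ s > (0 : ℝ), s < 1 ∧ ∃ k > (0 : ℝ), ∀ x, |F x| ≤ s → lap g F x ≤ k * ip g F F x := by
  have c1 := hF.1.cont
  have c2 := (hg.sm_ip hF.1 hF.1).cont
  obtain ⟨a, ha, h1⟩ := (cpt hR (K := {x | F x ≤ 1 / 2 ∧ ip g F F x ≤ 0})
    ((isClosed_le c1 continuous_const).inter (isClosed_le c2 continuous_const))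
    fun x hx => by linarith [hx.1]).exists_forall_le' (f := fun x => |F x|) (a := 0)
      c1.abs.continuousOn fun x hx => abs_pos.2 fun h0 => by
        obtain ⟨i, hi⟩ := hF.2.1 x h0
        exact (hg.up_pos x (ξ := fun i => pd i F x) fun e => hi (congrFun e i)).not_ge hx.2
  have h2 : min (a / 2) (1 / 2) ≤ 1 / 2 := min_le_right _ _
  have h3 : min (a / 2) (1 / 2) ≤ a / 2 := min_le_left _ _
  obtain ⟨k, hk, h4⟩ := ratio (cpt hR (K := {x | |F x| ≤ min (a / 2) (1 / 2)})
    (isClosed_le c1.abs continuous_const) fun x hx => by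
      linarith [(abs_le.1 (show |F x| ≤ _ from hx)).2]) (hg.sm_lap hF.1).cont c2 fun x hx => by
    by_contra hc
    have h5 : |F x| ≤ min (a / 2) (1 / 2) := hx
    have := h1 x ⟨by linarith [(abs_le.1 h5).2], not_lt.1 hc⟩
    linarith
  exact ⟨_, by positivity, by linarith, k, hk, h4⟩

theorem barrier (hg : Met g) (hF : IsExt F) {R : ℝ} (hR : ∀ x, R ≤ ‖x‖ → 1 ≤ F x) {e : ℝ}
    (he : 0 < e) : ∃ (W : E n → ℝ) (s σ Λ : ℝ), Smooth W ∧ 0 < s ∧ s < 1 ∧ 0 < σ ∧ 0 < Λ ∧
      (∀ x, 0 < W x) ∧ (∀ x, F x = s → 1 ≤ W x) ∧ (∀ x, F x = 0 → W x ≤ e) ∧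
      (∀ x, F x ≤ -σ → lap g W x ≤ Λ * W x) ∧ ∀ x, -σ < F x → F x < s → lap g W x ≤ 0 := by
  obtain ⟨s, s0, s1, k, k0, hk⟩ := collar hg hF hR
  have e1 : 0 < 1 - Real.exp (-k * s) := sub_pos.2 (Real.exp_lt_one_iff.2 (by nlinarith))
  set A := (1 - Real.exp (-k * s))⁻¹ with hA
  have A0 : 0 < A := inv_pos.2 e1
  set σ := min s (e / (3 * A * k)) with hσ
  have σ0 : 0 < σ := by positivity
  have σ1 : σ ≤ s := min_le_left _ _
  have σ2 : σ * (3 * A * k) ≤ e := (le_div_iff₀ (by positivity)).1 (min_le_right _ _)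
  let G : E n → ℝ := fun x => -k * F x + -(3 * k * σ)
  let P : E n → ℝ := fun x => -A * Real.exp (G x) + A
  let τ : E n → ℝ := fun x => Real.smoothTransition (F x / σ + 2)
  have sG : Smooth G := (contDiff_const.mul hF.1).add contDiff_const
  have sP : Smooth P := (contDiff_const.mul (ContDiff.exp sG)).add contDiff_const
  have sτ : Smooth τ :=
    Real.smoothTransition.contDiff.comp ((ContDiff.div_const hF.1 σ).add contDiff_const)
  have sW : Smooth fun x => τ x * P x + (1 - τ x) :=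
    (ContDiff.mul sτ sP).add (contDiff_const.sub sτ)
  have eq : ∀ x, -σ ≤ F x → τ x * P x + (1 - τ x) = P x := fun x hx => by
    have : τ x = 1 := Real.smoothTransition.one_of_one_le (by
      have : -1 ≤ F x / σ := (le_div_iff₀ σ0).2 (by linarith)
      linarith)
    rw [this]
    ring
  have pos : ∀ x, 0 < τ x * P x + (1 - τ x) := fun x => by
    by_cases hx : F x ≤ -2 * σ
    · have : τ x = 0 := Real.smoothTransition.zero_of_nonpos (by
        have : F x / σ ≤ -2 := (div_le_iff₀ σ0).2 hx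
        linarith)
      rw [this]
      norm_num
    · have h1 : Real.exp (G x) < 1 := Real.exp_lt_one_iff.2 (by
        show -k * F x + -(3 * k * σ) < 0
        nlinarith [not_le.1 hx])
      have h2 : 0 < P x := by
        show 0 < -A * Real.exp (G x) + A
        nlinarith
      have h3 : 0 ≤ τ x := Real.smoothTransition.nonneg _
      have h4 : τ x ≤ 1 := Real.smoothTransition.le_one _
      rcases h3.eq_or_lt with h5 | h5
      · rw [← h5]
        norm_num
      · nlinarith [mul_pos h5 h2]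
  obtain ⟨Λ, Λ0, hΛ⟩ := ratio (cpt hR (K := {x | F x ≤ -σ})
    (isClosed_le hF.1.cont continuous_const) fun x hx => by linarith [show F x ≤ -σ from hx])
    (hg.sm_lap sW).cont sW.cont fun x _ => pos x
  refine ⟨_, s, σ, Λ, sW, s0, s1, σ0, Λ0, pos, fun x hx => ?_, fun x hx => ?_, hΛ,
    fun x h1 h2 => ?_⟩
  · rw [eq x (by linarith)]
    have h1 : Real.exp (G x) ≤ Real.exp (-k * s) := Real.exp_le_exp.2 (by
      show -k * F x + -(3 * k * σ) ≤ _
      rw [hx]
      nlinarith)
    have h2 : A * (1 - Real.exp (-k * s)) = 1 := inv_mul_cancel₀ e1.ne'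
    show 1 ≤ -A * Real.exp (G x) + A
    nlinarith
  · rw [eq x (by linarith)]
    have h1 := Real.add_one_le_exp (G x)
    have h2 : G x = -(3 * k * σ) := by simp [G, hx]
    show -A * Real.exp (G x) + A ≤ e
    nlinarith
  · rw [lap_congr (v := P) (by
      filter_upwards [(isOpen_lt continuous_const hF.1.cont).mem_nhds h1] with y hy
      exact eq y (le_of_lt hy)), lap_affine, hg.lap_comp (sG.c2 x) Real.contDiff_exp.contDiffAt,
      Real.deriv_exp, Real.deriv_exp, lap_affine, ip_of_pd (u' := F) (v' := F) (s := -k) (t := -k)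
        (fun i => by rw [pd_add_const, pd_const_mul]) fun i => by rw [pd_add_const, pd_const_mul]]
    have h3 := hk x (abs_le.2 ⟨by linarith, h2.le⟩)
    have h4 := mul_nonneg (mul_pos (mul_pos A0 k0) (Real.exp_pos (G x))).le (sub_nonneg.2 h3)
    nlinarith

end Cap

open Cap in
theorem cap_of (hS : SUB) (hC : CHAIN) (hW : WMP) (hN : CONN) : CAP := by
  rintro n g ρ F b K hn hg hf hF ⟨R, hR⟩ sb ⟨B, hB⟩ hb b1 ⟨x₀, h0⟩ hK hK'
  have F0 : 0 < F x₀ := not_le.1 fun h => h0.ne (b1 x₀ h)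
  have oF : IsOpen {x | 0 < F x} := isOpen_lt continuous_const hF.1.cont
  obtain ⟨r, r0, hr⟩ := Metric.isOpen_iff.1 (oF.inter (isOpen_lt (continuous_const
    (y := (1 - b x₀) / 2)) (continuous_const.sub sb.cont))) x₀ ⟨F0, by
      show (1 - b x₀) / 2 < 1 - b x₀
      linarith⟩
  obtain ⟨c, c0, hc⟩ := hC n g (fun _ => 1) 0 r _ K x₀ hg contDiff_const (fun _ => one_pos) le_rfl
    oF (hN n F hF) hK hK' r0 fun x hx => (hr hx).1
  have d0 : 0 < (1 - b x₀) / 2 := by linarith
  refine ⟨(1 - b x₀) / 2 * c, by positivity, fun e he => ?_⟩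
  obtain ⟨W, s, σ, Λ, sW, s0, s1, σ0, Λ0, W0, W1, W2, W3, W4⟩ := barrier hg hF hR he
  let V : E n → ℝ := fun x => Λ * Real.smoothTransition (-F x / σ)
  have sV : Smooth V := contDiff_const.mul
    (Real.smoothTransition.contDiff.comp (ContDiff.div_const (ContDiff.neg hF.1) σ))
  have V0 : ∀ x, 0 ≤ V x := fun x => mul_nonneg Λ0.le (Real.smoothTransition.nonneg _)
  have V1 : ∀ x, 0 ≤ F x → V x = 0 := fun x hx => mul_eq_zero_of_right _
    (Real.smoothTransition.zero_of_nonpos (div_nonpos_of_nonpos_of_nonneg (by linarith) σ0.le))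
  have V2 : ∀ x, F x ≤ -σ → V x = Λ := fun x hx => by
    have : Real.smoothTransition (-F x / σ) = 1 :=
      Real.smoothTransition.one_of_one_le ((le_div_iff₀ σ0).2 (by linarith))
    simp only [V, this, mul_one]
  obtain ⟨L, -, hL⟩ := bdd_of_const sV (R := R) (c := 0) fun y hy =>
    V1 y (by linarith [hR y hy.le])
  obtain ⟨H, sH, H1, H2⟩ := hS n g ρ (fun _ => 1) V (fun x => 1 - b x) (fun _ => 1) hn hg hf
    (wt1 g) sV ⟨L, fun x => (hL x).1, fun x y => convex_univ.norm_image_sub_le_of_norm_fderiv_le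
      (fun z _ => sV.diff z) (fun z _ => (hL z).2) (mem_univ y) (mem_univ x)⟩
    (contDiff_const.sub sb) contDiff_const
    ⟨B + 1, fun x => (norm_sub_le _ _).trans (by linarith [hB.1 x, norm_one (α := ℝ)]),
      fun x y => by
        rw [sub_sub_sub_cancel_left, norm_sub_rev]
        linarith [hB.2 x y, norm_nonneg (x - y)]⟩
    ⟨1, fun x => by simp, fun x y => by simp⟩ (fun x => by linarith [(hb x).1])
    (fun x => by
      rw [wl_one, lap_const_sub]
      rcases le_total (F x) 0 with h | h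
      · rw [b1 x h]
        linarith [(hb x).2.2]
      · rw [V1 x h]
        linarith [(hb x).2.2])
    fun x => by rw [wl_const]; linarith [V0 x]
  simp only [wl_one, one_pow, one_mul] at H2
  have H0 : ∀ x, 0 ≤ H x := fun x => by linarith [(H1 x).1, (hb x).2.1]
  refine ⟨H, sH, fun x => H2 x ▸ mul_nonneg (V0 x) (H0 x), fun x hx => ?_, fun x hx => ?_⟩
  · refine (le_inv_mul_iff₀ d0).1 (hc (fun y => ((1 - b x₀) / 2)⁻¹ * H y) (fun y hy =>
      ⟨contDiffAt_const.mul (sH.c2 y), mul_nonneg (inv_pos.2 d0).le (H0 y), ?_⟩)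
      (fun y hy => (le_inv_mul_iff₀ d0).2 ?_) x hx)
    · rw [wl_one, lap_const_mul, H2, V1 y (le_of_lt hy)]
      simp
    · have : (1 - b x₀) / 2 < 1 - b y := (hr hy).2
      linarith [(H1 y).1]
  · have := hW n g (fun _ => 1) (fun y => W y - H y) V {y | F y < s} (by omega) hg contDiff_const
      (fun _ => one_pos) (isOpen_lt hF.1.cont continuous_const) (sW.cont.sub sH.cont).continuousOn
      (fun y hy => ⟨(sW.c2 y).sub (sH.c2 y), V0 y, by
        rw [wl_one, hg.lap_sub (sW.c2 y) (sH.c2 y), H2]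
        rcases le_or_gt (F y) (-σ) with h | h
        · have := W3 y h
          rw [V2 y h]
          linarith
        · linarith [W4 y h hy, mul_nonneg (V0 y) (W0 y).le]⟩)
      (fun y hy => by
        linarith [W1 y (frontier_lt_subset_eq hF.1.cont continuous_const hy), (H1 y).2])
      (fun _ _ => ⟨R, fun y hy h => by linarith [hR y h, show F y < s from hy]⟩) x
      (show F x < s by linarith)
    linarith [W2 x hx]

end Vale.Agent.P366Z.St0
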