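import Vale.Agent.P366Z.St0.Sk

/-!
# P366Z, block STEP0: the metric cut off and the error of its scalar curvature
-/

open MeasureTheory Metric Filter Topology Set
open scoped ContDiff ENNReal
open Vale.Agent.P366.Stmt

noncomputable section

namespace Vale.Agent.P366Z.St0

namespace Cutm

variable {n : ℕ} {f : E n → ℝ} {g : Field n} {ρ : ℝ} {x : E n}

theorem pd_scale (hf : Smooth f) (r : ℝ) (i : Fin n) (x : E n) :
    pd i (fun y => f (r • y)) x = r * pd i f (r • x) := by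
  have h : HasFDerivAt (fun y : E n => f (r • y))
      ((fderiv ℝ f (r • x)).comp (r • ContinuousLinearMap.id ℝ (E n))) x :=
    (hf.diff _).hasFDerivAt.comp x ((hasFDerivAt_id x).const_smul r)
  rw [pd_of_hasFDerivAt h, pd_eq (hf.diff _), ContinuousLinearMap.comp_apply,
    smul_apply, map_smul]
  rfl

/-- scale invariant bounds for the derivatives of the cut-off function -/
theorem cut_bd (n : ℕ) : ∃ c > (0 : ℝ), ∀ ρ > (0 : ℝ), ∀ (x : E n) k l,
    |‖x‖ * pd k (cut ρ) x| ≤ c ∧ |‖x‖ ^ 2 * pd l (pd k (cut ρ)) x| ≤ c := by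
  have h0 : ∀ (y : E n) k, 2 < ‖y‖ → pd k (cut 1) y = 0 := fun y k hy =>
    pd_cut_out one_pos (by rwa [mul_one]) k
  obtain ⟨c, hc, h⟩ := bdd_of_out (V := Fin n → Fin n → ℝ × ℝ)
    (F := fun (y : E n) k l => (‖y‖ * pd k (cut 1) y, ‖y‖ ^ 2 * pd l (pd k (cut 1)) y))
    (continuous_pi fun k => continuous_pi fun l =>
      (continuous_norm.mul ((sm_cut 1).pd k).cont).prodMk
        ((continuous_norm.pow 2).mul (((sm_cut 1).pd k).pd l).cont)) (R := 3) (C := 0)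
    fun y hy => by
      refine norm_le_zero_iff.2 (funext fun k => funext fun l => ?_)
      rw [h0 y k (by linarith), pd_zero_of_out (R := 5 / 2) (c := 0)
        (fun z hz => h0 z k (by linarith)) (by linarith) l, mul_zero, mul_zero]
      rfl
  refine ⟨c, hc, fun ρ hρ x k l => ?_⟩
  have h1 := (norm_le_pi_norm _ l).trans ((norm_le_pi_norm _ k).trans (h (ρ⁻¹ • x)))
  have e : (cut ρ : E n → ℝ) = fun x => cut 1 (ρ⁻¹ • x) := funext (cut_scale hρ)
  have e1 : pd k (cut ρ : E n → ℝ) = fun x => ρ⁻¹ * pd k (cut 1) (ρ⁻¹ • x) := by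
    rw [e]
    exact funext (pd_scale (sm_cut 1) _ k)
  have e2 : ‖ρ⁻¹ • x‖ = ρ⁻¹ * ‖x‖ := by rw [norm_smul, norm_inv, Real.norm_of_nonneg hρ.le]
  rw [e2] at h1
  refine ⟨le_of_eq_of_le (congrArg _ ?_) ((norm_fst_le _).trans h1),
    le_of_eq_of_le (congrArg _ ?_) ((norm_snd_le _).trans h1)⟩
  · rw [e1]
    ring
  · rw [e1, pd_const_mul, pd_scale ((sm_cut 1).pd k)]
    ring

theorem mulb {a b A B : ℝ} (ha : |a| ≤ A) (hb : |b| ≤ B) : |a * b| ≤ A * B := by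
  rw [abs_mul]
  exact mul_le_mul ha hb (abs_nonneg _) ((abs_nonneg _).trans ha)

theorem met_gc (hg : Met g) (ρ : ℝ) : Met (gc g ρ) where
  sm i j := ContDiff.add (ContDiff.mul (sm_cut ρ) (hg.sm i j))
    (ContDiff.mul (contDiff_const.sub (sm_cut ρ)) (met_eu.sm i j))
  sy x i j := by simp only [gc, hg.sy x i j, met_eu.sy x i j]
  pos x := by
    have e : mat (gc g ρ) x = cut ρ x • mat g x + (1 - cut ρ x) • mat (eu n) x := rfl
    rw [e]
    rcases (cut_nonneg ρ x).eq_or_lt with h | h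
    · rw [← h, zero_smul, zero_add, sub_zero, one_smul]
      exact met_eu.pos x
    · exact ((hg.pos x).smul h).add_posSemidef
        ((met_eu.pos x).posSemidef.smul (sub_nonneg.2 (cut_le_one ρ x)))

theorem gc_in (hx : ‖x‖ ≤ ρ) : gc g ρ x = g x := by
  funext i j
  simp only [gc, cut_one hx, one_mul, sub_self, zero_mul, add_zero]

theorem gc_ev (hx : ‖x‖ < ρ) : gc g ρ =ᶠ[𝓝 x] g := by
  filter_upwards [(isOpen_lt continuous_norm continuous_const).mem_nhds hx] with z hz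
  exact gc_in (le_of_lt hz)

theorem gc_out (hρ : 0 < ρ) : Flat (gc g ρ) (2 * ρ) := fun x hx => by
  funext i j
  simp only [gc, cut_zero hρ hx, one_mul, sub_zero, zero_mul, zero_add]

theorem pd_gc (hg : Met g) (i j k : Fin n) : pd k (fun y => gc g ρ y i j) = fun x =>
    pd k (cut ρ) x * (g x i j - eu n 0 i j) + cut ρ x * pd k (fun y => g y i j) x := by
  have e : (fun y => gc g ρ y i j) = fun y => cut ρ y * (g y i j - eu n 0 i j) + eu n 0 i j :=
    funext fun y => by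
      change _ + _ * eu n 0 i j = _
      ring
  funext x
  rw [e, pd_add_const, pd_mul ((sm_cut ρ).diff x) (((hg.sm i j).diff x).sub_const _), pd_sub_const]

theorem pd_pd_gc (hg : Met g) (i j k l : Fin n) (x : E n) :
    pd l (pd k fun y => gc g ρ y i j) x = pd l (pd k (cut ρ)) x * (g x i j - eu n 0 i j) +
      pd k (cut ρ) x * pd l (fun y => g y i j) x + (pd l (cut ρ) x * pd k (fun y => g y i j) x +
        cut ρ x * pd l (pd k fun y => g y i j) x) := by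
  have h1 := ((sm_cut (n := n) ρ).pd k).diff x
  have h2 := ((hg.sm i j).diff x).sub_const (eu n 0 i j)
  have h3 := (sm_cut ρ).diff x
  have h4 := ((hg.sm i j).pd k).diff x
  rw [pd_gc hg, pd_add (h1.fun_mul h2) (h3.fun_mul h4), pd_mul h1 h2, pd_mul h3 h4, pd_sub_const]

theorem rp1 {t : ℝ} (ht : 0 < t) (q : ℝ) : t ^ (-(q + 1)) = t ^ (-q) * t⁻¹ := by
  rw [neg_add, Real.rpow_add ht, Real.rpow_neg_one]

theorem rp2 {t : ℝ} (ht : 0 < t) (q : ℝ) : t ^ (-(q + 2)) = t ^ (-q) * t⁻¹ ^ 2 := by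
  rw [show q + 2 = q + 1 + 1 by ring, rp1 ht, rp1 ht]
  ring

/-- the decay of the scalar curvature -/
theorem scal_bd (hS : SCL) (n : ℕ) {q C : ℝ} (hq : 0 < q) (hC : 0 < C) : ∃ K > (0 : ℝ), ∃ ρ₀ : ℝ,
    ∀ (g : Field n) (R : ℝ) (x : E n), Met g → Af g q C R → R ≤ ‖x‖ → ρ₀ ≤ ‖x‖ →
      |scal g x| ≤ K * ‖x‖ ^ (-(q + 2)) := by
  obtain ⟨e, he, K, hK, h⟩ := hS n
  have t1 : Tendsto (fun t : ℝ => C * t ^ (-q)) atTop (𝓝 0) := by
    simpa using (tendsto_rpow_neg_atTop hq).const_mul C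
  obtain ⟨ρ₀, h0⟩ := eventually_atTop.1 ((t1.eventually (ge_mem_nhds he)).and
    (eventually_gt_atTop 0))
  refine ⟨K * (2 * e + 1) * C, by positivity, ρ₀, fun g R x hg hA hR hx => ?_⟩
  obtain ⟨k1, k2⟩ := h0 _ hx
  obtain ⟨m1, m2, -⟩ := h g x _ _ _ hg (by positivity) k1 (by positivity) (by positivity)
    (fun i j => (hA x hR i j i i).1) (fun i j k => (hA x hR i j k k).2.1)
    fun i j k l => (hA x hR i j k l).2.2
  rw [rp1 k2, rp2 k2] at m1
  rw [rp2 k2] at m2 ⊢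
  have m3 : 0 ≤ K * (C * (‖x‖ ^ (-q) * ‖x‖⁻¹ ^ 2)) := by positivity
  have m4 := mul_le_mul_of_nonneg_right k1 m3
  have m5 := abs_sub_abs_le_abs_sub (scal g x) (∑ i, pd i (yv g i) x)
  nlinarith

end Cutm

open Cutm

/-- **CUTM** -/
theorem cutm : CUTM := by
  intro n q C hC
  obtain ⟨c, hc, h⟩ := cut_bd n
  refine ⟨(1 + 3 * c) * C, by positivity, fun g R ρ hg hA hR hρ => ⟨met_gc hg ρ,
    gc_out (hR.trans_le hρ), fun x hx i j k l => ?_, fun _ => gc_in, fun _ => gc_ev⟩⟩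
  have ht : 0 < ‖x‖ := hR.trans_le hx
  have c0 : |cut ρ x| ≤ 1 := abs_le.2 ⟨by linarith [cut_nonneg ρ x], cut_le_one ρ x⟩
  have c1 : ∀ k, |pd k (cut ρ) x| ≤ c * ‖x‖⁻¹ := fun k => by
    have := (h ρ (hR.trans_le hρ) x k k).1
    rwa [abs_mul, abs_of_pos ht, mul_comm, ← le_mul_inv_iff₀ ht] at this
  have c2 : |pd l (pd k (cut ρ)) x| ≤ c * ‖x‖⁻¹ ^ 2 := by
    have := (h ρ (hR.trans_le hρ) x k l).2
    rwa [abs_mul, abs_of_pos (pow_pos ht 2), mul_comm, ← le_mul_inv_iff₀ (pow_pos ht 2),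
      ← inv_pow] at this
  have g0 : |g x i j - eu n 0 i j| ≤ C * ‖x‖ ^ (-q) := (hA x hx i j k l).1
  have g1 := fun k => (hA x hx i j k l).2.1
  have g2 := (hA x hx i j k l).2.2
  simp only [rp1 ht, rp2 ht] at g1 g2 ⊢
  have p0 : 0 ≤ c * C * ‖x‖ ^ (-q) := by positivity
  have p1 : 0 ≤ c * C * (‖x‖ ^ (-q) * ‖x‖⁻¹) := by positivity
  refine ⟨?_, ?_, ?_⟩
  · have e : gc g ρ x i j - eu n x i j = cut ρ x * (g x i j - eu n 0 i j) := by
      change _ + _ * eu n 0 i j - eu n 0 i j = _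
      ring
    rw [e]
    linarith [mulb c0 g0]
  · rw [pd_gc hg]
    refine (abs_add_le _ _).trans ?_
    linarith [mulb (c1 k) g0, mulb c0 (g1 k)]
  · rw [pd_pd_gc hg]
    refine (abs_add_le _ _).trans ((add_le_add (abs_add_le _ _) (abs_add_le _ _)).trans ?_)
    linarith [mulb c2 g0, mulb (c1 k) (g1 l), mulb (c1 l) (g1 k), mulb c0 g2]

/-- **FE** -/
theorem fe_of (hS : SCL) (hC : CUTM) : FE := by
  intro n g F q C R m h
  have hn : (3 : ℝ) ≤ n := by exact_mod_cast h.dim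
  have hq : 0 < q := by linarith [h.q0]
  have hR : 0 < R := one_pos.trans_le h.R1
  obtain ⟨C', hC', h1⟩ := hC n q C h.C0
  obtain ⟨K, hK, ρ₁, k1⟩ := scal_bd hS n hq h.C0
  obtain ⟨K', hK', ρ₂, k2⟩ := scal_bd hS n hq hC'
  refine ⟨K' + K, by positivity, max R (max ρ₁ ρ₂), fun ρ hρ => ?_⟩
  simp only [ge_iff_le, max_le_iff] at hρ
  have h0 : 0 < ρ := hR.trans_le hρ.1
  obtain ⟨m1, m2, m3, -, m4⟩ := h1 g R ρ h.met h.af hR hρ.1
  have s : Smooth (fe g ρ) := ContDiff.sub m1.sm_scal (ContDiff.mul (sm_cut ρ) h.met.sm_scal)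
  have z1 : ∀ x : E n, ‖x‖ ≤ ρ → fe g ρ x = 0 := fun x hx => by
    have e : EqOn (fe g ρ) (fun _ => 0) (ball 0 ρ) := fun y hy => by
      rw [mem_ball_zero_iff] at hy
      simp only [fe, scal_of_ev (m4 y hy), cut_one hy.le, one_mul, sub_self]
    refine e.closure s.cont continuous_const ?_
    rwa [closure_ball _ h0.ne', mem_closedBall_zero_iff]
  have z2 : ∀ x : E n, ρ ≤ ‖x‖ → |fe g ρ x| ≤ (K' + K) * ‖x‖ ^ (-(q + 2)) := fun x hx => by
    have c0 : |cut ρ x| ≤ 1 := abs_le.2 ⟨by linarith [cut_nonneg ρ x], cut_le_one ρ x⟩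
    refine (abs_sub _ _).trans ?_
    linarith [mulb c0 (k1 g R x h.met h.af (hρ.1.trans hx) (hρ.2.1.trans hx)),
      k2 _ R x m1 m3 (hρ.1.trans hx) (hρ.2.2.trans hx)]
  refine ⟨s, fun x => ⟨fun hx => hx.elim (z1 x) fun hx => ?_, ?_, z2 x⟩⟩
  · simp only [fe, m2.scal_eq' (by linarith [h.dim]) m1 hx, cut_zero h0 hx, zero_mul, sub_self]
  · rcases le_total ‖x‖ ρ with hx | hx
    · rw [z1 x hx, abs_zero]
      positivity
    · exact (z2 x hx).trans (mul_le_mul_of_nonneg_left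
        (Real.rpow_le_rpow_of_nonpos h0 hx (by linarith)) (by positivity))

end Vale.Agent.P366Z.St0
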