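import Vale.Agent.P366Z.St0.Sk

/-!
# P366Z, block STEP0: the energy as a volume integral
-/

open MeasureTheory Metric Filter Topology Set
open scoped ContDiff ENNReal
open Vale.Agent.P366.Stmt

noncomputable section

namespace Vale.Agent.P366Z.St0

namespace Mas1

variable {n : ℕ} {ρ : ℝ}

/-- polar coordinates -/
theorem polar (hn : 0 < n) {f : E n → ℝ} (hf : Integrable f) :
    IntegrableOn (fun r => sphInt r f) (Ioi 0) ∧ ∫ x, f x = ∫ r in Ioi 0, sphInt r f := by
  have := nontriv hn
  have h0 := (volume : Measure (E n)).measurePreserving_homeomorphUnitSphereProd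
  have h1 := (homeomorphUnitSphereProd (E n)).measurableEmbedding
  have h2 : (fun p : sphere (0 : E n) 1 × Ioi (0 : ℝ) => f (p.2.1 • p.1.1)) ∘
      homeomorphUnitSphereProd (E n) = f ∘ Subtype.val := funext fun x => by
    simp only [Function.comp_apply, ← homeomorphUnitSphereProd_symm_apply_coe,
      Homeomorph.symm_apply_apply]
  have h3 := (h0.integrable_comp_emb h1).1 (h2 ▸ (integrableOn_iff_comap_subtypeVal
    (measurableSet_singleton _).compl).1 hf.integrableOn)
  have h4 : Measurable fun r : Ioi (0 : ℝ) => ENNReal.ofReal (r.1 ^ (n - 1)) := by fun_prop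
  have h5 : ∀ r : Ioi (0 : ℝ), (ENNReal.ofReal (r.1 ^ (n - 1))).toReal •
      ∫ θ : sphere (0 : E n) 1, f (r.1 • θ.1) ∂(volume : Measure (E n)).toSphere = sphInt r.1 f :=
    fun r => by rw [ENNReal.toReal_ofReal (pow_nonneg r.2.out.le _), sphInt, sph, vol_eq, smul_eq_mul]
  rw [finrank_euclideanSpace_fin] at h0 h3
  constructor
  · have := h3.integral_prod_right
    rw [Measure.volumeIoiPow, integrable_withDensity_iff_integrable_smul' h4 (by simp)] at this
    simp only [h5] at this
    exact (integrableOn_iff_comap_subtypeVal measurableSet_Ioi).2 this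
  · rw [← restrict_compl_singleton (μ := (volume : Measure (E n))) 0,
      ← integral_subtype_comap (measurableSet_singleton _).compl]
    refine (congrArg (integral _) h2.symm).trans ((h0.integral_comp h1
      fun p : sphere (0 : E n) 1 × Ioi (0 : ℝ) => f (p.2.1 • p.1.1)).trans ?_)
    rw [integral_prod_symm _ h3, Measure.volumeIoiPow,
      integral_withDensity_eq_integral_toReal_smul h4 (by simp)]
    simp only [h5]
    exact integral_subtype_comap measurableSet_Ioi fun r => sphInt r f

/-- the radial derivative of the cut-off function -/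
def ph (ρ r : ℝ) : ℝ := deriv Real.smoothTransition (2 - r ^ 2 / ρ ^ 2) * -(2 * r / ρ ^ 2)

theorem st (t : ℝ) : HasDerivAt Real.smoothTransition (deriv Real.smoothTransition t) t :=
  ((Real.smoothTransition.contDiff (n := 1)).differentiable one_ne_zero t).hasDerivAt

theorem der (ρ r : ℝ) :
    HasDerivAt (fun r => Real.smoothTransition (2 - r ^ 2 / ρ ^ 2)) (ph ρ r) r := by
  have := (st _).comp r (((hasDerivAt_pow 2 r).div_const (ρ ^ 2)).const_sub 2)
  simp only [Nat.cast_ofNat, Nat.add_one_sub_one, pow_one] at this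
  exact this

theorem ph_le {r : ℝ} (hr : 0 < r) : ph ρ r ≤ 0 :=
  mul_nonpos_of_nonneg_of_nonpos Real.smoothTransition.monotone.deriv_nonneg
    (neg_nonpos.2 (by positivity))

theorem ph_zero {r : ℝ} (hr : 0 < r) (h : r < ρ) : ph ρ r = 0 := by
  have h1 : r ^ 2 / ρ ^ 2 < 1 := (div_lt_one (by nlinarith)).2 (by nlinarith)
  have h2 : Real.smoothTransition =ᶠ[𝓝 (2 - r ^ 2 / ρ ^ 2)] fun _ => 1 :=
    (eventually_gt_nhds (show (1 : ℝ) < 2 - r ^ 2 / ρ ^ 2 by linarith)).mono fun _ k =>
      Real.smoothTransition.one_of_one_le k.le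
  rw [ph, h2.deriv_eq, deriv_const, zero_mul]

theorem ph_int (h : 0 < ρ) : IntegrableOn (ph ρ) (Ioi 0) ∧ ∫ r in Ioi 0, ph ρ r = -1 := by
  have h1 : Tendsto (fun r : ℝ => Real.smoothTransition (2 - r ^ 2 / ρ ^ 2)) atTop (𝓝 0) :=
    tendsto_const_nhds.congr' ((eventually_ge_atTop (2 * ρ)).mono fun r k =>
      (Real.smoothTransition.zero_of_nonpos (by
        rw [sub_nonpos, le_div_iff₀ (by positivity)]; nlinarith)).symm)
  refine ⟨integrableOn_Ioi_deriv_of_nonpos' (fun r _ => der ρ r) (fun _ => ph_le) h1, ?_⟩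
  rw [integral_Ioi_of_hasDerivAt_of_nonpos' (fun r _ => der ρ r) (fun _ => ph_le) h1,
    Real.smoothTransition.one_of_one_le (by norm_num), zero_sub]

theorem pd_cut (i : Fin n) {x : E n} (hx : ‖x‖ ≠ 0) : pd i (cut ρ) x = ph ρ ‖x‖ * (x i / len x) := by
  have h1 : DifferentiableAt ℝ (fun y : E n => ‖y‖) x :=
    differentiableAt_id.norm ℝ (norm_ne_zero_iff.1 hx)
  exact (pd_comp (der ρ ‖x‖) h1 i).trans (congrArg _ (pd_norm (norm_ne_zero_iff.1 hx) i))

end Mas1

open Mas1

theorem mas1 : MAS1 := by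
  intro n Y m hn hY hm
  have h0 : 0 < n := by omega
  have hc : 0 < 2 * ((n : ℝ) - 1) * omega n := by
    have : (3 : ℝ) ≤ n := by exact_mod_cast hn
    exact mul_pos (by linarith) (omega_pos h0)
  set c := 2 * ((n : ℝ) - 1) * omega n with hc'
  refine Metric.tendsto_atTop.2 fun ε hε => ?_
  obtain ⟨R, hR⟩ := Metric.tendsto_atTop.1 (hm.const_mul c) (ε / 2) (half_pos hε)
  refine ⟨max R 1, fun ρ hρ => ?_⟩
  have hρ0 : 0 < ρ := one_pos.trans_le ((le_max_right _ _).trans hρ)
  obtain ⟨k1, k2⟩ := polar h0 (f := fun x => ∑ i, pd i (cut ρ) x * Y i x)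
    (integrable_finsetSum _ fun i _ => by
      simpa only [mul_comm] using (lip_cut hρ0).integrable_pd (fun _ => cut_zero hρ0) (hY i).cont i)
  have k3 : ∀ r ∈ Ioi (0 : ℝ), sphInt r (fun x => ∑ i, pd i (cut ρ) x * Y i x) =
      ph ρ r * (c * flx (fun i x => Y i x / 2) r) := fun r hr => by
    have e : ∀ θ : sphere (0 : E n) 1, ‖r • θ.1‖ = r := fun θ => by
      rw [norm_smul, norm_eq_of_mem_sphere, mul_one, Real.norm_of_nonneg hr.out.le]
    have e' : ∀ θ : sphere (0 : E n) 1, ∑ i, pd i (cut ρ) (r • θ.1) * Y i (r • θ.1) =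
        2 * ph ρ r * ∑ i, Y i (r • θ.1) / 2 * ((r • θ.1) i / len (r • θ.1)) := fun θ => by
      rw [Finset.mul_sum]
      refine Finset.sum_congr rfl fun i _ => ?_
      rw [pd_cut i ((e θ).trans_ne hr.out.ne'), e]
      ring
    have := right_ne_zero_of_mul (left_ne_zero_of_mul hc.ne')
    have := right_ne_zero_of_mul hc.ne'
    simp only [flx, sphInt, sph, e', integral_const_mul, hc']
    field_simp
  obtain ⟨k4, k5⟩ := ph_int hρ0
  have k6 := (integrableOn_congr_fun k3 measurableSet_Ioi).1 k1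
  have k7 : ∫ r in Ioi 0, ph ρ r * (c * flx (fun i x => Y i x / 2) r - c * m) =
      (∫ x, ∑ i, pd i (cut ρ) x * Y i x) - -(c * m) := by
    simp only [mul_sub]
    rw [integral_sub k6 (k4.mul_const _), integral_mul_const, k5, k2,
      setIntegral_congr_fun measurableSet_Ioi k3, neg_one_mul]
  rw [dist_eq_norm, ← k7]
  refine (norm_integral_le_of_norm_le (k4.mul_const (-(ε / 2))) ?_).trans_lt ?_
  · filter_upwards [ae_restrict_mem measurableSet_Ioi] with r hr
    rcases lt_or_ge r ρ with k | k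
    · simp [ph_zero hr k]
    · have := hR r (((le_max_left _ _).trans hρ).trans k)
      rw [dist_eq_norm] at this
      rw [norm_mul, Real.norm_of_nonpos (ph_le hr), mul_neg, ← neg_mul]
      exact mul_le_mul_of_nonneg_left this.le (neg_nonneg.2 (ph_le hr))
  · rw [integral_mul_const, k5]
    linarith

end Vale.Agent.P366Z.St0
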