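import Vale.Agent.P366Z.St0.Sk

/-!
# P366Z, block STEP0: the integral of the error of the scalar curvature (row MASS)
-/

open MeasureTheory Metric Filter Topology Set
open scoped ContDiff ENNReal
open Vale.Agent.P366.Stmt

noncomputable section

namespace Vale.Agent.P366Z.St0

namespace Mass

variable {n : ℕ} {g g' : Field n} {x : E n} {ρ : ℝ}

/-- the divergence of the field of the energy -/
def dY (g : Field n) (x : E n) : ℝ := ∑ i, pd i (yv g i) x

/-- the nonlinear part of the scalar curvature -/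
def rem (g : Field n) (x : E n) : ℝ := scal g x - dY g x

theorem sm_yv (hg : Met g) (i : Fin n) : Smooth (yv g i) :=
  ContDiff.sum fun j _ => ContDiff.sub ((hg.sm i j).pd j) ((hg.sm j j).pd i)

theorem sm_dY (hg : Met g) : Smooth (dY g) := ContDiff.sum fun i _ => (sm_yv hg i).pd i

theorem sm_rem (hg : Met g) : Smooth (rem g) := ContDiff.sub hg.sm_scal (sm_dY hg)

theorem yv_of_ev (e : g =ᶠ[𝓝 x] g') (i : Fin n) : yv g i x = yv g' i x := by
  have h : ∀ a b c, pd c (fun y => g y a b) x = pd c (fun y => g' y a b) x := fun a b c =>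
    pd_congr (e.mono fun y hy => by simp only [hy]) c
  simp only [yv, h]

theorem dY_of_ev (e : g =ᶠ[𝓝 x] g') : dY g x = dY g' x :=
  Finset.sum_congr rfl fun i _ => pd_congr (e.eventuallyEq_nhds.mono fun _ hy => yv_of_ev hy i) i

theorem rem_of_ev (e : g =ᶠ[𝓝 x] g') : rem g x = rem g' x := by
  rw [rem, rem, scal_of_ev e, dY_of_ev e]

theorem yv_eu (i : Fin n) : yv (eu n) i = fun _ => 0 := funext fun x => by
  simp [yv, eu, pd_const]

theorem rem_eu : rem (eu n) x = 0 := by simp [rem, dY, scal_eu, yv_eu, pd_const]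

theorem rem_bd (hS : SCL) (n : ℕ) : ∃ e > (0 : ℝ), ∃ K > (0 : ℝ), ∀ (g : Field n) (q C R ρ : ℝ)
    (x : E n), Met g → Af g q C R → 0 < q → 0 < C → R ≤ ρ → 0 < ρ → ρ ≤ ‖x‖ → C * ρ ^ (-q) ≤ e →
    |rem g x| ≤ K * (2 * C ^ 2) * ρ ^ (-(2 * q + 2)) := by
  obtain ⟨e, he, K, hK, h⟩ := hS n
  refine ⟨e, he, K, hK, fun g q C R ρ x hg ha hq hC hR h0 hx hs => ?_⟩
  have m : ∀ p : ℝ, 0 < p → C * ‖x‖ ^ (-p) ≤ C * ρ ^ (-p) := fun p hp =>
    mul_le_mul_of_nonneg_left (Real.rpow_le_rpow_of_nonpos h0 hx (by linarith)) hC.le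
  have a := ha x (hR.trans hx)
  refine (h g x _ (C * ρ ^ (-(q + 1))) (C * ρ ^ (-(q + 2))) hg (by positivity) hs (by positivity)
    (by positivity) (fun i j => (a i j i i).1.trans (m q hq))
    (fun i j k => (a i j k k).2.1.trans (m _ (by linarith)))
    fun i j k l => (a i j k l).2.2.trans (m _ (by linarith))).1.trans (le_of_eq ?_)
  have e1 : ρ ^ (-q) * ρ ^ (-(q + 2)) = ρ ^ (-(2 * q + 2)) := by
    rw [← Real.rpow_add h0]
    congr 1
    ring
  have e2 : ρ ^ (-(q + 1)) * ρ ^ (-(q + 1)) = ρ ^ (-(2 * q + 2)) := by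
    rw [← Real.rpow_add h0]
    congr 1
    ring
  linear_combination K * C ^ 2 * e1 + K * C ^ 2 * e2

theorem int_dY (hg : Met g) (hf : Flat g ρ) : Integrable (dY g) ∧ ∫ x, dY g x = 0 := by
  have h1 : ∀ i y, ρ + 1 ≤ ‖y‖ → yv g i y = 0 := fun i y hy => by
    rw [yv_of_ev (hf.ev (by linarith)), yv_eu]
  have h2 : ∀ i, Integrable (pd i (yv g i)) := fun i =>
    integrable_of_out ((sm_yv hg i).pd i).cont (R := ρ + 2) fun y hy =>
      pd_zero_of_out (h1 i) (by linarith) i
  refine ⟨integrable_finsetSum _ fun i _ => h2 i, ?_⟩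
  unfold dY
  rw [integral_finsetSum _ fun i _ => h2 i]
  exact Finset.sum_eq_zero fun i _ => integral_pd
    (lip_of_const (sm_yv hg i) (R := ρ + 1) fun y hy => h1 i y hy.le) (supp_of_out (h1 i)) i

theorem int_cut (hg : Met g) (h0 : 0 < ρ) :
    ∫ x, cut ρ x * dY g x = -∫ x, ∑ i, pd i (cut ρ) x * yv g i x := by
  have h1 : ∀ i, Integrable fun x => cut ρ x * pd i (yv g i) x := fun i =>
    integrable_of_out ((sm_cut ρ).cont.mul ((sm_yv hg i).pd i).cont) (R := 2 * ρ) fun y hy => by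
      rw [cut_zero h0 hy, zero_mul]
  have h2 : ∀ i, Integrable fun x => pd i (cut ρ) x * yv g i x := fun i =>
    integrable_of_out (((sm_cut ρ).pd i).cont.mul (sm_yv hg i).cont) (R := 2 * ρ + 1) fun y hy => by
      rw [pd_zero_of_out (fun z hz => cut_zero h0 hz) (by linarith) i, zero_mul]
  simp only [dY, Finset.mul_sum]
  rw [integral_finsetSum _ fun i _ => h1 i, integral_finsetSum _ fun i _ => h2 i,
    ← Finset.sum_neg_distrib]
  exact Finset.sum_congr rfl fun i _ => ibp (lip_cut h0) (supp_cut h0)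
    (ContDiff.of_le (sm_yv hg i) (by norm_cast)) i

end Mass

open Mass in
/-- row MASS -/
theorem mass_of (h1 : MAS1) (hS : SCL) (hC : CUTM) : MASS := by
  intro n g F q C R m B
  have hn : (3 : ℝ) ≤ n := by exact_mod_cast B.dim
  have hq : 0 < q := by linarith [B.q0]
  have hn0 : 0 < n := by have := B.dim; omega
  obtain ⟨C', hC', hc⟩ := hC n q C B.C0
  obtain ⟨e, he, K, hK, hb⟩ := rem_bd hS n
  have hsm : ∀ c : ℝ, ∀ᶠ ρ : ℝ in atTop, c * ρ ^ (-q) ≤ e := fun c => by
    have := (tendsto_rpow_neg_atTop hq).const_mul c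
    rw [mul_zero] at this
    exact this.eventually (eventually_le_nhds he)
  have hE : Tendsto (fun ρ => ∫ x, (rem (gc g ρ) x - cut ρ x * rem g x)) atTop (𝓝 0) := by
    have hl := (tendsto_rpow_neg_atTop (y := 2 * q + 2 - n) (by linarith [B.q0])).const_mul
      ((K * (2 * C' ^ 2) + K * (2 * C ^ 2)) * (omega n / n * 3 ^ n))
    rw [mul_zero] at hl
    refine squeeze_zero_norm' ?_ hl
    filter_upwards [hsm C, hsm C', eventually_ge_atTop R] with ρ s1 s2 hR
    have h0 : 0 < ρ := by linarith [B.R1]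
    obtain ⟨k1, k2, k3, -, k5⟩ := hc g R ρ B.met B.af (by linarith [B.R1]) hR
    rw [← setIntegral_eq_integral_of_forall_compl_eq_zero (s := ball 0 (3 * ρ)) fun x hx => by
      have hx' : 3 * ρ ≤ ‖x‖ := not_lt.1 (mem_ball_zero_iff.not.1 hx)
      rw [rem_of_ev (k2.ev (by linarith)), rem_eu, cut_zero h0 (by linarith), zero_mul, sub_zero]]
    refine (norm_setIntegral_le_of_norm_le_const measure_ball_lt_top
      (C := (K * (2 * C' ^ 2) + K * (2 * C ^ 2)) * ρ ^ (-(2 * q + 2))) fun x _ => ?_).trans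
      (le_of_eq ?_)
    · rcases lt_or_ge ‖x‖ ρ with hx | hx
      · rw [rem_of_ev (k5 x hx), cut_one hx.le, one_mul, sub_self, norm_zero]
        positivity
      · have a1 := hb _ q C' R ρ x k1 k3 hq hC' hR h0 hx s2
        have a2 := hb _ q C R ρ x B.met B.af hq B.C0 hR h0 hx s1
        have a3 : |cut ρ x * rem g x| ≤ |rem g x| := by
          rw [abs_mul, abs_of_nonneg (cut_nonneg ρ x)]
          exact mul_le_of_le_one_left (abs_nonneg _) (cut_le_one ρ x)
        rw [Real.norm_eq_abs, add_mul]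
        exact (abs_sub _ _).trans (add_le_add a1 (a3.trans a2))
    · have e1 : ρ ^ (-(2 * q + 2 - n)) = ρ ^ (-(2 * q + 2)) * ρ ^ n := by
        rw [← Real.rpow_natCast, ← Real.rpow_add h0]
        congr 1
        ring
      rw [measureReal_def, real_ball hn0 _ (by positivity), e1, mul_pow]
      ring
  have hM := (h1 n (yv g) m B.dim (sm_yv B.met) B.en).add hE
  rw [add_zero] at hM
  refine hM.congr' ?_
  filter_upwards [eventually_ge_atTop R] with ρ hR
  have h0 : 0 < ρ := by linarith [B.R1]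
  obtain ⟨k1, k2, -⟩ := hc g R ρ B.met B.af (by linarith [B.R1]) hR
  obtain ⟨i1, i2⟩ := int_dY k1 k2
  have i3 : Integrable fun x => cut ρ x * dY g x :=
    integrable_of_out ((sm_cut ρ).cont.mul (sm_dY B.met).cont) (R := 2 * ρ) fun y hy => by
      rw [cut_zero h0 hy, zero_mul]
  have i4 : Integrable fun x => rem (gc g ρ) x - cut ρ x * rem g x :=
    integrable_of_out ((sm_rem k1).cont.sub ((sm_cut ρ).cont.mul (sm_rem B.met).cont))
      (R := 3 * ρ) fun y hy => by
        rw [rem_of_ev (k2.ev (by linarith)), rem_eu, cut_zero h0 (by linarith), zero_mul, sub_zero]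
  have e1 : (fun x => fe g ρ x) = fun x => (dY (gc g ρ) x - cut ρ x * dY g x) +
      (rem (gc g ρ) x - cut ρ x * rem g x) := funext fun x => by
    simp only [fe, rem]
    ring
  have i5 : Integrable fun x => dY (gc g ρ) x - cut ρ x * dY g x := i1.sub i3
  rw [e1, integral_add i5 i4, integral_sub i1 i3, i2, int_cut B.met h0, zero_sub, neg_neg]

end Vale.Agent.P366Z.St0
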