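import Vale.Agent.P366Z.St0.Sk

/-!
# P366Z, block STEP0, rows MAT and CMP: metrics near the identity
-/

open MeasureTheory Metric Filter Topology Set
open scoped ContDiff ENNReal
open Vale.Agent.P366.Stmt

noncomputable section

namespace Vale.Agent.P366Z.St0

namespace MatH

variable {n : ℕ}

theorem up_bd {g : Field n} {x : E n} {a : ℝ} (hg : Met g) (h0 : 0 ≤ a) (ha : n * a ≤ 1 / 2)
    (h : ∀ i j, |g x i j - eu n x i j| ≤ a) (i j : Fin n) : |up g i j x - eu n x i j| ≤ 2 * a := by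
  set S := ∑ k, |up g i k x - eu n x i k| with hS
  have h1 : ∑ k, |up g i k x| ≤ 1 + S := by
    have h2 : ∑ k, |eu n x i k| = 1 := by simp [eu, apply_ite abs]
    rw [← h2, hS, ← Finset.sum_add_distrib]
    exact Finset.sum_le_sum fun k _ => by
      have := abs_add_le (eu n x i k) (up g i k x - eu n x i k)
      rwa [add_sub_cancel] at this
  have h3 : ∀ j, |up g i j x - eu n x i j| ≤ (1 + S) * a := fun j => by
    have h4 : up g i j x - eu n x i j = ∑ k, up g i k x * (eu n x k j - g x k j) := by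
      simp only [mul_sub, Finset.sum_sub_distrib, hg.up_mul]
      simp [eu]
    rw [h4]
    refine (Finset.abs_sum_le_sum_abs _ _).trans (le_trans ?_ (mul_le_mul_of_nonneg_right h1 h0))
    rw [Finset.sum_mul]
    exact Finset.sum_le_sum fun k _ => by
      rw [abs_mul, abs_sub_comm]
      exact mul_le_mul_of_nonneg_left (h k j) (abs_nonneg _)
  have h5 : S ≤ n * ((1 + S) * a) :=
    (Finset.sum_le_sum fun k _ => h3 k).trans (by simp)
  have h6 : 0 ≤ S := Finset.sum_nonneg fun _ _ => abs_nonneg _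
  have h7 : S ≤ 1 := by nlinarith
  exact (h3 j).trans (mul_le_mul_of_nonneg_right (by linarith) h0)

theorem det_bd (n : ℕ) : ∃ e > (0 : ℝ), ∃ K ≥ (0 : ℝ), ∀ (M : Fin n → Fin n → ℝ) (a : ℝ), 0 ≤ a →
    a ≤ e → (∀ i j, |M i j - (if i = j then 1 else 0)| ≤ a) →
    |√(Matrix.of M).det - 1| ≤ K * a := by
  let I : Fin n → Fin n → ℝ := fun i j => if i = j then 1 else 0
  have h0 : (Matrix.of I).det = 1 := Matrix.det_one
  have h1 : ContDiff ℝ 1 fun M : Fin n → Fin n → ℝ => (Matrix.of M).det := by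
    simp only [Matrix.det_apply', Matrix.of_apply]
    exact ContDiff.sum fun σ _ => contDiff_const.mul (contDiff_prod fun i _ => by fun_prop)
  obtain ⟨K, t, ht, hK⟩ :=
    ((h1.contDiffAt (x := I)).sqrt (by rw [h0]; exact one_ne_zero)).exists_lipschitzOnWith
  obtain ⟨e, he, h2⟩ := Metric.nhds_basis_closedBall.mem_iff.1 ht
  refine ⟨e, he, K, K.2, fun M a ha hae h => ?_⟩
  have h3 : dist M I ≤ a := (dist_pi_le_iff ha).2 fun i => (dist_pi_le_iff ha).2 fun j => h i j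
  have h4 := hK.dist_le_mul M (h2 (h3.trans hae)) I (mem_of_mem_nhds ht)
  rw [h0, Real.sqrt_one] at h4
  exact h4.trans (mul_le_mul_of_nonneg_left h3 K.2)

theorem cov_bd {g : Field n} {x : E n} {t b : ℝ} (h1 : t ≤ 1) (hb : 0 ≤ b) (ht : n * b ≤ t)
    (h : ∀ i j, |up g i j x - eu n x i j| ≤ b) (ξ : Fin n → ℝ) :
    (1 - t) * √(∑ i, ξ i ^ 2) ≤ covNorm g (fun i _ => ξ i) x ∧
      covNorm g (fun i _ => ξ i) x ≤ (1 + t) * √(∑ i, ξ i ^ 2) := by
  have h0 : 0 ≤ t := (mul_nonneg n.cast_nonneg hb).trans ht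
  have s0 : 0 ≤ ∑ i, ξ i ^ 2 := Finset.sum_nonneg fun _ _ => sq_nonneg _
  have h2 : ∑ i, ∑ j, eu n x i j * ξ i * ξ j = ∑ i, ξ i ^ 2 := by simp [eu, sq]
  have h3 := quad_le_of_bd h ξ
  have h4 := quad_le_of_bd (M := fun i j => eu n x i j - up g i j x)
    (fun i j => (abs_sub_comm _ _).trans_le (h i j)) ξ
  simp only [sub_mul, Finset.sum_sub_distrib, h2] at h3 h4
  have h5 := mul_le_mul_of_nonneg_right ht s0
  have h6 := mul_nonneg (mul_nonneg h0 (sub_nonneg.2 h1)) s0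
  have h7 := mul_nonneg (mul_nonneg h0 (by linarith : 0 ≤ 1 + t)) s0
  constructor
  · refine Real.le_sqrt_of_sq_le ?_
    rw [mul_pow, Real.sq_sqrt s0]
    linarith
  · refine Real.sqrt_le_iff.2 ⟨by positivity, ?_⟩
    rw [mul_pow, Real.sq_sqrt s0]
    linarith

theorem num {η t r d c d' c' : ℝ} (h0 : 0 ≤ t) (h1 : t ≤ 1) (h4 : 4 * t ≤ η) (hr : 0 ≤ r)
    (hd : 0 ≤ d) (hc : 0 ≤ c) (k1 : d ≤ 1 + t) (k2 : c ≤ (1 + t) * r) (k3 : 1 - t ≤ d')
    (k4 : (1 - t) * r ≤ c') : (1 - η) * (d * c) ≤ c' * d' := by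
  have h2 : (1 - t) * r * (1 - t) ≤ c' * d' :=
    mul_le_mul k4 k3 (by linarith) ((mul_nonneg (by linarith) hr).trans k4)
  refine le_trans ?_ h2
  rcases le_total η 1 with h | h
  · have h3 : d * c ≤ (1 + t) * ((1 + t) * r) := mul_le_mul k1 k2 hc (by linarith)
    refine (mul_le_mul_of_nonneg_left h3 (by linarith)).trans ?_
    have h5 : (1 - η) * ((1 + t) * (1 + t)) ≤ (1 - t) * (1 - t) := by
      nlinarith [mul_nonneg (by linarith : 0 ≤ η) (mul_nonneg h0 (by linarith : 0 ≤ 2 + t))]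
    linarith [mul_le_mul_of_nonneg_right h5 hr]
  · exact (mul_nonpos_of_nonpos_of_nonneg (by linarith) (mul_nonneg hd hc)).trans
      (mul_nonneg (mul_nonneg (by linarith) hr) (by linarith))

end MatH

open MatH

/-- row MAT -/
theorem mat0 : MAT := fun n => by
  obtain ⟨e, he, K, hK, h⟩ := det_bd n
  refine ⟨min e (1 / (2 * (n + 1))), lt_min he (by positivity), K + 2, by positivity,
    fun g x a hg h0 ha k => ⟨fun i j => (up_bd hg h0 ?_ k i j).trans (by nlinarith),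
      (h (g x) a h0 (ha.trans (min_le_left _ _)) k).trans (by nlinarith)⟩⟩
  have h1 := (le_div_iff₀ (by positivity)).1 (ha.trans (min_le_right _ _))
  linarith

/-- row CMP -/
theorem cmp_of (hM : MAT) : CMP := fun n η hη => by
  obtain ⟨e, he, K, hK, h⟩ := hM n
  have h0 : 0 < min (η / 4) 1 := lt_min (by linarith) one_pos
  have h1 : (0 : ℝ) < (n + 1) * K := by positivity
  refine ⟨min e (min (η / 4) 1 / ((n + 1) * K)), lt_min he (div_pos h0 h1),
    fun g g' x hg hg' k k' ξ => ?_⟩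
  set a := min e (min (η / 4) 1 / ((n + 1) * K))
  have h2 : 0 ≤ a := (lt_min he (div_pos h0 h1)).le
  have h3 : a * ((n + 1) * K) ≤ min (η / 4) 1 := (le_div_iff₀ h1).1 (min_le_right _ _)
  have h4 := mul_nonneg hK.le h2
  have h5 := mul_nonneg (n.cast_nonneg (α := ℝ)) h4
  obtain ⟨k1, k2⟩ := h g x a hg h2 (min_le_left _ _) k
  obtain ⟨k3, k4⟩ := h g' x a hg' h2 (min_le_left _ _) k'
  have h6 : n * (K * a) ≤ min (η / 4) 1 := by linarith
  exact num h0.le (min_le_right _ _) (by linarith [min_le_left (η / 4) 1]) (Real.sqrt_nonneg _)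
    (dens_nonneg g x) (Real.sqrt_nonneg _) (by linarith [(abs_le.1 k2).2])
    (cov_bd (min_le_right _ _) h4 h6 k1 ξ).2 (by linarith [(abs_le.1 k4).1])
    (cov_bd (min_le_right _ _) h4 h6 k3 ξ).1

end Vale.Agent.P366Z.St0
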