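import Vale.Agent.P366Z.St0.Sk
import Mathlib.Analysis.Asymptotics.Lemmas

/-!
# P366Z, block STEP0: the linear part of the scalar curvature
-/

open MeasureTheory Metric Filter Topology Set Asymptotics
open scoped ContDiff ENNReal
open Vale.Agent.P366.Stmt

noncomputable section

namespace Vale.Agent.P366Z.St0

namespace Scl

variable {n : ℕ}

section Alg

variable {T : Type} {l : Filter T}

theorem bmul {u f b : T → ℝ} (hu : u =O[l] fun _ => (1 : ℝ)) (hf : f =O[l] b) :
    (fun t => u t * f t) =O[l] b := by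
  simpa using hu.mul hf

theorem mulb {u f b : T → ℝ} (hf : f =O[l] b) (hu : u =O[l] fun _ => (1 : ℝ)) :
    (fun t => f t * u t) =O[l] b := by
  simpa using hf.mul hu

theorem half {f b : T → ℝ} (hf : f =O[l] b) : (fun t => f t / 2) =O[l] b :=
  (hf.const_mul_left (1 / 2)).congr_left fun t => by ring

theorem sumO {f : Fin n → T → ℝ} {b : T → ℝ} (hf : ∀ i, f i =O[l] b) :
    (fun t => ∑ i, f i t) =O[l] b :=
  (IsBigO.sum (s := Finset.univ) fun i _ => hf i).congr_left fun t => Finset.sum_apply t _ _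

theorem sum_dl (k : Fin n) (f : Fin n → ℝ) :
    ∑ m, (if k = m then (1 : ℝ) else 0) * f m = f k := by simp

/-- the algebraic estimate -/
theorem alg {U : Fin n → Fin n → T → ℝ} {G Γ dU : Fin n → Fin n → Fin n → T → ℝ}
    {H dΓ : Fin n → Fin n → Fin n → Fin n → T → ℝ} {a a₁ a₂ b : T → ℝ}
    (hU : ∀ i j, U i j =O[l] fun _ => (1 : ℝ))
    (hU1 : ∀ i j, (fun t => U i j t - if i = j then 1 else 0) =O[l] a)
    (hG : ∀ i j k, G i j k =O[l] a₁) (hΓ : ∀ k i j, Γ k i j =O[l] a₁)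
    (hdU : ∀ k i j, dU k i j =O[l] a₁) (hH : ∀ m i j k, H m i j k =O[l] a₂)
    (h1 : (fun t => a t * a₂ t) =O[l] b) (h2 : (fun t => a₁ t * a₁ t) =O[l] b)
    (e : ∀ m k i j t, dΓ m k i j t = (∑ c, (dU m k c t * G i j c t + U k c t * H m i j c t)) / 2) :
    (fun t => ∑ i, ∑ j, U i j t * ∑ k, (dΓ k k i j t - dΓ j k i k t +
      ∑ c, (Γ k k c t * Γ c i j t - Γ k j c t * Γ c i k t)) -
        ∑ i, ∑ k, (H k i i k t / 2 - H i i k k t / 2)) =O[l] b := by
  have h3 : ∀ m k i j, (fun t => dΓ m k i j t - H m i j k t / 2) =O[l] b := fun m k i j => by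
    refine (half (sumO fun c => (((hdU m k c).mul (hG i j c)).trans h2).add
      (((hU1 k c).mul (hH m i j c)).trans h1))).congr_left fun t => ?_
    rw [e, ← sum_dl k fun c => H m i j c t, ← sub_div, ← Finset.sum_sub_distrib]
    congr 1
    exact Finset.sum_congr rfl fun c _ => by ring
  have h4 : ∀ i j, (fun t => ∑ k, (dΓ k k i j t - dΓ j k i k t +
      ∑ c, (Γ k k c t * Γ c i j t - Γ k j c t * Γ c i k t)) -
        ∑ k, (H k i j k t / 2 - H j i k k t / 2)) =O[l] b := fun i j => by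
    refine (sumO fun k => ((h3 k k i j).sub (h3 j k i k)).add (sumO fun c =>
      (((hΓ k k c).mul (hΓ c i j)).trans h2).sub
        (((hΓ k j c).mul (hΓ c i k)).trans h2))).congr_left fun t => ?_
    rw [← Finset.sum_sub_distrib]
    exact Finset.sum_congr rfl fun k _ => by ring
  have h5 : ∀ i j, (fun t => ∑ k, (H k i j k t / 2 - H j i k k t / 2)) =O[l] a₂ := fun i j =>
    sumO fun k => (half (hH k i j k)).sub (half (hH j i k k))
  refine (sumO fun i => sumO fun j => (bmul (hU i j) (h4 i j)).add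
    (((hU1 i j).mul (h5 i j)).trans h1)).congr_left fun t => ?_
  rw [← Finset.sum_sub_distrib]
  refine Finset.sum_congr rfl fun i _ => ?_
  rw [← sum_dl i fun j => ∑ k, (H k i j k t / 2 - H j i k k t / 2), ← Finset.sum_sub_distrib]
  exact Finset.sum_congr rfl fun j _ => by ring

end Alg

/-- the lowered symbols -/
def lo (g : Field n) (i j c : Fin n) (x : E n) : ℝ :=
  pd i (fun y => g y j c) x + pd j (fun y => g y i c) x - pd c (fun y => g y i j) x

theorem sm_lo {g : Field n} (hg : Met g) (i j c : Fin n) : Smooth (lo g i j c) :=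
  ContDiff.sub (ContDiff.add ((hg.sm j c).pd i) ((hg.sm i c).pd j)) ((hg.sm i j).pd c)

theorem pd_lo {g : Field n} (hg : Met g) (m i j c : Fin n) (x : E n) :
    pd m (lo g i j c) x = pd m (pd i fun y => g y j c) x + pd m (pd j fun y => g y i c) x -
      pd m (pd c fun y => g y i j) x := by
  have h1 := ((hg.sm j c).pd i).diff x
  have h2 := ((hg.sm i c).pd j).diff x
  have h3 := ((hg.sm i j).pd c).diff x
  rw [← pd_add h1 h2, ← pd_sub (h1.fun_add h2) h3]
  rfl

theorem pd_chr {g : Field n} (hg : Met g) (m k i j : Fin n) (x : E n) :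
    pd m (chr g k i j) x =
      (∑ c, (pd m (up g k c) x * lo g i j c x + up g k c x * pd m (lo g i j c) x)) / 2 := by
  have h1 : chr g k i j = fun y => (∑ c ∈ Finset.univ, up g k c y * lo g i j c y) * 2⁻¹ := by
    funext y
    rw [← div_eq_mul_inv]
    rfl
  rw [h1, pd_mul_const, pd_sum (F := fun c y => up g k c y * lo g i j c y) Finset.univ
    (fun c _ => ((hg.sm_up k c).diff x).fun_mul ((sm_lo hg i j c).diff x)), ← div_eq_mul_inv]
  congr 1
  exact Finset.sum_congr rfl fun c _ => pd_mul ((hg.sm_up k c).diff x) ((sm_lo hg i j c).diff x) m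

theorem pd_yv {g : Field n} (hg : Met g) (m i : Fin n) (x : E n) :
    pd m (yv g i) x = ∑ j, (pd m (pd j fun y => g y i j) x - pd m (pd i fun y => g y j j) x) := by
  have h1 : yv g i = fun y => ∑ j ∈ Finset.univ,
      (pd j (fun y => g y i j) y - pd i (fun y => g y j j) y) := rfl
  rw [h1, pd_sum (F := fun j y => pd j (fun y => g y i j) y - pd i (fun y => g y j j) y)
    Finset.univ fun j _ => (((hg.sm i j).pd j).diff x).fun_sub (((hg.sm j j).pd i).diff x)]
  exact Finset.sum_congr rfl fun j _ =>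
    pd_sub (((hg.sm i j).pd j).diff x) (((hg.sm j j).pd i).diff x) m

theorem lin {g : Field n} (hg : Met g) (x : E n) :
    ∑ i, ∑ k, (pd k (lo g i i k) x / 2 - pd i (lo g i k k) x / 2) = ∑ i, pd i (yv g i) x := by
  have h1 : ∀ i k, pd k (lo g i i k) x / 2 - pd i (lo g i k k) x / 2 =
      pd k (pd i fun y => g y k i) x - pd k (pd k fun y => g y i i) x / 2 -
        pd i (pd i fun y => g y k k) x / 2 := fun i k => by
    have : (fun y => g y k i) = fun y => g y i k := funext fun y => hg.sy y k i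
    rw [pd_lo hg, pd_lo hg, this]
    ring
  simp only [h1, pd_yv hg, Finset.sum_sub_distrib]
  rw [Finset.sum_comm (f := fun i k => pd k (pd i fun y => g y k i) x),
    Finset.sum_comm (f := fun i k => pd k (pd k fun y => g y i i) x / 2)]
  simp only [← Finset.sum_div]
  ring

/-- the data -/
structure Dat (n : ℕ) (e : ℝ) where
  g : Field n
  x : E n
  a : ℝ
  a₁ : ℝ
  a₂ : ℝ
  met : Met g
  a0 : 0 ≤ a
  ae : a ≤ e
  b0 : 0 ≤ a₁
  c0 : 0 ≤ a₂
  h0 : ∀ i j, |g x i j - eu n x i j| ≤ a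
  h1 : ∀ i j k, |pd k (fun y => g y i j) x| ≤ a₁
  h2 : ∀ i j k l, |pd l (pd k fun y => g y i j) x| ≤ a₂

theorem ofb {T : Type} {f b : T → ℝ} (K : ℝ) (hb : ∀ t, 0 ≤ b t) (h : ∀ t, |f t| ≤ K * b t) :
    f =O[⊤] b :=
  IsBigO.of_bound K (Eventually.of_forall fun t => by
    rw [Real.norm_eq_abs, Real.norm_of_nonneg (hb t)]
    exact h t)

theorem tob {T : Type} {f b : T → ℝ} (hb : ∀ t, 0 ≤ b t) (h : f =O[⊤] b) :
    ∃ K > (0 : ℝ), ∀ t, |f t| ≤ K * b t := by
  obtain ⟨K, hK, h⟩ := h.exists_pos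
  refine ⟨K, hK, fun t => ?_⟩
  have := eventually_top.1 h.bound t
  rwa [Real.norm_eq_abs, Real.norm_of_nonneg (hb t)] at this

section Est

variable {e : ℝ}

theorem oP (i j k : Fin n) :
    (fun t : Dat n e => pd k (fun y => t.g y i j) t.x) =O[⊤] fun t => t.a₁ :=
  ofb 1 (fun t => t.b0) fun t => by
    rw [one_mul]
    exact t.h1 i j k

theorem oQ (i j k m : Fin n) :
    (fun t : Dat n e => pd m (pd k fun y => t.g y i j) t.x) =O[⊤] fun t => t.a₂ :=
  ofb 1 (fun t => t.c0) fun t => by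
    rw [one_mul]
    exact t.h2 i j k m

theorem oG (i j k : Fin n) : (fun t : Dat n e => lo t.g i j k t.x) =O[⊤] fun t => t.a₁ :=
  ((oP j k i).add (oP i k j)).sub (oP i j k)

theorem oH (m i j k : Fin n) :
    (fun t : Dat n e => pd m (lo t.g i j k) t.x) =O[⊤] fun t => t.a₂ :=
  (((oQ j k i m).add (oQ i k j m)).sub (oQ i j k m)).congr_left fun t =>
    (pd_lo t.met m i j k t.x).symm

theorem oY : (fun t : Dat n e => ∑ i, pd i (yv t.g i) t.x) =O[⊤] fun t => t.a₂ :=
  (sumO fun i => sumO fun j => (oQ i j j i).sub (oQ j j i i)).congr_left fun t =>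
    Finset.sum_congr rfl fun i _ => (pd_yv t.met i i t.x).symm

theorem b0 (t : Dat n e) : 0 ≤ t.a * t.a₂ + t.a₁ ^ 2 :=
  add_nonneg (mul_nonneg t.a0 t.c0) (sq_nonneg _)

theorem o1 : (fun t : Dat n e => t.a * t.a₂) =O[⊤] fun t => t.a * t.a₂ + t.a₁ ^ 2 :=
  ofb 1 b0 fun t => by
    rw [abs_of_nonneg (mul_nonneg t.a0 t.c0)]
    nlinarith [sq_nonneg t.a₁]

theorem o2 : (fun t : Dat n e => t.a₁ * t.a₁) =O[⊤] fun t => t.a * t.a₂ + t.a₁ ^ 2 :=
  ofb 1 b0 fun t => by
    rw [abs_of_nonneg (mul_self_nonneg _)]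
    nlinarith [mul_nonneg t.a0 t.c0]

theorem oa : (fun t : Dat n e => t.a) =O[⊤] fun _ => (1 : ℝ) :=
  ofb e (fun _ => zero_le_one) fun t => by
    rw [abs_of_nonneg t.a0, mul_one]
    exact t.ae

variable (hU1 : ∀ i j : Fin n,
  (fun t : Dat n e => up t.g i j t.x - if i = j then 1 else 0) =O[⊤] fun t => t.a)

include hU1

theorem oU (i j : Fin n) : (fun t : Dat n e => up t.g i j t.x) =O[⊤] fun _ => (1 : ℝ) :=
  (((hU1 i j).trans oa).add (isBigO_const_one ℝ (if i = j then (1 : ℝ) else 0) ⊤)).congr_left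
    fun t => by ring

theorem oC (k i j : Fin n) : (fun t : Dat n e => chr t.g k i j t.x) =O[⊤] fun t => t.a₁ :=
  (half (sumO fun c => bmul (oU hU1 k c) (oG i j c))).congr_left fun _ => rfl

theorem odU (k i j : Fin n) : (fun t : Dat n e => pd k (up t.g i j) t.x) =O[⊤] fun t => t.a₁ :=
  (sumO fun c => sumO fun d =>
    mulb (bmul (oU hU1 i c) (oP c d k)) (oU hU1 d j)).neg_left.congr_left fun t =>
      (t.met.pd_up' k i j t.x).symm

theorem oS : (fun t : Dat n e => scal t.g t.x - ∑ i, pd i (yv t.g i) t.x) =O[⊤]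
    fun t => t.a * t.a₂ + t.a₁ ^ 2 := by
  have h := alg (T := Dat n e) (l := ⊤) (U := fun i j t => up t.g i j t.x)
    (G := fun i j k t => lo t.g i j k t.x) (Γ := fun k i j t => chr t.g k i j t.x)
    (dU := fun k i j t => pd k (up t.g i j) t.x) (H := fun m i j k t => pd m (lo t.g i j k) t.x)
    (dΓ := fun m k i j t => pd m (chr t.g k i j) t.x) (oU hU1) hU1 oG (oC hU1) (odU hU1)
    oH o1 o2 fun m k i j t => pd_chr t.met m k i j t.x
  refine h.congr_left fun t => ?_
  rw [lin t.met, scal]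

theorem oB : (fun t : Dat n e => ∑ j, |bv t.g j t.x|) =O[⊤] fun t => t.a₁ := by
  refine sumO fun j => IsBigO.abs_left ?_
  exact (sumO fun k => sumO fun c =>
    bmul (oU hU1 k c) (oC hU1 j k c)).neg_left.congr_left fun t => (t.met.bv_eq j t.x).symm

end Est

end Scl

open Scl in
theorem scl_of : MAT → SCL := by
  intro hM n
  obtain ⟨e, he, K, hK, hM⟩ := hM n
  have hU1 : ∀ i j, (fun t : Dat n e => up t.g i j t.x - if i = j then 1 else 0) =O[⊤]
      fun t => t.a := fun i j =>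
    ofb K (fun t => t.a0) fun t => (hM t.g t.x t.a t.met t.a0 t.ae t.h0).1 i j
  obtain ⟨K1, p1, hS⟩ := tob b0 (oS hU1)
  obtain ⟨K2, p2, hY⟩ := tob (fun t : Dat n e => t.c0) oY
  obtain ⟨K3, p3, hB⟩ := tob (fun t => t.b0) (oB hU1)
  refine ⟨e, he, K1 + K2 + K3, by positivity, fun g x a a₁ a₂ hg a0 ae b0 c0 q0 q1 q2 => ?_⟩
  have s1 := hS ⟨g, x, a, a₁, a₂, hg, a0, ae, b0, c0, q0, q1, q2⟩
  have s2 := hY ⟨g, x, a, a₁, a₂, hg, a0, ae, b0, c0, q0, q1, q2⟩
  have s3 := hB ⟨g, x, a, a₁, a₂, hg, a0, ae, b0, c0, q0, q1, q2⟩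
  have s4 : 0 ≤ a * a₂ + a₁ ^ 2 := by positivity
  dsimp only at s1 s2 s3
  refine ⟨s1.trans (mul_le_mul_of_nonneg_right (by linarith) s4),
    s2.trans (mul_le_mul_of_nonneg_right (by linarith) c0), fun j => ?_⟩
  refine (Finset.single_le_sum (f := fun j => |bv g j x|) (fun j _ => abs_nonneg _)
    (Finset.mem_univ j)).trans ((le_abs_self _).trans (s3.trans ?_))
  exact mul_le_mul_of_nonneg_right (by linarith) b0

end Vale.Agent.P366Z.St0
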