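import Vale.Agent.P366Z.St0.Sk
import Vale.Agent.P366Z.Sch1
import Vale.Agent.P366Z.Max

/-!
# P366Z, block STEP0, row SUB: a solution between a subsolution and a supersolution
-/

open Metric Filter Topology Set
open Vale.Agent.P366.Stmt

noncomputable section

namespace Vale.Agent.P366Z.St0

namespace SubX

variable {n : ℕ} {g : Field n} {ρ : ℝ} {U : E n → ℝ}

/-- the quadratic barrier -/
theorem quad (hg : Met g) (hf : Flat g ρ) (hU : Wt g U) {l : ℝ} (hl : 0 < l) :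
    ∃ A, 0 ≤ A ∧ ∀ y, wl g U (fun y => ‖y‖ ^ 2) y ≤ l * U y ^ 2 * (‖y‖ ^ 2 + A) := by
  obtain ⟨c, hc, C, hC⟩ := hU.bd
  have h0 : ∀ y, 0 < U y := fun y => hc.trans_le (hC y).1
  have hq : Smooth fun y : E n => ‖y‖ ^ 2 := contDiff_normSq
  obtain ⟨Λ, hΛ⟩ := hg.ell hf
  obtain ⟨K, hK, h1⟩ := bdd_of_out (hg.sm_lap hq).cont (R := ρ) (C := ‖(2 * n : ℝ)‖) fun y hy => by
    rw [hf.lap_eq hy, lap_eu_normSq]
  have C0 : 0 < C := (h0 0).trans_le (hC 0).2.1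
  have Λ0 := hΛ.one
  obtain ⟨B, hB⟩ : ∃ B, B = 2 * C * (Λ * C * (Λ * 2)) := ⟨_, rfl⟩
  obtain ⟨m, hm⟩ : ∃ m, m = l * c ^ 2 := ⟨_, rfl⟩
  have m0 : 0 < m := by rw [hm]; positivity
  refine ⟨(C ^ 2 * K + B ^ 2 / m) / m, by positivity, fun y => ?_⟩
  have k1 : ‖fderiv ℝ (fun y : E n => ‖y‖ ^ 2) y‖ ≤ 2 * ‖y‖ := by
    refine (pow_le_pow_iff_left₀ (norm_nonneg _) (by positivity) two_ne_zero).1 ?_
    rw [norm_fderiv_sq (hq.diff y), mul_pow, norm_sq_eq, Finset.mul_sum]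
    exact (Finset.sum_congr rfl fun i _ => by rw [pd_normSq]; ring).le
  have k2 := (le_abs_self _).trans ((hg.abs_ip_le U (fun y => ‖y‖ ^ 2) y).trans (mul_le_mul
    ((hΛ.gn_le (hU.sm.diff y)).trans (mul_le_mul_of_nonneg_left (hC y).2.2.1 (by linarith)))
    ((hΛ.gn_le (hq.diff y)).trans (mul_le_mul_of_nonneg_left k1 (by linarith)))
    (gn_nonneg _ _ _) (by positivity)))
  have k3 := mul_le_mul (pow_le_pow_left₀ (h0 y).le (hC y).2.1 2) (h1 y) (norm_nonneg _)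
    (by positivity)
  have k4 := mul_le_mul_of_nonneg_left ((le_abs_self _).trans_eq (Real.norm_eq_abs
    (lap g (fun y : E n => ‖y‖ ^ 2) y)).symm) (sq_nonneg (U y))
  have k5 := mul_le_mul_of_nonneg_left k2 (h0 y).le
  have k6 := mul_le_mul_of_nonneg_right (hC y).2.1
    (by positivity : 0 ≤ Λ * C * (Λ * (2 * ‖y‖)))
  have k7 : m * (‖y‖ ^ 2 + (C ^ 2 * K + B ^ 2 / m) / m) ≤
      l * U y ^ 2 * (‖y‖ ^ 2 + (C ^ 2 * K + B ^ 2 / m) / m) :=
    mul_le_mul_of_nonneg_right (hm ▸ mul_le_mul_of_nonneg_left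
      (pow_le_pow_left₀ hc.le (hC y).1 2) hl.le) (by positivity)
  have k8 : B * ‖y‖ ≤ m * ‖y‖ ^ 2 + B ^ 2 / m := by
    rw [← sub_le_iff_le_add', le_div_iff₀ m0]
    nlinarith [sq_nonneg (m * ‖y‖ - B), sq_nonneg (m * ‖y‖), sq_nonneg B]
  rw [mul_add m, mul_div_cancel₀ _ m0.ne'] at k7
  rw [hg.wl_eq (hU.sm.diff y) (hq.c2 y)]
  have k9 : B * ‖y‖ = 2 * (C * (Λ * C * (Λ * (2 * ‖y‖)))) := by rw [hB]; ring
  linarith

/-- the resolvent is continuous for the bounded, locally uniform convergence -/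
theorem loc (hn : 0 < n) (hg : Met g) (hf : Flat g ρ) (hU : Wt g U) {l e : ℝ} (hl : 0 < l)
    (he : 0 < e) (M : ℝ) (x : E n) : ∃ R, ∀ w f : E n → ℝ, ContDiff ℝ 2 w →
      (∀ y, w y ≤ M ∧ f y ≤ M ∧ (‖y‖ ≤ R → f y ≤ e) ∧
        l * U y ^ 2 * w y - wl g U w y ≤ l * U y ^ 2 * f y) → w x ≤ 2 * e := by
  obtain ⟨A, A0, hA⟩ := quad hg hf hU (half_pos hl)
  obtain ⟨c, hc, C, hC⟩ := hU.bd
  have h0 : ∀ y, 0 < U y := fun y => hc.trans_le (hC y).1
  obtain ⟨δ, hδ⟩ : ∃ δ, δ = e / (‖x‖ ^ 2 + A + 1) := ⟨_, rfl⟩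
  have δ0 : 0 < δ := by rw [hδ]; positivity
  have h5 : δ * (‖x‖ ^ 2 + A + 1) = e := by rw [hδ]; exact div_mul_cancel₀ _ (by positivity)
  have hq : Smooth fun y : E n => ‖y‖ ^ 2 := contDiff_normSq
  have far : ∀ y : E n, 2 * |M| / δ + 1 ≤ ‖y‖ → 2 * |M| ≤ δ * (‖y‖ ^ 2 + A) := fun y hy => by
    have k2 : 0 ≤ 2 * |M| / δ := by positivity
    exact (div_le_iff₀' δ0).1 (by nlinarith)
  refine ⟨2 * |M| / δ + 1, fun w f hw h => ?_⟩
  have h4 := wmp n g U (fun y => (δ * ‖y‖ ^ 2 + (-1) * w y) + (δ * A + e))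
    (fun y => l * U y ^ 2) univ hn hg hU.sm h0 isOpen_univ
    (((continuous_const.mul hq.cont).add (continuous_const.mul hw.continuous)).add
      continuous_const).continuousOn
    (fun y _ => ⟨((contDiffAt_const.mul (hq.c2 y)).add (contDiffAt_const.mul hw.contDiffAt)).add
      contDiffAt_const, by positivity, by
        have k0 : 0 ≤ l * U y ^ 2 := by positivity
        have k1 : f y ≤ δ * (‖y‖ ^ 2 + A) / 2 + e := by
          rcases le_total ‖y‖ (2 * |M| / δ + 1) with k | k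
          · exact ((h y).2.2.1 k).trans (le_add_of_nonneg_left (by positivity))
          · linarith [far y k, (h y).2.1, le_abs_self M]
        rw [wl_add_const, hg.wl_lin (hU.sm.diff y) (hq.c2 y) hw.contDiffAt]
        linarith [(h y).2.2.2, mul_le_mul_of_nonneg_left (hA y) δ0.le,
          mul_le_mul_of_nonneg_left k1 k0]⟩)
    (fun y hy => by simp at hy) (fun e' he' => ⟨2 * |M| / δ + 1, fun y _ hy => by
      linarith [far y hy, (h y).1, le_abs_self M, abs_nonneg M]⟩) x (mem_univ x)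
  linarith

end SubX

theorem sub_of (hR : RES) (hW : WMB) (hG : GRAD) (hE : REG) : SUB := by
  intro n g ρ U V u₁ u₂ hn hg hf hU hV ⟨A, bV⟩ s1 s2 ⟨A₁, b1⟩ ⟨A₂, b2⟩ le e1 e2
  obtain ⟨c, c0, C, hC⟩ := hU.bd
  have U0 : ∀ x, 0 < U x := fun x => c0.trans_le (hC x).1
  have U1 : ∀ x, U x ^ 2 ≤ C ^ 2 := fun x => pow_le_pow_left₀ (U0 x).le (hC x).2.1 2
  obtain ⟨l₀, h0⟩ := hR n g ρ U (by omega) hg hf hU
  obtain ⟨l, l1, l2, l3⟩ : ∃ l, l₀ ≤ l ∧ A ≤ l ∧ 1 ≤ l :=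
    ⟨max l₀ (max A 1), by simp, by simp, by simp⟩
  have l0 := one_pos.trans_le l3
  obtain ⟨K₁, K₂, h1⟩ := h0 l l1
  obtain ⟨D, hD⟩ := hG n g ρ U hn hg hf hU
  have W0 : ∀ x, 0 ≤ l - V x ∧ l - V x ≤ 2 * l := fun x => by
    have := abs_le.1 ((Real.norm_eq_abs _).ge.trans ((bV.1 x).trans l2))
    constructor <;> linarith [this.1, this.2]
  have W1 : ∀ x, 0 ≤ U x ^ 2 * (l - V x) := fun x => mul_nonneg (sq_nonneg _) (W0 x).1
  have bW : BL (2 * l) fun x => l - V x := ⟨fun x => by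
    rw [Real.norm_of_nonneg (W0 x).1]
    exact (W0 x).2, fun x y => by
    rw [sub_sub_sub_cancel_left, norm_sub_rev]
    exact (bV.2 x y).trans (mul_le_mul_of_nonneg_right (by linarith) (norm_nonneg _))⟩
  obtain ⟨B, B1, B2⟩ : ∃ B, A₁ ≤ B ∧ A₂ ≤ B := ⟨_, le_max_left _ _, le_max_right _ _⟩
  obtain ⟨M, M1, M2⟩ : ∃ M, B ≤ M ∧ D * (B / 1 + 1 * (3 * (l * C ^ 2 * B))) ≤ M :=
    ⟨_, le_max_left _ _, le_max_right _ _⟩
  have bt : ∀ {t : ℝ} x, u₁ x ≤ t ∧ t ≤ u₂ x → |t| ≤ B := fun x k => abs_le.2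
    ⟨by linarith [(abs_le.1 (b1.1 x)).1, k.1], by linarith [(abs_le.1 (b2.1 x)).2, k.2]⟩
  have c2 : ∀ {u : E n → ℝ}, Smooth u → ContDiff ℝ 2 u := fun h => contDiff_iff_contDiffAt.2 h.c2
  let S := {h : E n → ℝ // BL M h ∧ ∀ x, u₁ x ≤ h x ∧ h x ≤ u₂ x}
  have ab : ∀ (h : S) x, |h.1 x| ≤ B := fun h x => bt x (h.2.2 x)
  have step : ∀ h : S, ∃ w : S, ContDiff ℝ 2 w.1 ∧ (∀ R, ∃ K, H2 K w.1 (ball 0 R)) ∧
      ∀ x, l * U x ^ 2 * w.1 x - wl g U w.1 x = U x ^ 2 * (l - V x) * h.1 x := by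
    rintro ⟨h, b, k⟩
    obtain ⟨w, w1, w2, w3, w4⟩ := h1 _ _ (ResH.BL.smul bW b)
    have w5 : ∀ x, l * U x ^ 2 * w x - wl g U w x = U x ^ 2 * (l - V x) * h x := fun x => by
      rw [w4 x, smul_eq_mul, mul_assoc]
    have a : ∀ x, u₁ x ≤ w x ∧ w x ≤ u₂ x := fun x =>
      ⟨SchX.cmp hW hg hf hU l0 (c2 s1) w1 b1.1 w2.1 (fun x => by
        rw [w5]
        linarith [e1 x, mul_le_mul_of_nonneg_left (k x).1 (W1 x)]) x,
      SchX.cmp hW hg hf hU l0 w1 (c2 s2) w2.1 b2.1 (fun x => by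
        rw [w5]
        linarith [e2 x, mul_le_mul_of_nonneg_left (k x).2 (W1 x)]) x⟩
    refine ⟨⟨w, ResH.bl_of (w1.differentiable (by norm_num)) fun x => ⟨(bt x (a x)).trans M1,
      (hD 1 B _ x w one_pos le_rfl fun y _ => ⟨w1.contDiffAt, bt y (a y), ?_⟩).trans M2⟩, a⟩, w1,
      fun R => ⟨_, w3 R⟩, w5⟩
    have p1 : |l * U y ^ 2 * w y| ≤ l * C ^ 2 * B := by
      rw [abs_mul, abs_of_nonneg (by positivity)]
      exact mul_le_mul (mul_le_mul_of_nonneg_left (U1 y) l0.le) (bt y (a y)) (abs_nonneg _)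
        (by positivity)
    have p2 : |U y ^ 2 * (l - V y) * h y| ≤ C ^ 2 * (2 * l) * B := by
      rw [abs_mul, abs_of_nonneg (W1 y)]
      exact mul_le_mul (mul_le_mul (U1 y) (W0 y).2 (W0 y).1 (sq_nonneg _)) (bt y (k y))
        (abs_nonneg _) (by positivity)
    rw [abs_le] at p1 p2 ⊢
    constructor <;> linarith [w5 y, p1.1, p1.2, p2.1, p2.2]
  choose T T1 T2 T4 using step
  have mono : ∀ h h' : S, (∀ x, h.1 x ≤ h'.1 x) → ∀ x, (T h).1 x ≤ (T h').1 x := fun h h' k =>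
    SchX.cmp hW hg hf hU l0 (T1 h) (T1 h') (ab _) (ab _) fun x => by
      rw [T4, T4]
      exact mul_le_mul_of_nonneg_left (k x) (W1 x)
  let o : S := ⟨u₂, ⟨fun x => (b2.1 x).trans (B2.trans M1), fun x y => (b2.2 x y).trans
    (mul_le_mul_of_nonneg_right (B2.trans M1) (norm_nonneg _))⟩, fun x => ⟨le x, le_rfl⟩⟩
  let u : ℕ → S := fun k => T^[k] o
  have us : ∀ k, u (k + 1) = T (u k) := fun k => Function.iterate_succ_apply' T k o
  have an : ∀ x, Antitone fun k => (u k).1 x := fun x => antitone_nat_of_succ_le fun k => by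
    induction k generalizing x with
    | zero => exact ((u 1).2.2 x).2
    | succ k ih =>
      rw [us (k + 1), us k]
      exact mono (T (u k)) (u k) (fun y => by rw [← us]; exact ih y) x
  have bd : ∀ x, BddBelow (range fun k => (u k).1 x) := fun x =>
    ⟨u₁ x, by rintro _ ⟨k, rfl⟩; exact ((u k).2.2 x).1⟩
  have lim := fun x => tendsto_atTop_ciInf (an x) (bd x)
  let h : S := ⟨fun x => ⨅ k, (u k).1 x, ⟨fun x => le_of_tendsto' (lim x).norm fun k => (u k).2.1.1 x,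
    fun x y => le_of_tendsto' ((lim x).sub (lim y)).norm fun k => (u k).2.1.2 x y⟩,
    fun x => ⟨ge_of_tendsto' (lim x) fun k => ((u k).2.2 x).1,
      le_of_tendsto' (lim x) fun k => ((u k).2.2 x).2⟩⟩
  have lo : ∀ k x, h.1 x ≤ (u k).1 x := fun k x => ciInf_le (bd x) k
  have ct : ∀ w : S, Continuous w.1 := fun w => (lip_of_le w.2.1.2).cont
  have df : ∀ (w w' : S) x, w.1 x - w'.1 x ≤ 2 * B := fun w w' x => by
    linarith [(abs_le.1 (ab w x)).2, (abs_le.1 (ab w' x)).1]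
  have fx : (T h).1 = h.1 := funext fun x => le_antisymm
    (le_ciInf fun k => (mono h (u k) (lo k) x).trans (by rw [← us]; exact an x k.le_succ))
    (le_of_forall_pos_le_add fun e he => by
      obtain ⟨R, hR⟩ := SubX.loc (by omega) hg hf hU l0 (half_pos he) (4 * B) x
      obtain ⟨k, k2⟩ := (Metric.tendstoUniformlyOn_iff.1 (Antitone.tendstoUniformlyOn_of_forall_tendsto
        (isCompact_closedBall 0 R) (fun k => (ct (u k)).continuousOn) (fun x _ => an x)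
        (ct h).continuousOn fun x _ => lim x) (e / 4) (by positivity)).exists
      have := hR (fun y => (T (u k)).1 y - (T h).1 y) (fun y => 2 * ((u k).1 y - h.1 y))
        ((T1 _).sub (T1 _)) fun y => ⟨by linarith [df (T (u k)) (T h) y, df h h y],
          by linarith [df (u k) h y], fun hy => by
            have := k2 y (mem_closedBall_zero_iff.2 hy)
            rw [Real.dist_eq, abs_lt] at this
            linarith [this.1], by
            rw [hg.wl_sub (hU.sm.diff y) (T1 _).contDiffAt (T1 _).contDiffAt]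
            linarith [T4 (u k) y, T4 h y, mul_le_mul_of_nonneg_right (mul_le_mul_of_nonneg_left
              (W0 y).2 (sq_nonneg (U y))) (sub_nonneg.2 (lo k y))]⟩
      rw [← us] at this
      linarith [lo (k + 1) x])
  have eq : ∀ x, wl g U (T h).1 x = U x ^ 2 * (V x * (T h).1 x) := fun x => by
    have := T4 h x
    rw [fx] at this ⊢
    linarith
  exact ⟨(T h).1, hE n g U _ (fun q => U q.1 ^ 2 * (V q.1 * q.2)) hg hU.sm U0
    (((ContDiff.comp hU.sm contDiff_fst).pow 2).mul ((ContDiff.comp hV contDiff_fst).mul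
      contDiff_snd)) (T1 h) (T2 h) eq, (T h).2.2, eq⟩

end Vale.Agent.P366Z.St0
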