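import Vale.Agent.P366Z.St0.Sk

/-!
# P366Z, block STEP0: the row THETA
-/

open MeasureTheory Metric Filter Topology Set
open scoped ContDiff ENNReal
open Vale.Agent.P366.Stmt

noncomputable section

namespace Vale.Agent.P366Z.St0

namespace Theta

variable {n : ℕ} {g : Field n}

theorem sm_exp {u : E n → ℝ} (hu : Smooth u) (k : ℝ) : Smooth fun y => Real.exp (k * u y) :=
  ContDiff.exp (ContDiff.mul contDiff_const hu)

theorem hd_exp (k t : ℝ) : HasDerivAt (fun t => Real.exp (k * t)) (k * Real.exp (k * t)) t := by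
  have h1 : HasDerivAt (fun t => k * t) k t := by simpa using (hasDerivAt_id t).const_mul k
  have h2 := h1.exp
  rwa [mul_comm] at h2

theorem lap_exp (hg : Met g) {u : E n → ℝ} (hu : Smooth u) (k : ℝ) (x : E n) :
    lap g (fun y => Real.exp (k * u y)) x =
      k * Real.exp (k * u x) * (lap g u x + k * ip g u u x) := by
  have h0 : ContDiffAt ℝ 2 (fun t : ℝ => Real.exp (k * t)) (u x) :=
    (ContDiff.exp (ContDiff.mul contDiff_const contDiff_id)).contDiffAt
  have h1 : deriv (fun t : ℝ => Real.exp (k * t)) = fun t => k * Real.exp (k * t) :=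
    funext fun t => (hd_exp k t).deriv
  have h2 : deriv (fun t : ℝ => k * Real.exp (k * t)) (u x) = k * (k * Real.exp (k * u x)) :=
    ((hd_exp k (u x)).const_mul k).deriv
  rw [hg.lap_comp (φ := fun t : ℝ => Real.exp (k * t)) (hu.c2 x) h0, h1, h2]
  ring

/-- a large multiple of a positive function dominates on a compact set -/
theorem dom {S : Set (E n)} (hS : IsCompact S) {p q : E n → ℝ} (hp : Continuous p)
    (hq : Continuous q) (h0 : ∀ x ∈ S, 0 < p x) : ∃ k > (0 : ℝ), ∀ x ∈ S, 0 < q x + k * p x := by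
  obtain ⟨c, hc, h1⟩ := hS.exists_forall_le' hp.continuousOn h0
  obtain ⟨M, hM⟩ := hS.exists_bound_of_continuousOn hq.continuousOn
  refine ⟨(|M| + 1) / c, by positivity, fun x hx => ?_⟩
  have h2 := abs_le.1 (hM x hx : |q x| ≤ M)
  have h3 : (|M| + 1) / c * c ≤ (|M| + 1) / c * p x :=
    mul_le_mul_of_nonneg_left (h1 x hx) (by positivity)
  rw [div_mul_cancel₀ _ hc.ne'] at h3
  linarith [le_abs_self M]

theorem ex_exp (hg : Met g) {u : E n → ℝ} (hu : Smooth u) {S : Set (E n)} (hS : IsCompact S)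
    (h0 : ∀ x ∈ S, 0 < ip g u u x) :
    ∃ k > (0 : ℝ), ∀ x ∈ S, 0 < lap g (fun y => Real.exp (k * u y)) x := by
  obtain ⟨k, hk, h1⟩ := dom hS (hg.sm_ip hu hu).cont (hg.sm_lap hu).cont h0
  refine ⟨k, hk, fun x hx => ?_⟩
  rw [lap_exp hg hu]
  exact mul_pos (mul_pos hk (Real.exp_pos _)) (h1 x hx)

theorem ip_pos (hg : Met g) {u : E n → ℝ} {x : E n} {i : Fin n} (h : pd i u x ≠ 0) :
    0 < ip g u u x :=
  hg.up_pos x (ξ := fun i => pd i u x) fun e => h (congrFun e i)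

/-- a strictly subharmonic function on a ball -/
theorem ex_ph (hn : 3 ≤ n) (hg : Met g) (R : ℝ) :
    ∃ ph, Smooth ph ∧ ∀ x : E n, ‖x‖ ≤ R → 0 < lap g ph x := by
  let i : Fin n := ⟨0, by omega⟩
  have hu : Smooth fun y : E n => y i := contDiff_coord i
  obtain ⟨k, -, h1⟩ := ex_exp hg hu (isCompact_closedBall (0 : E n) R) fun x _ =>
    ip_pos hg (i := i) (by rw [pd_coord]; simp)
  exact ⟨_, sm_exp hu k, fun x hx => h1 x (by simpa using hx)⟩

theorem cpt {F : E n → ℝ} (hF : Continuous F) {R : ℝ} (hR : ∀ x, R ≤ ‖x‖ → 1 ≤ F x) {s : ℝ}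
    (hs : s < 1) : IsCompact {x | 0 ≤ F x ∧ F x ≤ s} := by
  refine (isCompact_closedBall (0 : E n) R).of_isClosed_subset
    ((isClosed_le continuous_const hF).inter (isClosed_le hF continuous_const)) fun x hx => ?_
  rw [mem_closedBall_zero_iff]
  by_contra h
  have := hR x (not_le.1 h).le
  linarith [hx.2]

/-- the collar -/
theorem collar (hg : Met g) {F : E n → ℝ} (hF : IsExt F) {R : ℝ} (hR : ∀ x, R ≤ ‖x‖ → 1 ≤ F x) :
    ∃ s > (0 : ℝ), s < 1 ∧ ∀ x, 0 ≤ F x → F x ≤ s → 0 < ip g F F x := by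
  have hc : IsCompact ({x | 0 ≤ F x ∧ F x ≤ 1 / 2} ∩ {x | ip g F F x ≤ 0}) :=
    (cpt hF.1.cont hR (by norm_num)).inter_right
      (isClosed_le (hg.sm_ip hF.1 hF.1).cont continuous_const)
  obtain ⟨c, hc0, h1⟩ := hc.exists_forall_le' (a := 0) hF.1.cont.continuousOn fun x hx => by
    refine lt_of_le_of_ne hx.1.1 fun e => ?_
    obtain ⟨i, hi⟩ := hF.2.1 x e.symm
    exact absurd (ip_pos hg hi) (not_lt.2 hx.2)
  refine ⟨min (c / 2) (1 / 2), by positivity, (min_le_right _ _).trans_lt (by norm_num),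
    fun x h0 hx => ?_⟩
  by_contra h
  have := h1 x ⟨⟨h0, hx.trans (min_le_right _ _)⟩, not_lt.1 h⟩
  linarith [hx.trans (min_le_left _ _)]

theorem d_zero {η η' t : ℝ} {f : ℝ → ℝ} (hf : Fc η η' f) (ht : t < η) : deriv f t = 0 := by
  have : f =ᶠ[𝓝 t] fun _ => 0 := by
    filter_upwards [Iio_mem_nhds ht] with s hs
    exact hf.zero s (le_of_lt hs)
  rw [this.deriv_eq]; simp

theorem d_one {η η' t : ℝ} {f : ℝ → ℝ} (hf : Fc η η' f) (ht : 2 * η < t) : deriv f t = 1 := by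
  have : f =ᶠ[𝓝 t] fun s => s - η' := by
    filter_upwards [Ioi_mem_nhds ht] with s hs
    exact hf.lin s (le_of_lt hs)
  rw [this.deriv_eq]; simp

/-- the smoothed minimum -/
theorem lap_min (hg : Met g) {η η' : ℝ} {f : ℝ → ℝ} (hf : Fc η η' f) {a H : E n → ℝ}
    (ha : Smooth a) (hH : Smooth H) (x : E n) :
    lap g (fun y => a y - f (a y + H y)) x ≤
      (1 - deriv f (a x + H x)) * lap g a x - deriv f (a x + H x) * lap g H x := by
  have h1 : Smooth fun y => a y + H y := ContDiff.add ha hH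
  have h2 : Smooth fun y => f (a y + H y) := ContDiff.comp hf.sm h1
  have h3 : ContDiffAt ℝ 2 f (a x + H x) := hf.sm.contDiffAt.of_le (by norm_cast)
  rw [hg.lap_sub (ha.c2 x) (h2.c2 x), hg.lap_comp (v := fun y => a y + H y) (h1.c2 x) h3,
    hg.lap_add (ha.c2 x) (hH.c2 x)]
  have h4 := mul_nonneg (hf.d2 (a x + H x)) (hg.ip_nonneg (fun y => a y + H y) x)
  linarith

theorem ip_min {η η' : ℝ} {f : ℝ → ℝ} (hf : Fc η η' f) {a H F : E n → ℝ}
    (ha : Smooth a) (hH : Smooth H) {x : E n} (hx : a x + H x < η) :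
    ip g (fun y => a y - f (a y + H y)) F x = ip g a F x := by
  have h1 : Smooth fun y => a y + H y := ContDiff.add ha hH
  refine ip_congr ?_ (EventuallyEq.refl _ _)
  filter_upwards [h1.cont.continuousAt.eventually_lt continuousAt_const hx] with y hy
  rw [hf.zero _ hy.le, sub_zero]

/-- the weak supersolution -/
theorem weak (hC : CAP) (hFC : FC) {ρ : ℝ} (R' : ℝ) {F b : E n → ℝ} (hn : 3 ≤ n) (hg : Met g)
    (hfl : Flat g ρ) (hF : IsExt F) (hR : ∃ R, ∀ x, R ≤ ‖x‖ → 1 ≤ F x) (hb : Smooth b)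
    (hbl : ∃ A, BL A b) (hb1 : ∀ x, 0 ≤ b x ∧ b x ≤ 1 ∧ lap g b x ≤ 0)
    (hb2 : ∀ x, F x ≤ 0 → b x = 1) (hb3 : ∃ x, b x < 1) :
    ∃ θ, Smooth θ ∧ (∀ x, 0 ≤ F x → ‖x‖ ≤ R' → lap g θ x ≤ 0) ∧
      ∀ x, F x = 0 → ip g θ F x < 0 := by
  obtain ⟨R, hR'⟩ := id hR
  obtain ⟨s, hs, hs1, hip⟩ := collar hg hF hR'
  obtain ⟨k, hk, hlap⟩ := ex_exp hg hF.1 (cpt hF.1.cont hR' hs1) fun x hx => hip x hx.1 hx.2
  have hK : IsCompact (closedBall (0 : E n) R' ∩ {x | s ≤ F x}) :=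
    (isCompact_closedBall _ _).inter_right (isClosed_le continuous_const hF.1.cont)
  obtain ⟨c, hc, hH⟩ := hC n g ρ F b _ hn hg hfl hF hR hb hbl hb1 hb2 hb3 hK
    fun x hx => hs.trans_le hx.2
  obtain ⟨H, hH, hH1, hH2, hH3⟩ := hH (c / 8) (by positivity)
  obtain ⟨η', f, hf⟩ := hFC.1 (c / 4) (by positivity)
  have he := sm_exp hF.1 k
  obtain ⟨M, hM⟩ := hK.exists_bound_of_continuousOn he.cont.continuousOn
  obtain ⟨κ, hκ, hκ1⟩ : ∃ κ > (0 : ℝ), κ * |M| ≤ c / 4 := by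
    refine ⟨c / 4 / (|M| + 1), by positivity, ?_⟩
    rw [div_mul_eq_mul_div, div_le_iff₀ (by positivity)]
    nlinarith [abs_nonneg M]
  have ha : Smooth fun y => -κ * Real.exp (k * F y) + κ :=
    ContDiff.add (ContDiff.mul contDiff_const he) contDiff_const
  refine ⟨fun y => (-κ * Real.exp (k * F y) + κ) - f ((-κ * Real.exp (k * F y) + κ) + H y),
    ContDiff.sub ha (ContDiff.comp hf.sm (ContDiff.add ha hH)), fun x h0 hx => ?_,
    fun x hx => ?_⟩
  · refine (lap_min hg hf ha hH x).trans ?_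
    have h1 := hf.d1 ((-κ * Real.exp (k * F x) + κ) + H x)
    have h2 := mul_nonneg h1.1 (hH1 x)
    rcases le_total (F x) s with h | h
    · have h3 := hlap x ⟨h0, h⟩
      rw [lap_affine]
      have h4 := mul_nonneg (sub_nonneg.2 h1.2) (mul_pos hκ h3).le
      linarith
    · have hx' : x ∈ closedBall (0 : E n) R' ∩ {x | s ≤ F x} := ⟨by simpa using hx, h⟩
      have h3 := (abs_le.1 (hM x hx' : |Real.exp (k * F x)| ≤ M)).2
      have h4 : κ * Real.exp (k * F x) ≤ κ * |M| :=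
        mul_le_mul_of_nonneg_left (h3.trans (le_abs_self M)) hκ.le
      have h5 := hH2 x hx'
      rw [d_one hf (by linarith)]
      linarith [hH1 x]
  · have h1 := hH3 x hx
    rw [ip_min hf ha hH (by rw [hx]; simp only [mul_zero, Real.exp_zero]; linarith)]
    have h2 : HasDerivAt (fun t => -κ * Real.exp (k * t) + κ) (-κ * (k * Real.exp (k * F x)))
        (F x) := ((hd_exp k (F x)).const_mul (-κ)).add_const κ
    rw [ip_comp_left (φ := fun t => -κ * Real.exp (k * t) + κ) h2 (hF.1.diff x)]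
    have h3 := mul_pos (mul_pos hκ (mul_pos hk (Real.exp_pos (k * F x))))
      (hip x hx.ge (hx.le.trans hs.le))
    linarith

end Theta

open Theta in
theorem theta_of (hC : CAP) (hFC : FC) : THETA := by
  intro n g ρ R' F b hn hg hfl hF hR hb hbl hb1 hb2 hb3
  obtain ⟨θ, hθ, h1, h2⟩ := weak hC hFC R' hn hg hfl hF hR hb hbl hb1 hb2 hb3
  obtain ⟨ph, hph, h3⟩ := ex_ph hn hg R'
  obtain ⟨R, hR⟩ := hR
  obtain ⟨k, hk, h4⟩ := dom (cpt hF.1.cont hR (s := 0) (by norm_num))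
    (p := fun x => -ip g θ F x) (q := ip g ph F) (hg.sm_ip hθ hF.1).cont.neg
    (hg.sm_ip hph hF.1).cont fun x hx => neg_pos.2 (h2 x (le_antisymm hx.2 hx.1))
  have hs : Smooth fun y => k * θ y + (-1) * ph y :=
    ContDiff.add (ContDiff.mul contDiff_const hθ) (ContDiff.mul contDiff_const hph)
  obtain ⟨M, hM⟩ := (isCompact_closedBall (0 : E n) R').exists_bound_of_continuousOn
    hs.cont.continuousOn
  refine ⟨fun y => (k * θ y + (-1) * ph y) + M, ContDiff.add hs contDiff_const,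
    fun x h0 hx => ⟨?_, ?_⟩, fun x hx => ?_⟩
  · have := (abs_le.1 (hM x (by simpa using hx) : |k * θ x + (-1) * ph x| ≤ M)).1
    linarith
  · rw [lap_add_const, hg.lap_lin (hθ.c2 x) (hph.c2 x)]
    have := mul_nonneg hk.le (neg_nonneg.2 (h1 x h0 hx))
    linarith [h3 x hx]
  · rw [ip_of_pd_add (s := k) (t := -1) (u₁ := θ) (u₂ := ph) fun i => by
      rw [pd_add_const, pd_add ((hθ.diff x).const_mul k) ((hph.diff x).const_mul (-1)),
        pd_const_mul, pd_const_mul]]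
    have := h4 x ⟨hx.ge, hx.le⟩
    linarith

end Vale.Agent.P366Z.St0
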