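import Vale.Agent.P366Z.St0.Sk

/-!
# P366Z, block STEP0, row USO1: the correction of the scalar curvature
-/

open MeasureTheory Metric Filter Topology Set
open scoped ContDiff ENNReal
open Vale.Agent.P366.Stmt

noncomputable section

namespace Vale.Agent.P366Z.St0

namespace Uso1

variable {n : ℕ}

theorem wt1 (g : Field n) : Wt g fun _ => 1 :=
  ⟨contDiff_const, 1, one_pos, 1, fun x => by simp [lap_const]⟩

theorem bl_aff {b : E n → ℝ} (h : ∃ A, BL A b) (s : ℝ) : ∃ A, BL A fun y => s * b y + 1 := by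
  obtain ⟨A, h1, h2⟩ := h
  refine ⟨|s| * A + 1, fun x => (norm_add_le _ _).trans ?_, fun x y => ?_⟩
  · rw [norm_mul, norm_one]
    exact add_le_add_left (mul_le_mul_of_nonneg_left (h1 x) (abs_nonneg s)) 1
  · rw [add_sub_add_right_eq_sub, ← mul_sub, norm_mul, add_mul, mul_assoc]
    exact (mul_le_mul_of_nonneg_left (h2 x y) (abs_nonneg s)).trans
      (le_add_of_nonneg_right (by positivity))

theorem bl_out {f : E n → ℝ} (hf : Smooth f) {R : ℝ} (e : ∀ y, R < ‖y‖ → f y = 0) :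
    ∃ A, BL A f := by
  obtain ⟨K, -, h⟩ := bdd_of_const hf e
  exact ⟨K, fun x => (h x).1, fun x y => convex_univ.norm_image_sub_le_of_norm_fderiv_le
    (fun z _ => hf.diff z) (fun z _ => (h z).2) (mem_univ y) (mem_univ x)⟩

theorem pw {ρ r q c L : ℝ} (hρ : 0 < ρ) (h1 : ρ ≤ r) (h2 : r ≤ 2 * ρ) (hq : 0 < q) (hc : 0 < c)
    (hL : 0 ≤ L) : L * ρ ^ (-(q + 2)) ≤
      L * 2 ^ (n + q) / c * ρ ^ (n - 2 - q) * (c * ρ ^ q * r ^ (-(n + q))) := by
  have h3 : (2 * ρ) ^ (-(n + q)) ≤ r ^ (-(n + q)) :=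
    Real.rpow_le_rpow_of_nonpos (hρ.trans_le h1) h2 (neg_nonpos.2 (by positivity))
  have h4 : (2 : ℝ) ^ (n + q) * 2 ^ (-(n + q)) = 1 := by
    rw [← Real.rpow_add two_pos, add_neg_cancel, Real.rpow_zero]
  have h5 : ρ ^ (n - 2 - q) * ρ ^ q * ρ ^ (-(n + q)) = ρ ^ (-(q + 2)) := by
    rw [← Real.rpow_add hρ, ← Real.rpow_add hρ]
    congr 1
    ring
  rw [Real.mul_rpow zero_le_two hρ.le] at h3
  refine le_of_eq_of_le ?_ (mul_le_mul_of_nonneg_left (mul_le_mul_of_nonneg_left h3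
    (by positivity)) (by positivity))
  rw [← h5]
  field_simp
  linear_combination (-L) * h4

end Uso1

open Uso1 in
theorem uso1_of (hS : SUB) (hB : BAR) (hC : CUTM) (hF : FE) (hG : GRAD) : USO1 := by
  intro n g F q C R m h R'
  have hn : (3 : ℝ) ≤ n := by exact_mod_cast h.dim
  have hq : 0 < q := by linarith [h.q0]
  have hR : 0 < R := by linarith [h.R1]
  have hγ := one_lt_gam h.dim
  obtain ⟨C', hC', hc⟩ := hC n q C h.C0
  obtain ⟨c, hc0, K, hK, R₀, hR₀, hb⟩ := hB n q C' h.dim hq hC'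
  obtain ⟨Kf, hKf, ρf, hf⟩ := hF n g F q C R m h
  obtain ⟨m1, f1, -, -, e1⟩ := hc g R (max R (|R'| + 1)) h.met h.af hR (le_max_left _ _)
  obtain ⟨Cg, hg⟩ := hG n _ _ _ h.dim m1 f1 (wt1 _)
  set K₂ := 2 * Kf * 2 ^ (n + q) / c with hK₂
  have k2 : 0 < K₂ := by positivity
  have t0 := (tendsto_rpow_neg_atTop hq).const_mul (K₂ * K)
  rw [mul_zero] at t0
  obtain ⟨ρ₀, h0⟩ := eventually_atTop.1 ((t0.eventually (gt_mem_nhds one_pos)).and
    ((eventually_ge_atTop (2 * R)).and ((eventually_ge_atTop R₀).and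
      ((eventually_ge_atTop ρf).and (eventually_ge_atTop (|R'| + 1))))))
  refine ⟨K₂ * K * (1 + |Cg|), by positivity, ρ₀, fun ρ hρ => ?_⟩
  obtain ⟨a1, a2, a3, a4, a5⟩ := h0 ρ hρ
  have r0 : 0 < ρ := by linarith
  obtain ⟨m2, f2, af, -, e2⟩ := hc g R ρ h.met h.af hR (by linarith)
  obtain ⟨b, β, B⟩ := hb _ R ρ ρ m2 af a2 a3 le_rfl f2
  obtain ⟨sf, bf⟩ := hf ρ a4
  set ε := K₂ * ρ ^ (n - 2 - q) with hε
  have e0 : 0 < ε := by positivity
  set M := K₂ * K * ρ ^ (-q) with hM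
  have M0 : 0 < M := by positivity
  have eb : ∀ x, 0 ≤ ε * b x ∧ ε * b x ≤ M := fun x => by
    refine ⟨mul_nonneg e0.le (B.bd x).1, (mul_le_mul_of_nonneg_left ((B.bd x).2.trans B.top)
      e0.le).trans (le_of_eq ?_)⟩
    rw [hM, hε, show -q = n - 2 - q + (2 - n) by ring, Real.rpow_add r0]
    ring
  have key : ∀ x, ε * lap (gc g ρ) b x ≤ -(2 * |fe g ρ x / (4 * gam n)|) := fun x => by
    by_cases hx : ‖x‖ ≤ ρ ∨ 2 * ρ ≤ ‖x‖
    · rw [(bf x).1 hx, zero_div, abs_zero, mul_zero, neg_zero]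
      exact mul_nonpos_of_nonneg_of_nonpos e0.le (B.sup x)
    · rw [not_or, not_le, not_le] at hx
      have k1 := mul_le_mul_of_nonneg_left (B.str x hx.1.le hx.2.le) e0.le
      have k3 := pw (n := n) r0 hx.1.le hx.2.le hq hc0 (L := 2 * Kf) (by positivity)
      have k4 : |fe g ρ x / (4 * gam n)| ≤ |fe g ρ x| := by
        rw [abs_div, abs_of_pos (a := 4 * gam n) (by linarith)]
        exact div_le_self (abs_nonneg _) (by linarith)
      rw [← hK₂, ← hε] at k3
      linarith [(bf x).2.1]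
  have ab : ∀ (x) (t : ℝ), |t| ≤ 2 → |fe g ρ x / (4 * gam n) * t| ≤ 2 * |fe g ρ x / (4 * gam n)| :=
    fun x t ht => by
      rw [abs_mul, mul_comm]
      exact mul_le_mul_of_nonneg_right ht (abs_nonneg _)
  have sv : Smooth fun x => fe g ρ x / (4 * gam n) := ContDiff.div_const sf _
  obtain ⟨u, su, bu, eu⟩ := hS n (gc g ρ) (2 * ρ) (fun _ => 1) (fun x => fe g ρ x / (4 * gam n))
    (fun y => -ε * b y + 1) (fun y => ε * b y + 1) h.dim m2 f2 (wt1 _) sv
    (bl_out sv (R := 2 * ρ) fun y hy => by rw [(bf y).1 (Or.inr hy.le), zero_div])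
    ((contDiff_const.mul B.sm).add contDiff_const) ((contDiff_const.mul B.sm).add contDiff_const)
    (bl_aff B.lip _) (bl_aff B.lip _) (fun x => by linarith [(eb x).1])
    (fun x => by
      rw [wl_one, lap_affine, one_pow, one_mul]
      have := ab x (-ε * b x + 1) (abs_le.2 ⟨by linarith [(eb x).2], by linarith [(eb x).1]⟩)
      linarith [key x, (abs_le.1 this).2])
    (fun x => by
      rw [wl_one, lap_affine, one_pow, one_mul]
      have := ab x (ε * b x + 1) (abs_le.2 ⟨by linarith [(eb x).1], by linarith [(eb x).2]⟩)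
      linarith [key x, (abs_le.1 this).1])
  simp only [wl_one, one_pow, one_mul] at eu
  have ub : ∀ x, |u x - 1| ≤ ε * b x := fun x =>
    abs_le.2 ⟨by linarith [(bu x).1], by linarith [(bu x).2]⟩
  have eM : K₂ * K * (1 + |Cg|) * ρ ^ (-q) = M + |Cg| * M := by
    rw [hM]
    ring
  refine ⟨u, su, fun x => ?_, fun x hx => ?_, ?_, fun x => ?_⟩
  · rw [eM]
    exact ((ub x).trans (eb x).2).trans (le_add_of_nonneg_right (by positivity))
  · have k := hg 1 M 0 x (fun y => u y + -1) one_pos le_rfl fun y hy => by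
      have y1 : ‖y‖ < |R'| + 1 := by
        have := norm_le_norm_add_norm_sub' y x
        rw [mem_ball, dist_eq_norm] at hy
        linarith [le_abs_self R']
      refine ⟨(su.c2 y).add contDiffAt_const, (ub y).trans (eb y).2, le_of_eq ?_⟩
      rw [wl_one, lap_add_const, lap_of_ev (e1 y (y1.trans_le (le_max_right _ _))),
        ← lap_of_ev (e2 y (y1.trans_le a5)), eu, (bf y).1 (Or.inl (y1.le.trans a5)), zero_div,
        zero_mul, abs_zero]
    rw [fderiv_add_const, div_one, mul_zero, add_zero] at k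
    rw [eM]
    exact (k.trans (mul_le_mul_of_nonneg_right (le_abs_self _) M0.le)).trans
      (le_add_of_nonneg_left M0.le)
  · have t1 := ((tendsto_rpow_neg_atTop (y := n - 2) (by linarith)).comp
      (tendsto_norm_cocompact_atTop (E := E n))).const_mul (ε * K)
    rw [mul_zero] at t1
    refine tendsto_iff_norm_sub_tendsto_zero.2 (squeeze_zero' (Eventually.of_forall fun _ =>
      norm_nonneg _) ?_ t1)
    filter_upwards [(tendsto_norm_cocompact_atTop (E := E n)).eventually (eventually_ge_atTop ρ)]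
      with x hx
    refine (ub x).trans ((mul_le_mul_of_nonneg_left (B.dec x hx) e0.le).trans (le_of_eq ?_))
    rw [Function.comp, neg_sub, mul_assoc ε]
  · rw [eu]
    field_simp

end Vale.Agent.P366Z.St0
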