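import Vale.Agent.P366Z.St0.Sk

/-!
# P366Z, block STEP0: the coefficient at infinity of the correction of the scalar curvature
-/

open MeasureTheory Metric Filter Topology Set
open scoped ContDiff ENNReal
open Vale.Agent.P366.Stmt

noncomputable section

namespace Vale.Agent.P366Z.St0

namespace Usol

variable {n : ℕ}

/-- the coefficient at infinity as a volume integral -/
theorem flux (hX : FLUX) (hn : 3 ≤ n) {G : Field n} {ρ β : ℝ} {u f : E n → ℝ} (hG : Met G)
    (hf : Flat G ρ) (hu : Smooth u) (ha : Asy u 1 β) (h0 : ∀ x, ρ ≤ ‖x‖ → f x = 0)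
    (he : ∀ x, 4 * gam n * lap G u x = f x * u x) :
    ∫ x, f x * (dens G x * u x) = -(4 * (n - 1) * omega n * β) := by
  obtain ⟨C, R, hC⟩ := ha
  have hγ : 0 < gam n := one_pos.trans (one_lt_gam hn)
  have h1 := hX n (fun i y => dens G y * gr G u i y) (-((n - 2) * β)) hn
    (fun i => ContDiff.mul hG.sm_dens (hG.sm_gr hu i)) ⟨C, max R ρ, fun x hx i => by
      have hx' := (le_max_right _ _).trans hx
      have := (hC x ((le_max_left _ _).trans hx)).2 i
      rw [hf.dens_eq hx', gr_of_eq (hf x hx'), gr_eu, one_mul, neg_mul, neg_mul, sub_neg_eq_add]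
      exact this⟩
  have h2 : ∀ x, f x * (dens G x * u x) =
      4 * gam n * ∑ i, pd i (fun y => dens G y * gr G u i y) x := fun x => by
    have := he x
    rw [lap, dv, ← mul_div_assoc, div_eq_iff (hG.dens_pos x).ne'] at this
    rw [this]; ring
  have h3 : ∀ᶠ r in atTop, ∫ x, cut r x * ∑ i, pd i (fun y => dens G y * gr G u i y) x =
      ∫ x, ∑ i, pd i (fun y => dens G y * gr G u i y) x :=
    (eventually_ge_atTop ρ).mono fun r hr => by
      congr 1; ext x
      rcases le_total ‖x‖ r with h | h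
      · rw [cut_one h, one_mul]
      · have := h2 x
        rw [h0 x (hr.trans h), zero_mul] at this
        rw [(mul_eq_zero.1 this.symm).resolve_left (by positivity), mul_zero]
  have h4 := tendsto_nhds_unique (tendsto_const_nhds.congr' (h3.mono fun _ h => h.symm)) h1
  simp_rw [h2]
  rw [integral_const_mul, h4, ← nm2_gam hn]; ring

/-- the integral of a bounded function with support in a ball -/
theorem small (hn : 0 < n) {h : E n → ℝ} {M r : ℝ} (hr : 0 ≤ r) (hM : ∀ x, |h x| ≤ M)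
    (h0 : ∀ x, r ≤ ‖x‖ → h x = 0) : |∫ x, h x| ≤ M * (omega n / n * r ^ n) := by
  rw [← setIntegral_eq_integral_of_forall_compl_eq_zero (s := ball 0 r)
    fun x hx => h0 x (by simpa using hx), ← real_ball hn 0 hr]
  exact norm_setIntegral_le_of_norm_le_const (f := h) measure_ball_lt_top fun x _ => hM x

end Usol

open Usol in
theorem usol_of (h1 : USO1) (hN : NEWT) (hX : FLUX) (hM : MASS) (hF : FE) (hA : MAT) (hC : CUTM) :
    USOL := by
  intro n g F q C R m hB R' e he
  have hn := hB.dim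
  have hn0 : 0 < n := by omega
  have hn' : (3 : ℝ) ≤ n := by exact_mod_cast hn
  have hq : 0 < q := by linarith [hB.q0]
  have hω := omega_pos hn0
  have hγ : 0 < gam n := one_pos.trans (one_lt_gam hn)
  obtain ⟨K₁, hK₁, ρ₁, hU⟩ := h1 n g F q C R m hB R'
  obtain ⟨C₀, hN⟩ := hN n hn
  obtain ⟨K₂, hK₂, ρ₂, hF⟩ := hF n g F q C R m hB
  obtain ⟨e₀, he₀, K₃, hK₃, hA⟩ := hA n
  obtain ⟨C', hC', hC⟩ := hC n q C hB.C0
  have ht : ∀ (K s ε : ℝ), 0 < s → 0 < ε → ∀ᶠ ρ : ℝ in atTop, K * ρ ^ (-s) ≤ ε :=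
    fun K s ε hs hε => by
      have := (tendsto_rpow_neg_atTop hs).const_mul K
      rw [mul_zero] at this
      exact this.eventually_le_const hε
  have hε : 0 < (n - 1) * omega n * e := mul_pos (mul_pos (by linarith) hω) he
  have hm := (hM n g F q C R m hB).eventually_const_le
    (u := -(2 * (n - 1) * omega n * m) - (n - 1) * omega n * e) (by linarith)
  refine eventually_atTop.1 ?_
  filter_upwards [hm, eventually_ge_atTop ρ₁, eventually_ge_atTop ρ₂, eventually_ge_atTop R,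
    ht K₁ q (min e 1) hq (lt_min he one_pos), ht C' q e₀ hq he₀,
    ht (K₂ * (2 * K₃ * C' + K₁) * (omega n / n * 2 ^ n)) (2 * q + 2 - n) _
      (by linarith [hB.q0]) hε] with ρ hm hρ₁ hρ₂ hρ e1 e2 e3
  have hρ1 : 1 ≤ ρ := hB.R1.trans hρ
  have hρ0 : 0 < ρ := one_pos.trans_le hρ1
  obtain ⟨u, hu, u1, u2, u3, u4⟩ := hU ρ hρ₁
  obtain ⟨hG, hf, haf, -⟩ := hC g R ρ hB.met hB.af (one_pos.trans_le hB.R1) hρ
  obtain ⟨hs, hF⟩ := hF ρ hρ₂
  have f0 : ∀ x, 2 * ρ ≤ ‖x‖ → fe g ρ x = 0 := fun x hx => (hF x).1 (.inr hx)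
  obtain ⟨β, hβ, -⟩ := hN u 1 (2 * ρ) _ 0 (by linarith) hu (fun x hx => ⟨u1 x, by
    have := u4 x
    rw [f0 x hx, zero_mul] at this
    rw [← hf.lap_eq' hn0 hG hu hx, (mul_eq_zero.1 this).resolve_left (by positivity)]
    simp⟩) u3
  refine ⟨u, β, hu, fun x => (u1 x).trans (e1.trans (min_le_left _ _)),
    fun x hx => (u2 x hx).trans (e1.trans (min_le_left _ _)), u4, hβ, ?_⟩
  have hp : 0 ≤ ρ ^ (-q) := Real.rpow_nonneg hρ0.le _
  have j1 := small (h := fun x => fe g ρ x * (dens (gc g ρ) x * u x - 1))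
    (M := K₂ * ρ ^ (-(q + 2)) * ((2 * K₃ * C' + K₁) * ρ ^ (-q))) (r := 2 * ρ) hn0 (by linarith)
    (fun x => by
      rcases le_total ‖x‖ ρ with h | h
      · rw [(hF x).1 (.inl h), zero_mul, abs_zero]; positivity
      · rw [abs_mul]
        refine mul_le_mul (hF x).2.1 ?_ (abs_nonneg _) (by positivity)
        have a1 := (hA (gc g ρ) x (C' * ρ ^ (-q)) hG (by positivity) e2 fun i j =>
          (haf x (hρ.trans h) i j i i).1.trans (mul_le_mul_of_nonneg_left
            (Real.rpow_le_rpow_of_nonpos hρ0 h (by linarith)) hC'.le)).2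
        have a2 : |u x| ≤ 2 := by
          have := abs_le.1 ((u1 x).trans (e1.trans (min_le_right _ _)))
          exact abs_le.2 ⟨by linarith, by linarith⟩
        have a3 := mul_le_mul a1 a2 (abs_nonneg _) (by positivity)
        calc |dens (gc g ρ) x * u x - 1| = |(dens (gc g ρ) x - 1) * u x + (u x - 1)| := by
              congr 1; ring
          _ ≤ |dens (gc g ρ) x - 1| * |u x| + |u x - 1| := by
              rw [← abs_mul]; exact abs_add_le _ _
          _ ≤ _ := by linarith [u1 x])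
    fun x hx => by rw [f0 x hx, zero_mul]
  have j2 : K₂ * ρ ^ (-(q + 2)) * ((2 * K₃ * C' + K₁) * ρ ^ (-q)) * (omega n / n * (2 * ρ) ^ n) =
      K₂ * (2 * K₃ * C' + K₁) * (omega n / n * 2 ^ n) * ρ ^ (-(2 * q + 2 - n)) := by
    have : ρ ^ (-(2 * q + 2 - n)) = ρ ^ (-(q + 2)) * ρ ^ (-q) * ρ ^ n := by
      rw [← Real.rpow_natCast, ← Real.rpow_add hρ0, ← Real.rpow_add hρ0]; congr 1; ring
    rw [this, mul_pow]; ring
  have j3 : ∫ x, fe g ρ x * (dens (gc g ρ) x * u x - 1) =
      -(4 * (n - 1) * omega n * β) - ∫ x, fe g ρ x := by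
    rw [← flux hX hn hG hf hu hβ f0 u4, ← integral_sub (integrable_of_out
      (f := fun x => fe g ρ x * (dens (gc g ρ) x * u x)) (hs.cont.mul (hG.sm_dens.cont.mul hu.cont)) fun x hx => by rw [f0 x hx, zero_mul])
      (integrable_of_out hs.cont f0)]
    congr 1; ext x; ring
  rw [j2, j3] at j1
  have j4 := (abs_le.1 (j1.trans e3)).1
  refine le_of_mul_le_mul_left ?_ (mul_pos (show (0 : ℝ) < n - 1 by linarith) hω)
  linarith

end Vale.Agent.P366Z.St0
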