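import Vale.Agent.P366Z.St0.Asm
import Vale.Agent.P366Z.St0.Bar
import Vale.Agent.P366Z.St0.Bub
import Vale.Agent.P366Z.St0.Cap
import Vale.Agent.P366Z.St0.Cutm
import Vale.Agent.P366Z.St0.Ext
import Vale.Agent.P366Z.St0.Mas1
import Vale.Agent.P366Z.St0.Mass
import Vale.Agent.P366Z.St0.Mat
import Vale.Agent.P366Z.St0.Mc0
import Vale.Agent.P366Z.St0.Scl
import Vale.Agent.P366Z.St0.Sub
import Vale.Agent.P366Z.St0.Theta
import Vale.Agent.P366Z.St0.Uso1
import Vale.Agent.P366Z.St0.Usol
import Vale.Agent.P366Z.St0.Wt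
import Vale.Agent.P366Z.Asy
import Vale.Agent.P366Z.Chain
import Vale.Agent.P366Z.Grad
import Vale.Agent.P366Z.Lina
import Vale.Agent.P366Z.Linb
import Vale.Agent.P366Z.Max
import Vale.Agent.P366Z.Newt
import Vale.Agent.P366Z.Res
import Vale.Agent.P366Z.Upd

/-!
# P366Z: the block `STEP0`
-/

namespace Vale.Agent.P366Z

namespace St0

theorem scl : SCL := scl_of mat0

theorem fe0 : FE := fe_of scl cutm

theorem bar : BAR := bar_of mat0 scl

theorem sub : SUB := sub_of (res_of (linv_of lina (linb_of wmb))) wmb grad reg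

theorem theta : THETA := theta_of (cap_of sub (chain_of wmp) wmp conn) fc

theorem usol : USOL :=
  usol_of (uso1_of sub bar cutm fe0 grad) newt flux (mass_of mas1 scl cutm) fe0 mat0 cutm

end St0

open St0 in
/-- the reduction to a background -/
theorem step0 : STEP0 :=
  asm ext (cmp_of mat0) cutm usol (wt_of theta bar cutm fe0 bub0 asy) mc0 coll bub0 asy

end Vale.Agent.P366Z
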