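import Vale.Agent.P366Z.St0.Sk

/-!
# P366Z, block STEP0: the strict supersolution on the exterior domain
-/

open MeasureTheory Metric Filter Topology Set
open scoped ContDiff ENNReal
open Vale.Agent.P366.Stmt

noncomputable section

namespace Vale.Agent.P366Z.St0

namespace Wt0

variable {n : ℕ}

theorem ev_lt {x : E n} {r : ℝ} (hx : ‖x‖ < r) : ∀ᶠ y in 𝓝 x, ‖y‖ < r :=
  (isOpen_lt continuous_norm continuous_const).mem_nhds hx

theorem ev_gt {x : E n} {r : ℝ} (hx : r < ‖x‖) : ∀ᶠ y in 𝓝 x, r < ‖y‖ :=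
  (isOpen_lt continuous_const continuous_norm).mem_nhds hx

/-- the function `θ` for the metric cut off at the radius `3 r` -/
theorem exists_theta (hT : THETA) {g : Field n} {F b : E n → ℝ} {q c K r R β : ℝ} (hn : 3 ≤ n)
    (hg : Met g) (hf : Flat g (2 * (3 * r))) (hF : IsExt F) (far : ∀ x, R ≤ ‖x‖ → 1 ≤ F x)
    (hR : 2 * R ≤ r) (r0 : 0 < r) (hb : Bar g q c K r (3 * r) b β) :
    ∃ θ, Smooth θ ∧ (∀ x, 0 ≤ F x → ‖x‖ ≤ 2 * r → 0 ≤ θ x ∧ lap g θ x < 0) ∧
      ∀ x, F x = 0 → ip g θ F x < 0 := by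
  have b0 := hb.pos
  obtain ⟨A, hA⟩ := hb.lip
  refine hT n g _ (2 * r) F (fun x => (b 0)⁻¹ * b x) hn hg hf hF ⟨R, far⟩
    (contDiff_const.mul hb.sm) ⟨(b 0)⁻¹ * A, fun x => ?_, fun x y => ?_⟩ (fun x => ⟨?_, ?_, ?_⟩)
    (fun x hx => ?_) ?_
  · rw [norm_mul, Real.norm_of_nonneg (inv_pos.2 b0).le]
    exact mul_le_mul_of_nonneg_left (hA.1 x) (inv_pos.2 b0).le
  · rw [← mul_sub, norm_mul, Real.norm_of_nonneg (inv_pos.2 b0).le, mul_assoc]
    exact mul_le_mul_of_nonneg_left (hA.2 x y) (inv_pos.2 b0).le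
  · exact mul_nonneg (inv_pos.2 b0).le (hb.bd x).1
  · exact (inv_mul_le_iff₀ b0).2 (by simpa using (hb.bd x).2)
  · rw [← wl_one, wl_const_mul, wl_one]
    exact mul_nonpos_of_nonneg_of_nonpos (inv_pos.2 b0).le (hb.sup x)
  · have h1 : ‖x‖ < R := not_le.1 fun h => by linarith [far x h]
    rw [hb.inn x (by linarith), inv_mul_cancel₀ b0.ne']
  · have h1 := (tendsto_rpow_neg_atTop (nm2_pos hn)).const_mul K
    rw [mul_zero, neg_sub] at h1
    obtain ⟨s, h2, h3⟩ := ((h1.eventually_lt_const b0).and (eventually_ge_atTop r)).exists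
    have h4 : ‖(EuclideanSpace.single (⟨0, by omega⟩ : Fin n) s : E n)‖ = s := by
      simp [abs_of_pos (r0.trans_le h3)]
    refine ⟨EuclideanSpace.single (⟨0, by omega⟩ : Fin n) s, (inv_mul_lt_iff₀ b0).2 ?_⟩
    have h5 := hb.dec _ (h4.symm ▸ h3)
    rw [h4] at h5
    linarith

end Wt0

open Wt0

theorem wt_of : THETA → BAR → CUTM → FE → BUB → ASY → WT := by
  intro hT hB hC hFE hU _ n g F q C R m hS
  have hn := hS.dim
  have n2 := nm2_pos hn
  have q0 : 0 < q := by linarith [hS.q0]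
  have R0 : 0 < R := one_pos.trans_le hS.R1
  have γ0 : 0 < gam n := one_pos.trans (one_lt_gam hn)
  obtain ⟨C', C0, hC⟩ := hC n q C hS.C0
  obtain ⟨c, c0, K, K0, R₀, -, hB⟩ := hB n q C' hn q0 C0
  obtain ⟨Kf, Kf0, ρf, hFE⟩ := hFE n g F q C R m hS
  obtain ⟨r, ⟨h1, h2⟩, h3⟩ := (((eventually_ge_atTop (2 * R)).and (eventually_ge_atTop R₀)).and
    (((tendsto_rpow_atTop q0).const_mul_atTop (by positivity : 0 < 4 * gam n * c)).eventually_gt_atTop
      (Kf * K))).exists
  have r0 : 0 < r := by linarith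
  obtain ⟨m0, f0, a0, e0, v0⟩ := hC g R (3 * r) hS.met hS.af R0 (by linarith)
  obtain ⟨b₀, β₀, hb₀⟩ := hB _ R r (3 * r) m0 a0 h1 h2 (by linarith) f0
  obtain ⟨θ, sθ, hθ, hθ'⟩ := exists_theta hT hn m0 f0 hS.ext hS.far h1 r0 hb₀
  have sc : Smooth fun x => cut r x * θ x := ContDiff.mul (sm_cut r) sθ
  obtain ⟨M, M0, hM⟩ := bdd_of_const sc (R := 2 * r) (c := 0) fun y hy => by
    rw [cut_zero r0 hy.le, zero_mul]
  obtain ⟨M', hM'⟩ := (isCompact_closedBall (0 : E n) (2 * r)).exists_bound_of_continuousOn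
    (m0.sm_lap sc).cont.continuousOn
  have hK : IsCompact {x | F x = 0} := (isCompact_closedBall (0 : E n) R).of_isClosed_subset
    (isClosed_eq hS.ext.1.cont continuous_const) fun x hx => mem_closedBall_zero_iff.2
      (not_lt.1 fun h => by linarith [hS.far x h.le, show F x = 0 from hx])
  obtain ⟨k, k0, hk⟩ := hK.exists_forall_le' (m0.sm_ip sθ hS.ext.1).cont.neg.continuousOn
    (a := 0) fun x hx => neg_pos.2 (hθ' x hx)
  have p0 : 0 < c * r ^ q * (2 * r) ^ (-(n + q)) := by positivity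
  set A := (|M'| + 1) / (c * r ^ q * (2 * r) ^ (-(n + q))) with hA
  have A0 : 0 < A := by positivity
  refine ⟨M + A * (K * r ^ (2 - n : ℝ)) + A * K, by positivity, k, k0, max (3 * r) ρf,
    fun ρ hρ => ?_⟩
  have ρ1 : 3 * r ≤ ρ := (le_max_left _ _).trans hρ
  obtain ⟨-, hfe⟩ := hFE ρ ((le_max_right _ _).trans hρ)
  obtain ⟨m1, f1, a1, -, v1⟩ := hC g R ρ hS.met hS.af R0 (by linarith)
  obtain ⟨b, β, hb⟩ := hB _ R r ρ m1 a1 h1 h2 (by linarith) f1
  have e1 : ∀ x, lap (gc g ρ) (fun y => 1 * (cut r y * θ y) + A * b y) x =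
      lap (gc g ρ) (fun y => cut r y * θ y) x + A * lap (gc g ρ) b x := fun x => by
    rw [m1.lap_lin (sc.c2 x) (hb.sm.c2 x), one_mul]
  have e2 : ∀ x, 2 * r < ‖x‖ → lap (gc g ρ) (fun y => cut r y * θ y) x = 0 := fun x hx => by
    rw [← lap_const (g := gc g ρ) (x := x) 0]
    exact lap_congr ((ev_gt hx).mono fun y hy => by simp [cut_zero r0 hy.le])
  have e3 : ∀ x u, ‖x‖ < 3 * r → lap (gc g ρ) u x = lap (gc g (3 * r)) u x := fun x u hx => by
    rw [lap_of_ev (v1 x (by linarith)), lap_of_ev (v0 x hx)]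
  have e4 : ∀ x, 3 * ρ ≤ ‖x‖ → 1 * (cut r x * θ x) + A * b x = A * β * ‖x‖ ^ (2 - n : ℝ) :=
    fun x hx => by rw [cut_zero r0 (by linarith), hb.out x hx]; ring
  have hU' := (hU n hn).2.2.2.2.2
  refine ⟨fun y => 1 * (cut r y * θ y) + A * b y, A * β,
    ContDiff.add (contDiff_const.mul sc) (contDiff_const.mul hb.sm), fun x => ?_, fun x hx => ?_,
    fun x hx hx' => ?_, fun x hx => ?_, fun x hx => ?_, fun x hx => ?_,
    (hU' _ _ _ (by linarith) e4).1, ?_⟩
  · have k1 := mul_le_mul_of_nonneg_left ((hb.bd x).2.trans hb.top) A0.le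
    have k2 := mul_nonneg A0.le (hb.bd x).1
    have k3 := abs_le.1 (hM x).1
    have k4 := mul_pos A0 K0
    exact abs_le.2 ⟨by linarith, by linarith⟩
  · refine add_nonneg ?_ (mul_nonneg A0.le (hb.bd x).1)
    rw [one_mul]
    rcases le_total ‖x‖ (2 * r) with h | h
    · exact mul_nonneg (cut_nonneg r x) (hθ x hx h).1
    · rw [cut_zero r0 h, zero_mul]
  · rw [e1]
    rcases le_or_gt ‖x‖ (2 * r) with h | h
    · rw [(hfe x).1 (Or.inl (by linarith)), zero_mul, add_zero, e3 x _ (by linarith)]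
      refine mul_pos_of_neg_of_neg (by linarith) ?_
      rcases lt_or_ge ‖x‖ r with h' | h'
      · rw [lap_congr (v := θ) ((ev_lt h').mono fun y hy => by simp [cut_one hy.le])]
        linarith [(hθ x hx h).2, mul_nonpos_of_nonneg_of_nonpos A0.le (hb.sup x)]
      have k1 := (le_abs_self _).trans ((hM' x (mem_closedBall_zero_iff.2 h)).trans (le_abs_self _))
      have k2 : c * r ^ q * (2 * r) ^ (-(n + q)) ≤ c * r ^ q * ‖x‖ ^ (-(n + q)) :=
        mul_le_mul_of_nonneg_left (Real.rpow_le_rpow_of_nonpos (by linarith) h (by linarith))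
          (by positivity)
      have k3 := mul_le_mul_of_nonneg_left ((hb.str x h' hx').trans (neg_le_neg k2)) A0.le
      rw [mul_neg, hA, div_mul_cancel₀ _ p0.ne'] at k3
      linarith
    · have x0 : 0 < ‖x‖ := by linarith
      have k1 := hb.str x (by linarith) hx'
      have k2 : -(Kf * K * ‖x‖ ^ (-(n + q))) ≤ fe g ρ x * b x := by
        rcases le_total ‖x‖ ρ with h' | h'
        · rw [(hfe x).1 (Or.inl h'), zero_mul, neg_nonpos]
          positivity
        refine neg_le_of_abs_le ?_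
        rw [abs_mul, abs_of_nonneg (hb.bd x).1]
        refine (mul_le_mul ((hfe x).2.2 h') (hb.dec x (by linarith)) (hb.bd x).1
          (by positivity)).trans_eq ?_
        rw [mul_mul_mul_comm, ← Real.rpow_add x0]
        congr 2
        ring
      have k3 := mul_lt_mul_of_pos_right h3 (Real.rpow_pos_of_pos x0 (-(n + q)))
      have k4 := mul_le_mul_of_nonneg_left k1 (by positivity : 0 ≤ 4 * gam n)
      have k5 : 0 < A * (-(4 * gam n) * lap (gc g ρ) b x + fe g ρ x * b x) :=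
        mul_pos A0 (by linarith)
      simp only [e2 x h, cut_zero r0 h.le]
      linarith
  · rw [e1, e2 x (by linarith), zero_add]
    exact mul_nonpos_of_nonneg_of_nonpos A0.le (hb.sup x)
  · rw [f1.lap_eq (by linarith)]
    exact (hU' _ _ _ (by linarith) e4).2 x (by linarith)
  · have k1 : ‖x‖ < R := not_le.1 fun h => by linarith [hS.far x h]
    rw [ip_congr (u' := fun y => θ y + A * b 0) ((ev_lt (show ‖x‖ < r / 2 by linarith)).mono
      fun y hy => by simp [cut_one (show ‖y‖ ≤ r by linarith), hb.inn y hy.le]) EventuallyEq.rfl,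
      ip_add_left (sθ.diff x) (differentiableAt_const _), ip_const_left, add_zero,
      ← ip_of_eq (e0 x (by linarith))]
    exact le_neg.1 (hk x hx)
  · have k1 := mul_le_mul_of_nonneg_left hb.βK A0.le
    have k2 : 0 < A * (K * r ^ (2 - n : ℝ)) := by positivity
    linarith

end Vale.Agent.P366Z.St0
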