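import Vale.Agent.P366Z.Sk
import Vale.Agent.P366Z.Calc3
import Vale.Agent.P366Z.Int

/-!
# P366Z, block STEP0: definitions and statements of the rows
-/

open MeasureTheory Metric Filter Topology Set
open scoped ContDiff ENNReal
open Vale.Agent.P366.Stmt

noncomputable section

namespace Vale.Agent.P366Z.St0

variable {n : ℕ}

/-- decay of order `q` with the constant `C` outside the ball of radius `R` -/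
def Af (g : Field n) (q C R : ℝ) : Prop := ∀ x : E n, R ≤ ‖x‖ → ∀ i j k l,
  |g x i j - eu n x i j| ≤ C * ‖x‖ ^ (-q) ∧ |pd k (fun y => g y i j) x| ≤ C * ‖x‖ ^ (-(q + 1)) ∧
    |pd l (pd k fun y => g y i j) x| ≤ C * ‖x‖ ^ (-(q + 2))

/-- the metric cut off at the radius `ρ` -/
def gc (g : Field n) (ρ : ℝ) : Field n :=
  fun x i j => cut ρ x * g x i j + (1 - cut ρ x) * eu n x i j

/-- the error of the scalar curvature -/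
def fe (g : Field n) (ρ : ℝ) (x : E n) : ℝ := scal (gc g ρ) x - cut ρ x * scal g x

/-- the vector field of the energy -/
def yv (g : Field n) (i : Fin n) (x : E n) : ℝ :=
  ∑ j, (pd j (fun y => g y i j) x - pd i (fun y => g y j j) x)

/-- the bubble -/
def bub (n : ℕ) (x : E n) : ℝ := (1 + ‖x‖ ^ 2) ^ ((2 - n : ℝ) / 2)

/-- its source -/
def src (n : ℕ) (x : E n) : ℝ := (1 + ‖x‖ ^ 2) ^ (-(n + 2 : ℝ) / 2)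

/-- the field whose divergence is the weighted mean curvature -/
def nuF (g : Field n) (U F : E n → ℝ) : Fin n → E n → ℝ :=
  fun i y => U y ^ (2 * gam n) * gr g F i y / gn g F y

/-- the data after the extension to the whole space -/
structure Bs (g : Field n) (F : E n → ℝ) (q C R m : ℝ) : Prop where
  dim : 3 ≤ n
  met : Met g
  q0 : (n : ℝ) / 2 - 1 < q
  C0 : 0 < C
  R1 : 1 ≤ R
  af : Af g q C R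
  en : Tendsto (flx fun i x => yv g i x / 2) atTop (𝓝 m)
  ext : IsExt F
  far : ∀ x, R ≤ ‖x‖ → 1 ≤ F x
  deep : ∃ x, F x < 0
  sc : ∀ x, 0 ≤ F x → 0 ≤ scal g x
  mc0 : ∀ x, F x = 0 → mc g F x ≤ 0

/-- **EXT**: the extension -/
def EXT : Prop := ∀ (n : ℕ) (D : Exterior n) (m : ℝ), 3 ≤ n → D.IsAF → D.IsEnergy m →
  (∀ x, 0 ≤ D.F x → 0 ≤ scal D.g x) → (∀ x, D.F x = 0 → mc D.g D.F x ≤ 0) →
  ∃ g F q C R, Bs g F q C R m ∧ (∀ x, D.F x ≤ 0 → F x ≤ 0) ∧ (∀ x, 0 ≤ D.F x → 0 ≤ F x) ∧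
    ∀ x, 0 ≤ D.F x → g x = D.g x

/-- **CONN**: the open exterior domain is connected -/
def CONN : Prop := ∀ (n : ℕ) (F : E n → ℝ), IsExt F → IsPreconnected {x | 0 < F x}

/-- **MAT**: matrices near the identity -/
def MAT : Prop := ∀ n : ℕ, ∃ e > (0 : ℝ), ∃ K > (0 : ℝ), ∀ (g : Field n) (x : E n) (a : ℝ), Met g →
  0 ≤ a → a ≤ e → (∀ i j, |g x i j - eu n x i j| ≤ a) →
  (∀ i j, |up g i j x - eu n x i j| ≤ K * a) ∧ |dens g x - 1| ≤ K * a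

/-- **CMP**: two metrics near the identity are comparable -/
def CMP : Prop := ∀ (n : ℕ) (η : ℝ), 0 < η → ∃ e > (0 : ℝ), ∀ (g g' : Field n) (x : E n), Met g →
  Met g' → (∀ i j, |g x i j - eu n x i j| ≤ e) → (∀ i j, |g' x i j - eu n x i j| ≤ e) →
  ∀ ξ : Fin n → ℝ, (1 - η) * (dens g x * covNorm g (fun i _ => ξ i) x) ≤
    covNorm g' (fun i _ => ξ i) x * dens g' x

/-- **SCL**: the linear part of the scalar curvature -/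
def SCL : Prop := ∀ n : ℕ, ∃ e > (0 : ℝ), ∃ K > (0 : ℝ), ∀ (g : Field n) (x : E n) (a a₁ a₂ : ℝ),
  Met g → 0 ≤ a → a ≤ e → 0 ≤ a₁ → 0 ≤ a₂ → (∀ i j, |g x i j - eu n x i j| ≤ a) →
  (∀ i j k, |pd k (fun y => g y i j) x| ≤ a₁) →
  (∀ i j k l, |pd l (pd k fun y => g y i j) x| ≤ a₂) →
  |scal g x - ∑ i, pd i (yv g i) x| ≤ K * (a * a₂ + a₁ ^ 2) ∧ |∑ i, pd i (yv g i) x| ≤ K * a₂ ∧
    ∀ j, |bv g j x| ≤ K * a₁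

/-- **CUTM**: the metric cut off -/
def CUTM : Prop := ∀ (n : ℕ) (q C : ℝ), 0 < C → ∃ C' > (0 : ℝ), ∀ (g : Field n) (R ρ : ℝ), Met g →
  Af g q C R → 0 < R → R ≤ ρ → Met (gc g ρ) ∧ Flat (gc g ρ) (2 * ρ) ∧ Af (gc g ρ) q C' R ∧
    (∀ x, ‖x‖ ≤ ρ → gc g ρ x = g x) ∧ ∀ x, ‖x‖ < ρ → gc g ρ =ᶠ[𝓝 x] g

/-- **FE**: the error of the scalar curvature -/
def FE : Prop := ∀ (n : ℕ) (g : Field n) F q C R m, Bs g F q C R m → ∃ K > (0 : ℝ), ∃ ρ₀ : ℝ,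
  ∀ ρ ≥ ρ₀, Smooth (fe g ρ) ∧ ∀ x, (‖x‖ ≤ ρ ∨ 2 * ρ ≤ ‖x‖ → fe g ρ x = 0) ∧
    |fe g ρ x| ≤ K * ρ ^ (-(q + 2)) ∧ (ρ ≤ ‖x‖ → |fe g ρ x| ≤ K * ‖x‖ ^ (-(q + 2)))

/-- the radial barrier at the scale `R`, harmonic outside the ball of radius `3 ρ` -/
structure Bar (g : Field n) (q c K R ρ : ℝ) (b : E n → ℝ) (β : ℝ) : Prop where
  sm : Smooth b
  inn : ∀ x, ‖x‖ ≤ R / 2 → b x = b 0
  bd : ∀ x, 0 ≤ b x ∧ b x ≤ b 0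
  pos : 0 < b 0
  top : b 0 ≤ K * R ^ (2 - n : ℝ)
  dec : ∀ x, R ≤ ‖x‖ → b x ≤ K * ‖x‖ ^ (2 - n : ℝ)
  sup : ∀ x, lap g b x ≤ 0
  str : ∀ x, R ≤ ‖x‖ → ‖x‖ ≤ 2 * ρ → lap g b x ≤ -(c * R ^ q * ‖x‖ ^ (-(n + q)))
  out : ∀ x, 3 * ρ ≤ ‖x‖ → b x = β * ‖x‖ ^ (2 - n : ℝ)
  β0 : 0 ≤ β
  βK : β ≤ K
  lip : ∃ A, BL A b

/-- **BAR**: the radial barrier -/
def BAR : Prop := ∀ (n : ℕ) (q C : ℝ), 3 ≤ n → 0 < q → 0 < C → ∃ c > (0 : ℝ), ∃ K > (0 : ℝ),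
  ∃ R₀ > (0 : ℝ), ∀ (g : Field n) (R₁ R ρ : ℝ), Met g → Af g q C R₁ → 2 * R₁ ≤ R → R₀ ≤ R → R ≤ ρ →
    Flat g (2 * ρ) → ∃ b β, Bar g q c K R ρ b β

/-- **SUB**: a solution between a subsolution and a supersolution -/
def SUB : Prop := ∀ (n : ℕ) (g : Field n) (ρ : ℝ) (U V u₁ u₂ : E n → ℝ), 3 ≤ n → Met g → Flat g ρ →
  Wt g U → Smooth V → (∃ A, BL A V) → Smooth u₁ → Smooth u₂ → (∃ A, BL A u₁) → (∃ A, BL A u₂) →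
  (∀ x, u₁ x ≤ u₂ x) → (∀ x, U x ^ 2 * (V x * u₁ x) ≤ wl g U u₁ x) →
  (∀ x, wl g U u₂ x ≤ U x ^ 2 * (V x * u₂ x)) →
  ∃ u, Smooth u ∧ (∀ x, u₁ x ≤ u x ∧ u x ≤ u₂ x) ∧ ∀ x, wl g U u x = U x ^ 2 * (V x * u x)

/-- **MAS1**: the energy as a volume integral -/
def MAS1 : Prop := ∀ (n : ℕ) (Y : Fin n → E n → ℝ) (m : ℝ), 3 ≤ n → (∀ i, Smooth (Y i)) →
  Tendsto (flx fun i x => Y i x / 2) atTop (𝓝 m) →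
  Tendsto (fun ρ => ∫ x, ∑ i, pd i (cut ρ) x * Y i x) atTop (𝓝 (-(2 * (n - 1) * omega n * m)))

/-- **MASS**: the integral of the error -/
def MASS : Prop := ∀ (n : ℕ) (g : Field n) F q C R m, Bs g F q C R m →
  Tendsto (fun ρ => ∫ x, fe g ρ x) atTop (𝓝 (-(2 * (n - 1) * omega n * m)))

/-- **CAP**: almost capacitary potentials -/
def CAP : Prop := ∀ (n : ℕ) (g : Field n) (ρ : ℝ) (F b : E n → ℝ) (K : Set (E n)), 3 ≤ n → Met g →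
  Flat g ρ → IsExt F → (∃ R, ∀ x, R ≤ ‖x‖ → 1 ≤ F x) → Smooth b → (∃ A, BL A b) →
  (∀ x, 0 ≤ b x ∧ b x ≤ 1 ∧ lap g b x ≤ 0) → (∀ x, F x ≤ 0 → b x = 1) → (∃ x, b x < 1) →
  IsCompact K → (∀ x ∈ K, 0 < F x) → ∃ c > (0 : ℝ), ∀ e > (0 : ℝ), ∃ H, Smooth H ∧
    (∀ x, 0 ≤ lap g H x) ∧ (∀ x ∈ K, c ≤ H x) ∧ ∀ x, F x = 0 → H x ≤ e

/-- **THETA**: a strict supersolution that decreases away from the boundary -/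
def THETA : Prop := ∀ (n : ℕ) (g : Field n) (ρ R' : ℝ) (F b : E n → ℝ), 3 ≤ n → Met g →
  Flat g ρ → IsExt F → (∃ R, ∀ x, R ≤ ‖x‖ → 1 ≤ F x) → Smooth b → (∃ A, BL A b) →
  (∀ x, 0 ≤ b x ∧ b x ≤ 1 ∧ lap g b x ≤ 0) → (∀ x, F x ≤ 0 → b x = 1) → (∃ x, b x < 1) →
  ∃ θ, Smooth θ ∧ (∀ x, 0 ≤ F x → ‖x‖ ≤ R' → 0 ≤ θ x ∧ lap g θ x < 0) ∧
    ∀ x, F x = 0 → ip g θ F x < 0

/-- **USO1**: the correction of the scalar curvature -/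
def USO1 : Prop := ∀ (n : ℕ) (g : Field n) F q C R m, Bs g F q C R m → ∀ R' : ℝ, ∃ K > (0 : ℝ),
  ∃ ρ₀ : ℝ, ∀ ρ ≥ ρ₀, ∃ u, Smooth u ∧ (∀ x, |u x - 1| ≤ K * ρ ^ (-q)) ∧
    (∀ x, ‖x‖ ≤ R' → ‖fderiv ℝ u x‖ ≤ K * ρ ^ (-q)) ∧ Tendsto u (cocompact (E n)) (𝓝 1) ∧
    ∀ x, 4 * gam n * lap (gc g ρ) u x = fe g ρ x * u x

/-- **USOL**: the same with the coefficient at infinity -/
def USOL : Prop := ∀ (n : ℕ) (g : Field n) F q C R m, Bs g F q C R m → ∀ R' : ℝ, ∀ e > (0 : ℝ),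
  ∃ ρ₀ : ℝ, ∀ ρ ≥ ρ₀, ∃ u β, Smooth u ∧ (∀ x, |u x - 1| ≤ e) ∧
    (∀ x, ‖x‖ ≤ R' → ‖fderiv ℝ u x‖ ≤ e) ∧
    (∀ x, 4 * gam n * lap (gc g ρ) u x = fe g ρ x * u x) ∧ Asy u 1 β ∧ 2 * β ≤ m + e

/-- **MC0**: the weighted mean curvature -/
def MC0 : Prop := ∀ (n : ℕ) (g : Field n) (U F : E n → ℝ) (x : E n), Met g → Smooth U →
  (∀ y, 0 < U y) → Smooth F → gn g F x ≠ 0 → dv g (nuF g U F) x =
    U x ^ (2 * gam n) * mc g F x + 2 * gam n * U x ^ (2 * gam n - 1) * ip g U F x / gn g F x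

/-- **COLL**: from the boundary to a collar -/
def COLL : Prop := ∀ (n : ℕ) (g : Field n) (U F : E n → ℝ), Met g → Smooth U → (∀ y, 0 < U y) →
  Smooth F → (∃ R, ∀ x, R ≤ ‖x‖ → 1 ≤ F x) →
  (∀ x, F x = 0 → gn g F x ≠ 0 ∧ dv g (nuF g U F) x < 0) →
  ∃ s > (0 : ℝ), ∃ h > (0 : ℝ), ∀ x, |F x| ≤ s → gn g F x ≠ 0 ∧ dv g (nuF g U F) x ≤ -h

/-- **BUB**: the bubble and the fundamental solution -/
def BUB : Prop := ∀ n : ℕ, 3 ≤ n → Smooth (bub n) ∧ Smooth (src n) ∧ Asy (bub n) 0 1 ∧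
  (∀ x, 0 < bub n x ∧ bub n x ≤ 1 ∧ 0 < src n x ∧ src n x ≤ 1 ∧
    lap (eu n) (bub n) x = -(n * (n - 2) * src n x) ∧
    (1 ≤ ‖x‖ → src n x ≤ ‖x‖ ^ (-(n + 2) : ℝ))) ∧ (∃ C, ∀ x, ‖fderiv ℝ (src n) x‖ ≤ C) ∧
  ∀ (b : E n → ℝ) (β R : ℝ), 0 < R → (∀ x, R ≤ ‖x‖ → b x = β * ‖x‖ ^ (2 - n : ℝ)) →
    Asy b 0 β ∧ ∀ x, R < ‖x‖ → lap (eu n) b x = 0

/-- **WT**: the strict supersolution on the exterior domain -/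
def WT : Prop := ∀ (n : ℕ) (g : Field n) F q C R m, Bs g F q C R m → ∃ K > (0 : ℝ), ∃ c > (0 : ℝ),
  ∃ ρ₀ : ℝ, ∀ ρ ≥ ρ₀, ∃ w β, Smooth w ∧ (∀ x, |w x| ≤ K) ∧ (∀ x, 0 ≤ F x → 0 ≤ w x) ∧
    (∀ x, 0 ≤ F x → ‖x‖ ≤ 2 * ρ → 0 < -(4 * gam n) * lap (gc g ρ) w x + fe g ρ x * w x) ∧
    (∀ x, 2 * ρ ≤ ‖x‖ → lap (gc g ρ) w x ≤ 0) ∧ (∀ x, 4 * ρ ≤ ‖x‖ → lap (gc g ρ) w x = 0) ∧
    (∀ x, F x = 0 → ip g w F x ≤ -c) ∧ Asy w 0 β ∧ β ≤ K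

end Vale.Agent.P366Z.St0
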